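import Crest.Agent.R347.Basic

-- ▼ part R347/Path
section

/-! Exchange of space and time directions for a matrix product operator on a ring. -/

set_option autoImplicit false

namespace Crest.Agent.R347

open Matrix

section
variable {K κ R : Type*} [Fintype K] [DecidableEq K] [Fintype κ] [DecidableEq κ]
  [CommRing R]

/-- Matrix product operator with site tensor `M` on a ring of `L + 1` sites; the label of the
last bond (between site `L` and site `0`) carries the weight `s`. -/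
def Gop (s : K → R) (M : K → K → Matrix κ κ R) (L : ℕ) :
    Matrix (Fin (L + 1) → κ) (Fin (L + 1) → κ) R :=
  ∑ a : Fin (L + 1) → K, s (a (Fin.last L)) •
    piK (fun j => M (a ((finRotate (L + 1)).symm j)) (a j))

/-- Column (space-direction) transfer matrix. -/
def tau (Q : Matrix κ κ R) (M : K → K → Matrix κ κ R) (n : ℕ) :
    Matrix (Fin n → K) (Fin n → K) R :=
  Matrix.of fun ω ω' => (Q * (List.ofFn fun k => M (ω k) (ω' k)).prod).trace

/-- Open-chain MPO: `L` sites, boundary labels weighted by `v` (left) and `w` (right). -/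
def Gopen (v w : K → R) (M : K → K → Matrix κ κ R) (L : ℕ) :
    Matrix (Fin L → κ) (Fin L → κ) R :=
  ∑ a : Fin (L + 1) → K, (v (a 0) * w (a (Fin.last L))) •
    piK (fun j : Fin L => M (a j.castSucc) (a j.succ))

/-- Power of a finite sum as a sum over words. -/
theorem sum_pow_eq_sum_ofFn {S ι : Type*} [Semiring S] [Fintype ι] (X : ι → S) (n : ℕ) :
    (∑ a, X a) ^ n = ∑ A : Fin n → ι, (List.ofFn fun k => X (A k)).prod := by
  induction n with
  | zero => simp
  | succ n ih =>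
    rw [pow_succ', ih, ← (Fin.consEquiv (fun _ => ι)).sum_comp, Fintype.sum_prod_type,
      Finset.sum_mul]
    refine Finset.sum_congr rfl fun a _ => ?_
    rw [Finset.mul_sum]
    refine Finset.sum_congr rfl fun A _ => ?_
    simp [List.ofFn_succ, Fin.consEquiv]

/-- Product of scaled tensor-product operators. -/
theorem ofFn_smul_piK_prod {ι : Type*} [Fintype ι] [DecidableEq ι] (n : ℕ) (c : Fin n → R)
    (A : Fin n → ι → Matrix κ κ R) :
    (List.ofFn fun k => c k • piK (A k)).prod =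
      (∏ k, c k) • piK (fun j => (List.ofFn fun k => A k j).prod) := by
  induction n with
  | zero => simp [piK_one]
  | succ n ih =>
    rw [List.ofFn_succ, List.prod_cons, ih, Fin.prod_univ_succ]
    rw [smul_mul_assoc, mul_smul_comm, smul_smul, piK_mul]
    simp [List.ofFn_succ]

/-- Sum over open paths. -/
theorem dotProduct_pow_mulVec {X : Type*} [Fintype X] [DecidableEq X] (T : Matrix X X R)
    (L : ℕ) (f g : X → R) :
    f ⬝ᵥ (T ^ L).mulVec g =
      ∑ B : Fin (L + 1) → X, f (B 0) * g (B (Fin.last L)) *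
        ∏ j : Fin L, T (B j.castSucc) (B j.succ) := by
  induction L generalizing f with
  | zero =>
    rw [← (Equiv.funUnique (Fin 1) X).symm.sum_comp]
    simp [dotProduct]
  | succ L ih =>
    have h : f ⬝ᵥ (T ^ (L + 1)).mulVec g = (f ᵥ* T) ⬝ᵥ (T ^ L).mulVec g := by
      rw [pow_succ', ← Matrix.mulVec_mulVec, Matrix.dotProduct_mulVec]
    have hR : (∑ B : Fin (L + 1 + 1) → X, f (B 0) * g (B (Fin.last (L + 1))) *
        ∏ j : Fin (L + 1), T (B j.castSucc) (B j.succ)) =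
        ∑ B : Fin (L + 1) → X, ∑ x : X,
          f ((Fin.consEquiv (fun _ => X)) (x, B) 0) *
            g ((Fin.consEquiv (fun _ => X)) (x, B) (Fin.last (L + 1))) *
          ∏ j : Fin (L + 1), T ((Fin.consEquiv (fun _ => X)) (x, B) j.castSucc)
            ((Fin.consEquiv (fun _ => X)) (x, B) j.succ) := by
      rw [← (Fin.consEquiv (fun _ : Fin (L + 1 + 1) => X)).sum_comp, Fintype.sum_prod_type,
        Finset.sum_comm]
    rw [h, ih, hR]
    refine Finset.sum_congr rfl fun B _ => ?_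
    simp only [Matrix.vecMul, dotProduct, Finset.sum_mul]
    refine Finset.sum_congr rfl fun x _ => ?_
    rw [Fin.prod_univ_succ]
    have e1 : (Fin.consEquiv (fun _ => X)) (x, B) 0 = x := rfl
    have e2 : ∀ j : Fin (L + 1), (Fin.consEquiv (fun _ => X)) (x, B) j.succ = B j := fun j => rfl
    have e3 : (Fin.consEquiv (fun _ => X)) (x, B) (Fin.last (L + 1)) = B (Fin.last L) := by
      rw [← Fin.succ_last]; exact e2 _
    have e4 : (Fin.consEquiv (fun _ => X)) (x, B) (Fin.castSucc 0) = x := rfl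
    have e5 : ∀ j : Fin L, (Fin.consEquiv (fun _ => X)) (x, B) j.succ.castSucc = B j.castSucc :=
      fun j => by rw [← Fin.succ_castSucc]; exact e2 _
    rw [e1, e3, e4, e2 0]
    simp only [e5, e2]
    ring

/-- Trace over closed paths. -/
theorem trace_diagonal_mul_pow {X : Type*} [Fintype X] [DecidableEq X] (T : Matrix X X R)
    (d : X → R) (L : ℕ) :
    (Matrix.diagonal d * T ^ (L + 1)).trace =
      ∑ B : Fin (L + 1) → X, d (B (Fin.last L)) *
        ∏ j : Fin (L + 1), T (B ((finRotate (L + 1)).symm j)) (B j) := by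
  have h1 : (Matrix.diagonal d * T ^ (L + 1)).trace =
      ∑ x, d x * ((T x) ⬝ᵥ (T ^ L).mulVec (Pi.single x 1)) := by
    simp only [Matrix.trace, Matrix.diag, Matrix.diagonal_mul]
    refine Finset.sum_congr rfl fun x _ => ?_
    congr 1
    rw [pow_succ', Matrix.mul_apply]
    simp [dotProduct, Matrix.mulVec_single]
  rw [h1]
  simp only [dotProduct_pow_mulVec, Finset.mul_sum]
  rw [Finset.sum_comm]
  refine Finset.sum_congr rfl fun B _ => ?_
  rw [Finset.sum_eq_single (B (Fin.last L))]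
  · rw [Fin.prod_univ_succ]
    have e0 : (finRotate (L + 1)).symm 0 = Fin.last L := by
      rw [Equiv.symm_apply_eq, finRotate_last]
    have e1 : ∀ j : Fin L, (finRotate (L + 1)).symm j.succ = j.castSucc := fun j => by
      rw [Equiv.symm_apply_eq, finRotate_apply]
      simp
    rw [e0]
    simp only [e1, Pi.single_eq_same]
    ring
  · intro x _ hx
    rw [Pi.single_eq_of_ne (Ne.symm hx)]
    ring
  · simp

/-- Row/column exchange on the torus. -/
theorem transfer_identity (Q : Matrix κ κ R) (s : K → R) (M : K → K → Matrix κ κ R) (L n : ℕ) :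
    (piK (fun _ : Fin (L + 1) => Q) * (Gop s M L) ^ n).trace =
      (Matrix.diagonal (fun ω : Fin n → K => ∏ k, s (ω k)) * (tau Q M n) ^ (L + 1)).trace := by
  rw [trace_diagonal_mul_pow, Gop, sum_pow_eq_sum_ofFn, Finset.mul_sum, Matrix.trace_sum]
  rw [← (Equiv.piComm (fun (_ : Fin (L + 1)) (_ : Fin n) => K)).sum_comp]
  refine Finset.sum_congr rfl fun B _ => ?_
  rw [ofFn_smul_piK_prod, mul_smul_comm, Matrix.trace_smul, piK_mul, trace_piK, smul_eq_mul]
  rfl

/-- Row/column exchange on the cylinder (open chain). -/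
theorem transfer_identity_open (Q : Matrix κ κ R) (v w : K → R) (M : K → K → Matrix κ κ R)
    (L n : ℕ) :
    (piK (fun _ : Fin L => Q) * (Gopen v w M L) ^ n).trace =
      (fun ω : Fin n → K => ∏ k, v (ω k)) ⬝ᵥ
        ((tau Q M n) ^ L).mulVec (fun ω : Fin n → K => ∏ k, w (ω k)) := by
  rw [dotProduct_pow_mulVec, Gopen, sum_pow_eq_sum_ofFn, Finset.mul_sum, Matrix.trace_sum]
  rw [← (Equiv.piComm (fun (_ : Fin (L + 1)) (_ : Fin n) => K)).sum_comp]
  refine Finset.sum_congr rfl fun B _ => ?_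
  rw [ofFn_smul_piK_prod, mul_smul_comm, Matrix.trace_smul, piK_mul, trace_piK, smul_eq_mul,
    Finset.prod_mul_distrib]
  rfl

end

end Crest.Agent.R347
end

-- ▼ part R347/Cartesian
section

/-! Real (Cartesian) form of the site tensors and of the space-direction transfer matrices. -/

set_option autoImplicit false

namespace Crest.Agent.R347

open Matrix Crest.MathPhysics.SpinChain

section
variable {κ R : Type*} [DecidableEq κ] [CommRing R]

/-- Site tensor. Labels: `0` = no bond operator, `c.succ` = component `c`. -/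
def Mten (B : Fin 3 → Matrix κ κ R) (e : R) (a b : Fin 4) : Matrix κ κ R :=
  Fin.cases (motive := fun _ => Matrix κ κ R)
    (Fin.cases (motive := fun _ => Matrix κ κ R) 1 (fun d => e • B d) b)
    (fun c => Fin.cases (motive := fun _ => Matrix κ κ R) (e • B c) (fun _ => 0) b) a

@[simp] theorem Mten_zero_zero (B : Fin 3 → Matrix κ κ R) (e : R) : Mten B e 0 0 = 1 := rfl
@[simp] theorem Mten_zero_succ (B : Fin 3 → Matrix κ κ R) (e : R) (d : Fin 3) :
    Mten B e 0 d.succ = e • B d := rfl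
@[simp] theorem Mten_succ_zero (B : Fin 3 → Matrix κ κ R) (e : R) (d : Fin 3) :
    Mten B e d.succ 0 = e • B d := rfl
@[simp] theorem Mten_succ_succ (B : Fin 3 → Matrix κ κ R) (e : R) (c d : Fin 3) :
    Mten B e c.succ d.succ = 0 := rfl

theorem Mten_comm (B : Fin 3 → Matrix κ κ R) (e : R) (a b : Fin 4) :
    Mten B e a b = Mten B e b a := by
  refine Fin.cases ?_ (fun a => ?_) a <;> refine Fin.cases ?_ (fun b => ?_) b <;> simp

end

/-- Signs `eta` extended to the four labels (label `0` has sign `1`). -/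
def etaK (R : Type*) [Ring R] (a : Fin 4) (c : Fin 4) : R :=
  Fin.cases (motive := fun _ => R) 1 (fun c => ((eta a c : ℤ) : R)) c

/-- `i S^c` in the Cartesian basis: real antisymmetric. -/
def Treal : Fin 3 → Matrix (Fin 3) (Fin 3) ℝ :=
  ![!![0, 0, 0; 0, 0, 1; 0, -1, 0],
    !![0, 0, -1; 0, 0, 0; 1, 0, 0],
    !![0, 1, 0; -1, 0, 0; 0, 0, 0]]

/-- Real π-rotations `1 + 2 T²`, diagonal with entries ±1. -/
def rotR (b : Fin 4) : Matrix (Fin 3) (Fin 3) ℝ :=
  Fin.cases (motive := fun _ => Matrix (Fin 3) (Fin 3) ℝ) 1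
    (fun c => 1 + 2 • (Treal c * Treal c)) b

/-- Space-direction transfer matrix at bond coupling `e² = β/n`, time twist `b`, real form. -/
noncomputable def tauR (b : Fin 4) (e : ℝ) (n : ℕ) : Matrix (Fin n → Fin 4) (Fin n → Fin 4) ℝ :=
  tau (rotR b) (Mten Treal e) n

/-- Sign operator of the space twist. -/
def Dsig (a : Fin 4) (n : ℕ) : Matrix (Fin n → Fin 4) (Fin n → Fin 4) ℝ :=
  Matrix.diagonal fun ω => ∏ k, etaK ℝ a (ω k)

section general
variable {K κ R S : Type*} [Fintype K] [DecidableEq K] [Fintype κ] [DecidableEq κ]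
  [CommRing R] [CommRing S]


theorem ofFn_prod_intertwine (V : Matrix κ κ R) (n : ℕ) (A B : Fin n → Matrix κ κ R)
    (h : ∀ i, A i * V = V * B i) : (List.ofFn A).prod * V = V * (List.ofFn B).prod := by
  induction n with
  | zero => simp
  | succ n ih =>
    rw [List.ofFn_succ, List.ofFn_succ, List.prod_cons, List.prod_cons, Matrix.mul_assoc,
      ih (fun i => A i.succ) (fun i => B i.succ) (fun i => h _), ← Matrix.mul_assoc, h,
      Matrix.mul_assoc]

theorem ofFn_prod_smul (n : ℕ) (s : Fin n → R) (A : Fin n → Matrix κ κ R) :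
    (List.ofFn fun i => s i • A i).prod = (∏ i, s i) • (List.ofFn A).prod := by
  induction n with
  | zero => simp
  | succ n ih =>
    rw [List.ofFn_succ, List.ofFn_succ, List.prod_cons, List.prod_cons,
      ih (fun i => s i.succ) (fun i => A i.succ), Fin.prod_univ_succ,
      Matrix.smul_mul, Matrix.mul_smul, smul_smul]

omit [Fintype K] [DecidableEq K] in
/-- Symmetry of the space-direction transfer matrix induced by a site matrix `V`. -/
theorem tau_symm (V V' : Matrix κ κ R) (hV : V * V' = 1) (Q Q' : Matrix κ κ R)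
    (M M' : K → K → Matrix κ κ R) (s t : K → R) (π : K → K) (hQ : Q * V = V * Q')
    (hM : ∀ a b, M a b * V = V * ((s a * t b) • M' (π a) (π b))) (n : ℕ) (ω ω' : Fin n → K) :
    tau Q M n ω ω' = ((∏ k, s (ω k)) * ∏ k, t (ω' k)) *
      tau Q' M' n (fun k => π (ω k)) (fun k => π (ω' k)) := by
  simp only [tau, Matrix.of_apply]
  have h1 : (List.ofFn fun k => M (ω k) (ω' k)).prod * V =
      V * (((∏ k, s (ω k)) * ∏ k, t (ω' k)) •
        (List.ofFn fun k => M' (π (ω k)) (π (ω' k))).prod) := by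
    rw [← Finset.prod_mul_distrib, ← ofFn_prod_smul]
    exact ofFn_prod_intertwine V n _ _ (fun i => hM _ _)
  have hV' : V' * V = 1 := by
    exact mul_eq_one_comm.mp hV
  calc (Q * (List.ofFn fun k => M (ω k) (ω' k)).prod).trace
      = (Q * ((List.ofFn fun k => M (ω k) (ω' k)).prod * V) * V').trace := by
        rw [Matrix.mul_assoc, Matrix.mul_assoc, hV, Matrix.mul_one]
    _ = (V * (Q' * (((∏ k, s (ω k)) * ∏ k, t (ω' k)) •
        (List.ofFn fun k => M' (π (ω k)) (π (ω' k))).prod)) * V').trace := by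
        rw [h1, ← Matrix.mul_assoc Q V, hQ, Matrix.mul_assoc V Q']
    _ = _ := by
        rw [Matrix.trace_mul_comm, ← Matrix.mul_assoc, hV', Matrix.one_mul, Matrix.mul_smul,
          Matrix.trace_smul, smul_eq_mul]

theorem diagonal_mul_submatrix_pow {m : Type*} [Fintype m] [DecidableEq m] (S : m → R)
    (hS : ∀ i, S i * S i = 1) (f : m ≃ m) (A A' : Matrix m m R)
    (h : ∀ i j, A i j = S i * S j * A' (f i) (f j)) (L : ℕ) (i j : m) :
    (A ^ L) i j = S i * S j * (A' ^ L) (f i) (f j) := by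
  induction L generalizing i j with
  | zero =>
    simp only [pow_zero, Matrix.one_apply, f.injective.eq_iff]
    by_cases hij : i = j
    · subst hij; simp [hS]
    · simp [hij]
  | succ L ih =>
    rw [pow_succ, pow_succ, Matrix.mul_apply, Matrix.mul_apply, Finset.mul_sum,
      ← Equiv.sum_comp f (fun k => S i * S j * ((A' ^ L) (f i) k * A' k (f j)))]
    refine Finset.sum_congr rfl fun k _ => ?_
    rw [ih, h]
    linear_combination (S i * S j * (A' ^ L) (f i) (f k) * A' (f k) (f j)) * hS k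

/-- Traces of powers of related matrices, weighted by diagonal operators. -/
theorem trace_diagonal_pow_symm {m : Type*} [Fintype m] [DecidableEq m] (S : m → R)
    (hS : ∀ i, S i * S i = 1) (f : m ≃ m) (A A' : Matrix m m R)
    (h : ∀ i j, A i j = S i * S j * A' (f i) (f j)) (d d' : m → R) (hd : ∀ i, d i = d' (f i))
    (L : ℕ) :
    (Matrix.diagonal d * A ^ L).trace = (Matrix.diagonal d' * A' ^ L).trace := by
  simp only [Matrix.trace, Matrix.diag, Matrix.diagonal_mul]
  rw [← Equiv.sum_comp f (fun i => d' i * (A' ^ L) i i)]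
  refine Finset.sum_congr rfl fun i _ => ?_
  rw [diagonal_mul_submatrix_pow S hS f A A' h L, hd, hS, one_mul]

end general

theorem etaK_sq (a c : Fin 4) : etaK ℝ a c * etaK ℝ a c = 1 := by
  refine Fin.cases ?_ (fun c => ?_) c
  · simp [etaK]
  · simp only [etaK, Fin.cases_succ, eta]
    split_ifs <;> norm_num

theorem rotR_one : rotR 1 = !![1, 0, 0; 0, -1, 0; 0, 0, -1] := by
  show 1 + 2 • (Treal 0 * Treal 0) = _
  ext i j; fin_cases i <;> fin_cases j <;> simp [Treal] <;> norm_num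

theorem rotR_two : rotR 2 = !![-1, 0, 0; 0, 1, 0; 0, 0, -1] := by
  show 1 + 2 • (Treal 1 * Treal 1) = _
  ext i j; fin_cases i <;> fin_cases j <;> simp [Treal] <;> norm_num

theorem rotR_three : rotR 3 = !![-1, 0, 0; 0, -1, 0; 0, 0, 1] := by
  show 1 + 2 • (Treal 2 * Treal 2) = _
  ext i j; fin_cases i <;> fin_cases j <;> simp [Treal] <;> norm_num

theorem rotR_zero : rotR 0 = 1 := rfl


section labels
variable {κ R : Type*} [Fintype κ] [DecidableEq κ] [CommRing R]

/-- Extend a sign function on components to labels. -/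
def labS (u : Fin 3 → R) : Fin 4 → R := Fin.cases (motive := fun _ => R) 1 u

/-- Extend a map on components to labels. -/
def labP (ρ : Fin 3 → Fin 3) : Fin 4 → Fin 4 :=
  Fin.cases (motive := fun _ => Fin 4) 0 (fun c => (ρ c).succ)

@[simp] theorem labS_zero (u : Fin 3 → R) : labS u 0 = 1 := rfl
@[simp] theorem labS_succ (u : Fin 3 → R) (c : Fin 3) : labS u c.succ = u c := rfl
@[simp] theorem labP_zero (ρ : Fin 3 → Fin 3) : labP ρ 0 = 0 := rfl
@[simp] theorem labP_succ (ρ : Fin 3 → Fin 3) (c : Fin 3) : labP ρ c.succ = (ρ c).succ := rfl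

theorem Mten_intertwine (V : Matrix κ κ R) (B B' : Fin 3 → Matrix κ κ R) (u : Fin 3 → R)
    (ρ : Fin 3 → Fin 3) (h : ∀ c, B c * V = V * (u c • B' (ρ c))) (e : R) (a b : Fin 4) :
    Mten B e a b * V = V * ((labS u a * labS u b) • Mten B' e (labP ρ a) (labP ρ b)) := by
  refine Fin.cases ?_ (fun a => ?_) a <;> refine Fin.cases ?_ (fun b => ?_) b
  · simp
  · simp only [Mten_zero_succ, labS_zero, labS_succ, labP_zero, labP_succ, one_mul,
      Matrix.smul_mul, h, Matrix.mul_smul, smul_comm e]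
  · simp only [Mten_succ_zero, labS_zero, labS_succ, labP_zero, labP_succ, mul_one,
      Matrix.smul_mul, h, Matrix.mul_smul, smul_comm e]
  · simp

end labels

theorem tauR_symm (V V' : Matrix (Fin 3) (Fin 3) ℝ) (hV : V * V' = 1) (b b' : Fin 4)
    (u : Fin 3 → ℝ) (ρ : Fin 3 → Fin 3) (hQ : rotR b * V = V * rotR b')
    (h : ∀ c, Treal c * V = V * (u c • Treal (ρ c))) (e : ℝ) (n : ℕ) (ω ω' : Fin n → Fin 4) :
    tauR b e n ω ω' = (∏ k, labS u (ω k)) * (∏ k, labS u (ω' k)) *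
      tauR b' e n (fun k => labP ρ (ω k)) (fun k => labP ρ (ω' k)) :=
  tau_symm V V' hV (rotR b) (rotR b') (Mten Treal e) (Mten Treal e) (labS u) (labS u) (labP ρ) hQ
    (Mten_intertwine V Treal Treal u ρ h e) n ω ω'

/-- `tauR` is symmetric. -/
theorem tauR_transpose (b : Fin 4) (e : ℝ) (n : ℕ) : (tauR b e n)ᵀ = tauR b e n := by
  ext ω ω'
  simp only [Matrix.transpose_apply, tauR, tau, Matrix.of_apply, Mten_comm Treal e (ω' _)]

/-- `Dsig` is an involution commuting with `tauR`. -/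
theorem Dsig_mul_self (a : Fin 4) (n : ℕ) : Dsig a n * Dsig a n = 1 := by
  rw [Dsig, Matrix.diagonal_mul_diagonal, ← Matrix.diagonal_one]
  congr 1
  funext ω
  rw [← Finset.prod_mul_distrib]
  exact Finset.prod_eq_one fun k _ => etaK_sq a _

theorem Treal_rotR (a : Fin 4) (c : Fin 3) :
    Treal c * rotR a = rotR a * (((eta a c : ℤ) : ℝ) • Treal c) := by
  fin_cases a
  · simp [rotR_zero, eta]
  · show Treal c * rotR 1 = rotR 1 * (((eta 1 c : ℤ) : ℝ) • Treal c)
    rw [rotR_one]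
    fin_cases c <;> ext i j <;> fin_cases i <;> fin_cases j <;> simp [Treal, eta]
  · show Treal c * rotR 2 = rotR 2 * (((eta 2 c : ℤ) : ℝ) • Treal c)
    rw [rotR_two]
    fin_cases c <;> ext i j <;> fin_cases i <;> fin_cases j <;> simp [Treal, eta]
  · show Treal c * rotR 3 = rotR 3 * (((eta 3 c : ℤ) : ℝ) • Treal c)
    rw [rotR_three]
    fin_cases c <;> ext i j <;> fin_cases i <;> fin_cases j <;> simp [Treal, eta]

theorem rotR_comm (a b : Fin 4) : rotR b * rotR a = rotR a * rotR b := by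
  have h : ∀ a : Fin 4, ∃ d, rotR a = Matrix.diagonal d := by
    intro a
    fin_cases a
    · exact ⟨fun _ => 1, by simp [rotR_zero]⟩
    · exact ⟨![1, -1, -1], by
        show rotR 1 = _
        rw [rotR_one]; ext i j; fin_cases i <;> fin_cases j <;> simp⟩
    · exact ⟨![-1, 1, -1], by
        show rotR 2 = _
        rw [rotR_two]; ext i j; fin_cases i <;> fin_cases j <;> simp⟩
    · exact ⟨![-1, -1, 1], by
        show rotR 3 = _
        rw [rotR_three]; ext i j; fin_cases i <;> fin_cases j <;> simp⟩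
  obtain ⟨d, hd⟩ := h a
  obtain ⟨d', hd'⟩ := h b
  rw [hd, hd', Matrix.diagonal_mul_diagonal, Matrix.diagonal_mul_diagonal]
  congr 1
  funext i
  ring

theorem rotR_sq (a : Fin 4) : rotR a * rotR a = 1 := by
  fin_cases a
  · simp [rotR_zero]
  · show rotR 1 * rotR 1 = 1
    rw [rotR_one]; ext i j; fin_cases i <;> fin_cases j <;> simp
  · show rotR 2 * rotR 2 = 1
    rw [rotR_two]; ext i j; fin_cases i <;> fin_cases j <;> simp
  · show rotR 3 * rotR 3 = 1
    rw [rotR_three]; ext i j; fin_cases i <;> fin_cases j <;> simp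

theorem labS_eta (a : Fin 4) : labS (fun c => ((eta a c : ℤ) : ℝ)) = etaK ℝ a := rfl

theorem labP_id : labP id = id := by
  funext c
  refine Fin.cases rfl (fun c => rfl) c

theorem Dsig_comm_tauR (a b : Fin 4) (e : ℝ) (n : ℕ) :
    Dsig a n * tauR b e n = tauR b e n * Dsig a n := by
  ext ω ω'
  rw [Dsig, Matrix.diagonal_mul, Matrix.mul_diagonal]
  have h := tauR_symm (rotR a) (rotR a) (rotR_sq a) b b (fun c => ((eta a c : ℤ) : ℝ)) id
    (rotR_comm a b) (Treal_rotR a) e n ω ω'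
  rw [labS_eta, labP_id] at h
  simp only [id] at h
  have hs : ∀ ω : Fin n → Fin 4, (∏ k, etaK ℝ a (ω k)) * (∏ k, etaK ℝ a (ω k)) = 1 := by
    intro ω
    rw [← Finset.prod_mul_distrib]
    exact Finset.prod_eq_one fun k _ => etaK_sq a _
  calc (∏ k, etaK ℝ a (ω k)) * tauR b e n ω ω'
      = (∏ k, etaK ℝ a (ω k)) * ((∏ k, etaK ℝ a (ω k)) * (∏ k, etaK ℝ a (ω' k)) *
        tauR b e n ω ω') := by rw [← h]
    _ = ((∏ k, etaK ℝ a (ω k)) * (∏ k, etaK ℝ a (ω k))) * (tauR b e n ω ω' *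
        (∏ k, etaK ℝ a (ω' k))) := by ring
    _ = _ := by rw [hs, one_mul]

/-- product of the sign operators: `D_x D_y = D_z`. -/
theorem Dsig_one_mul_two (n : ℕ) : Dsig 1 n * Dsig 2 n = Dsig 3 n := by
  rw [Dsig, Dsig, Dsig, Matrix.diagonal_mul_diagonal]
  congr 1
  funext ω
  rw [← Finset.prod_mul_distrib]
  refine Finset.prod_congr rfl fun k _ => ?_
  generalize ω k = c
  refine Fin.cases ?_ (fun c => ?_) c
  · simp [etaK]
  · show ((eta 1 c : ℤ) : ℝ) * ((eta 2 c : ℤ) : ℝ) = ((eta 3 c : ℤ) : ℝ)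
    rw [← Int.cast_mul]
    congr 1
    revert c
    decide

theorem Dsig_zero (n : ℕ) : Dsig 0 n = 1 := by
  rw [Dsig, ← Matrix.diagonal_one]
  congr 1
  funext ω
  refine Finset.prod_eq_one fun k _ => ?_
  generalize ω k = c
  refine Fin.cases ?_ (fun c => ?_) c
  · simp [etaK]
  · simp [etaK, eta]

theorem trace_tauR_general (V V' : Matrix (Fin 3) (Fin 3) ℝ) (hV : V * V' = 1)
    (a a' b b' : Fin 4) (u : Fin 3 → ℝ) (ρ : Fin 3 → Fin 3) (hu : ∀ c, u c * u c = 1)
    (hρ : ∀ c, ρ (ρ c) = c) (hQ : rotR b * V = V * rotR b')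
    (h : ∀ c, Treal c * V = V * (u c • Treal (ρ c))) (hη : ∀ c, eta a c = eta a' (ρ c))
    (e : ℝ) (n L : ℕ) :
    (Dsig a n * (tauR b e n) ^ L).trace = (Dsig a' n * (tauR b' e n) ^ L).trace := by
  have hinv : Function.Involutive (fun (ω : Fin n → Fin 4) k => labP ρ (ω k)) := by
    intro ω
    funext k
    show labP ρ (labP ρ (ω k)) = ω k
    generalize ω k = c
    refine Fin.cases ?_ (fun c => ?_) c
    · simp
    · simp [hρ]
  have hS : ∀ ω : Fin n → Fin 4, (∏ k, labS u (ω k)) * (∏ k, labS u (ω k)) = 1 := by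
    intro ω
    rw [← Finset.prod_mul_distrib]
    refine Finset.prod_eq_one fun k _ => ?_
    generalize ω k = c
    refine Fin.cases ?_ (fun c => ?_) c
    · simp
    · simp [hu]
  refine trace_diagonal_pow_symm (fun ω => ∏ k, labS u (ω k)) hS hinv.toPerm _ _
    (fun ω ω' => tauR_symm V V' hV b b' u ρ hQ h e n ω ω') _ _ (fun ω => ?_) L
  refine Finset.prod_congr rfl fun k _ => ?_
  show etaK ℝ a (ω k) = etaK ℝ a' (labP ρ (ω k))
  generalize ω k = c
  refine Fin.cases ?_ (fun c => ?_) c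
  · simp [etaK]
  · simp [etaK, hη]

/-- permutation matrix exchanging x and z. -/
def Vxz : Matrix (Fin 3) (Fin 3) ℝ := !![0, 0, 1; 0, 1, 0; 1, 0, 0]
/-- permutation matrix exchanging y and z. -/
def Vyz : Matrix (Fin 3) (Fin 3) ℝ := !![1, 0, 0; 0, 0, 1; 0, 1, 0]
/-- permutation matrix exchanging x and y. -/
def Vxy : Matrix (Fin 3) (Fin 3) ℝ := !![0, 1, 0; 1, 0, 0; 0, 0, 1]

theorem Vxz_sq : Vxz * Vxz = 1 := by
  ext i j; fin_cases i <;> fin_cases j <;> simp [Vxz]
theorem Vyz_sq : Vyz * Vyz = 1 := by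
  ext i j; fin_cases i <;> fin_cases j <;> simp [Vyz]
theorem Vxy_sq : Vxy * Vxy = 1 := by
  ext i j; fin_cases i <;> fin_cases j <;> simp [Vxy]

theorem Treal_Vxz (c : Fin 3) : Treal c * Vxz = Vxz * ((-1 : ℝ) • Treal (![2, 1, 0] c)) := by
  fin_cases c <;> ext i j <;> fin_cases i <;> fin_cases j <;> simp [Treal, Vxz]
theorem Treal_Vyz (c : Fin 3) : Treal c * Vyz = Vyz * ((-1 : ℝ) • Treal (![0, 2, 1] c)) := by
  fin_cases c <;> ext i j <;> fin_cases i <;> fin_cases j <;> simp [Treal, Vyz]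
theorem Treal_Vxy (c : Fin 3) : Treal c * Vxy = Vxy * ((-1 : ℝ) • Treal (![1, 0, 2] c)) := by
  fin_cases c <;> ext i j <;> fin_cases i <;> fin_cases j <;> simp [Treal, Vxy]

/-- Symmetries of the finite-`n` twisted traces. -/
theorem trace_tauR_symm_x (e : ℝ) (n L : ℕ) :
    (Dsig 1 n * (tauR 0 e n) ^ L).trace = (Dsig 3 n * (tauR 0 e n) ^ L).trace :=
  trace_tauR_general Vxz Vxz Vxz_sq 1 3 0 0 (fun _ => -1) ![2, 1, 0] (by norm_num) (by decide)
    (by simp [rotR_zero]) Treal_Vxz (by decide) e n L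

theorem trace_tauR_symm_y (e : ℝ) (n L : ℕ) :
    (Dsig 2 n * (tauR 0 e n) ^ L).trace = (Dsig 3 n * (tauR 0 e n) ^ L).trace :=
  trace_tauR_general Vyz Vyz Vyz_sq 2 3 0 0 (fun _ => -1) ![0, 2, 1] (by norm_num) (by decide)
    (by simp [rotR_zero]) Treal_Vyz (by decide) e n L



theorem trace_tauR_symm_xy (e : ℝ) (n L : ℕ) :
    (Dsig 2 n * (tauR 3 e n) ^ L).trace = (Dsig 1 n * (tauR 3 e n) ^ L).trace :=
  trace_tauR_general Vxy Vxy Vxy_sq 2 1 3 3 (fun _ => -1) ![1, 0, 2] (by norm_num) (by decide)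
    (by rw [rotR_three]; ext i j; fin_cases i <;> fin_cases j <;> simp [Vxy]) Treal_Vxy
    (by decide) e n L

/-- Real matrices inside complex ones. -/
noncomputable def rcHom : Matrix (Fin 3) (Fin 3) ℝ →+* Matrix (Fin 3) (Fin 3) ℂ :=
  (Complex.ofRealHom).mapMatrix

theorem tau_map {K : Type*} (Q : Matrix (Fin 3) (Fin 3) ℝ)
    (M : K → K → Matrix (Fin 3) (Fin 3) ℝ) (n : ℕ) :
    tau (rcHom Q) (fun a b => rcHom (M a b)) n = (tau Q M n).map (fun x : ℝ => (x : ℂ)) := by
  ext ω ω'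
  simp only [tau, Matrix.of_apply, Matrix.map_apply]
  have h : (List.ofFn fun k => rcHom (M (ω k) (ω' k))).prod =
      rcHom (List.ofFn fun k => M (ω k) (ω' k)).prod := by
    rw [map_list_prod, List.map_ofFn]; rfl
  rw [h, ← map_mul]
  generalize Q * (List.ofFn fun k => M (ω k) (ω' k)).prod = A
  simp [rcHom, Matrix.trace, RingHom.mapMatrix_apply]

/-- The change of basis to the Cartesian basis. -/
noncomputable def Vc : Matrix (Fin 3) (Fin 3) ℂ :=
  !![-(((Real.sqrt 2 : ℝ) : ℂ) / 2), Complex.I * (((Real.sqrt 2 : ℝ) : ℂ) / 2), 0;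
     0, 0, 1;
     ((Real.sqrt 2 : ℝ) : ℂ) / 2, Complex.I * (((Real.sqrt 2 : ℝ) : ℂ) / 2), 0]

/-- Its inverse. -/
noncomputable def Vc' : Matrix (Fin 3) (Fin 3) ℂ :=
  !![-(((Real.sqrt 2 : ℝ) : ℂ) / 2), 0, ((Real.sqrt 2 : ℝ) : ℂ) / 2;
     -(Complex.I * (((Real.sqrt 2 : ℝ) : ℂ) / 2)), 0, -(Complex.I * (((Real.sqrt 2 : ℝ) : ℂ) / 2));
     0, 1, 0]

theorem sqrt2_mul : ((Real.sqrt 2 : ℝ) : ℂ) * ((Real.sqrt 2 : ℝ) : ℂ) = 2 := by
  rw [← Complex.ofReal_mul, Real.mul_self_sqrt (by norm_num)]; norm_num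

theorem Vc_mul : Vc * Vc' = 1 := by
  have h := sqrt2_mul
  have hI := Complex.I_mul_I
  ext i j
  fin_cases i <;> fin_cases j <;> simp [Vc, Vc', Matrix.mul_apply, Fin.sum_univ_three] <;>
    generalize ((Real.sqrt 2 : ℝ) : ℂ) = r at h ⊢ <;> ring_nf <;> simp [Complex.I_sq] <;> ring_nf <;>
    linear_combination (1 / 2 : ℂ) * h

theorem spin_Vc (c : Fin 3) :
    (Complex.I • spinOp c) * Vc = Vc * rcHom (Treal c) := by
  have h := sqrt2_mul
  have hI := Complex.I_mul_I
  fin_cases c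
  · show (Complex.I • spinX) * Vc = Vc * rcHom (Treal 0)
    ext i j
    fin_cases i <;> fin_cases j <;>
    simp [spinX, spinPlus, spinMinus, Vc, rcHom, Treal, Matrix.mul_apply, Fin.sum_univ_three,
      Matrix.conjTranspose_apply] <;>
    generalize ((Real.sqrt 2 : ℝ) : ℂ) = r at h ⊢ <;>
    first
      | ring1
      | linear_combination (r * r / 2) * hI - (1 / 2) * h
  · show (Complex.I • spinY) * Vc = Vc * rcHom (Treal 1)
    ext i j
    fin_cases i <;> fin_cases j <;>
    simp [spinY, spinPlus, spinMinus, Vc, rcHom, Treal, Matrix.mul_apply, Fin.sum_univ_three,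
      Matrix.conjTranspose_apply] <;>
    generalize ((Real.sqrt 2 : ℝ) : ℂ) = r at h ⊢ <;>
    first
      | ring1
      | linear_combination (-r / 2) * hI
      | linear_combination (r / 2) * hI
      | linear_combination (-(r * r) / 2) * hI + (1 / 2) * h
  · show (Complex.I • spinZ) * Vc = Vc * rcHom (Treal 2)
    ext i j
    fin_cases i <;> fin_cases j <;>
    simp [spinZ, magneticNumber, Vc, rcHom, Treal, Matrix.mul_apply, Fin.sum_univ_three] <;>
    generalize ((Real.sqrt 2 : ℝ) : ℂ) = r at h ⊢ <;>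
    first
      | ring1
      | linear_combination (-r / 2) * hI
      | linear_combination (r / 2) * hI

theorem rotC_Vc (b : Fin 4) : rotC b * Vc = Vc * rcHom (rotR b) := by
  refine Fin.cases ?_ (fun c => ?_) b
  · simp [rotC, rotR]
  · show (1 - 2 • (spinOp c * spinOp c)) * Vc = Vc * rcHom (1 + 2 • (Treal c * Treal c))
    have h1 : (1 - 2 • (spinOp c * spinOp c) : Matrix (Fin 3) (Fin 3) ℂ) =
        1 + 2 • ((Complex.I • spinOp c) * (Complex.I • spinOp c)) := by
      rw [Matrix.smul_mul, Matrix.mul_smul, smul_smul, Complex.I_mul_I, neg_one_smul, smul_neg,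
        sub_eq_add_neg]
    have h2 := spin_Vc c
    rw [h1, map_add, map_one, map_nsmul, map_mul]
    generalize Complex.I • spinOp c = A at h2 ⊢
    generalize rcHom (Treal c) = B at h2 ⊢
    have h3 : A * A * Vc = Vc * (B * B) := by
      rw [Matrix.mul_assoc, h2, ← Matrix.mul_assoc, h2, Matrix.mul_assoc]
    rw [Matrix.add_mul, Matrix.mul_add, Matrix.one_mul, Matrix.mul_one, Matrix.smul_mul, h3,
      Matrix.mul_smul]

/-- The complex transfer matrix is the real one. -/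
theorem tau_complex_eq (b : Fin 4) (e : ℝ) (n : ℕ) :
    tau (rotC b) (Mten (fun c => Complex.I • spinOp c) (e : ℂ)) n =
      (tauR b e n).map (fun x : ℝ => (x : ℂ)) := by
  have hM : ∀ a b : Fin 4, Mten (fun c => rcHom (Treal c)) (e : ℂ) a b = rcHom (Mten Treal e a b) := by
    have hs : ∀ A : Matrix (Fin 3) (Fin 3) ℝ, (e : ℂ) • rcHom A = rcHom (e • A) := by
      intro A
      ext i j
      simp [rcHom]
    intro a b
    refine Fin.cases ?_ (fun a => ?_) a <;> refine Fin.cases ?_ (fun b => ?_) b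
    · simp
    · simp [hs]
    · simp [hs]
    · simp
  have h1 : tau (rotC b) (Mten (fun c => Complex.I • spinOp c) (e : ℂ)) n =
      tau (rcHom (rotR b)) (Mten (fun c => rcHom (Treal c)) (e : ℂ)) n := by
    ext ω ω'
    have h := tau_symm Vc Vc' Vc_mul (rotC b) (rcHom (rotR b))
      (Mten (fun c => Complex.I • spinOp c) (e : ℂ)) (Mten (fun c => rcHom (Treal c)) (e : ℂ))
      (labS fun _ => 1) (labS fun _ => 1) (labP id) (rotC_Vc b)
      (Mten_intertwine Vc (fun c => Complex.I • spinOp c) (fun c => rcHom (Treal c)) (fun _ => 1) id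
        (fun c => by rw [one_smul]; exact spin_Vc c) (e : ℂ)) n ω ω'
    have h2 : labS (fun _ : Fin 3 => (1 : ℂ)) = fun _ => 1 := by
      funext c
      refine Fin.cases rfl (fun c => rfl) c
    rw [h2, labP_id] at h
    simpa using h
  rw [h1, tauR, ← tau_map]
  congr 1
  funext a b
  exact hM a b

end Crest.Agent.R347
end

-- ▼ part R347/Trotter
section

/-! Trotter-type limit in a Banach algebra. -/

set_option autoImplicit false

namespace Crest.Agent.R347

open Filter Topology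

namespace TrotterAux

variable {A : Type*} [NormedRing A]

theorem pow_mul_bound (Y Z : A) (k : ℕ) : ‖(1 + Y) ^ k * Z‖ ≤ (1 + ‖Y‖) ^ k * ‖Z‖ := by
  induction k with
  | zero => simp
  | succ k ih =>
    have h1 : (1 + Y) ^ (k + 1) * Z = (1 + Y) ^ k * Z + Y * ((1 + Y) ^ k * Z) := by
      rw [pow_succ', mul_assoc, add_mul, one_mul]
    rw [h1]
    calc ‖(1 + Y) ^ k * Z + Y * ((1 + Y) ^ k * Z)‖
        ≤ ‖(1 + Y) ^ k * Z‖ + ‖Y * ((1 + Y) ^ k * Z)‖ := norm_add_le _ _
      _ ≤ ‖(1 + Y) ^ k * Z‖ + ‖Y‖ * ‖(1 + Y) ^ k * Z‖ := by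
          gcongr
          exact norm_mul_le _ _
      _ = (1 + ‖Y‖) * ‖(1 + Y) ^ k * Z‖ := by ring
      _ ≤ (1 + ‖Y‖) * ((1 + ‖Y‖) ^ k * ‖Z‖) := by
          gcongr
      _ = (1 + ‖Y‖) ^ (k + 1) * ‖Z‖ := by ring

theorem one_mul_norm_le (Y Z : A) : ‖(1 + Y) * Z‖ ≤ (1 + ‖Y‖) * ‖Z‖ := by
  have := pow_mul_bound Y Z 1
  simpa using this

theorem pow_sub_pow_bound (Y W : A) (k : ℕ) :
    ‖(1 + Y) ^ k - (1 + W) ^ k‖ ≤
      k * ((1 + ‖Y‖) ^ k * ((1 + ‖W‖) ^ k * ‖(1 : A)‖)) * ‖Y - W‖ := by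
  induction k with
  | zero => simp
  | succ k ih =>
    have h1 : (1 + Y) ^ (k + 1) - (1 + W) ^ (k + 1) =
        (1 + Y) * ((1 + Y) ^ k - (1 + W) ^ k) + (Y - W) * (1 + W) ^ k := by
      rw [pow_succ' (1 + Y), pow_succ' (1 + W)]
      noncomm_ring
    have hB : ‖(1 + W) ^ k‖ ≤ (1 + ‖W‖) ^ k * ‖(1 : A)‖ := by
      have := pow_mul_bound W 1 k
      simpa using this
    have hY1 : (1 : ℝ) ≤ 1 + ‖Y‖ := by have := norm_nonneg Y; linarith
    have hW1 : (1 : ℝ) ≤ 1 + ‖W‖ := by have := norm_nonneg W; linarith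
    have h2 : (1 + ‖W‖) ^ k ≤ (1 + ‖W‖) ^ (k + 1) := pow_le_pow_right₀ hW1 (Nat.le_succ k)
    have h3 : (1 : ℝ) ≤ (1 + ‖Y‖) ^ (k + 1) := one_le_pow₀ hY1
    rw [h1]
    calc ‖(1 + Y) * ((1 + Y) ^ k - (1 + W) ^ k) + (Y - W) * (1 + W) ^ k‖
        ≤ ‖(1 + Y) * ((1 + Y) ^ k - (1 + W) ^ k)‖ + ‖(Y - W) * (1 + W) ^ k‖ := norm_add_le _ _
      _ ≤ (1 + ‖Y‖) * ‖(1 + Y) ^ k - (1 + W) ^ k‖ + ‖Y - W‖ * ‖(1 + W) ^ k‖ :=
          add_le_add (one_mul_norm_le _ _) (norm_mul_le _ _)
      _ ≤ (1 + ‖Y‖) * (k * ((1 + ‖Y‖) ^ k * ((1 + ‖W‖) ^ k * ‖(1 : A)‖)) * ‖Y - W‖)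
            + ‖Y - W‖ * ((1 + ‖W‖) ^ k * ‖(1 : A)‖) := by
          gcongr
      _ ≤ (1 + ‖Y‖) * (k * ((1 + ‖Y‖) ^ k * ((1 + ‖W‖) ^ (k + 1) * ‖(1 : A)‖)) * ‖Y - W‖)
            + (1 + ‖Y‖) ^ (k + 1) * (‖Y - W‖ * ((1 + ‖W‖) ^ (k + 1) * ‖(1 : A)‖)) := by
          refine add_le_add ?_ ?_
          · gcongr
          · calc ‖Y - W‖ * ((1 + ‖W‖) ^ k * ‖(1 : A)‖)
                ≤ ‖Y - W‖ * ((1 + ‖W‖) ^ (k + 1) * ‖(1 : A)‖) := by gcongr
              _ = 1 * (‖Y - W‖ * ((1 + ‖W‖) ^ (k + 1) * ‖(1 : A)‖)) := by ring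
              _ ≤ (1 + ‖Y‖) ^ (k + 1) * (‖Y - W‖ * ((1 + ‖W‖) ^ (k + 1) * ‖(1 : A)‖)) := by
                  gcongr
      _ = ((k + 1 : ℕ) : ℝ) * ((1 + ‖Y‖) ^ (k + 1) * ((1 + ‖W‖) ^ (k + 1) * ‖(1 : A)‖))
            * ‖Y - W‖ := by
          push_cast
          ring

end TrotterAux

/-- If `G n = 1 + X/n + O(1/n²)` then `(G n)^n → exp X`. -/
theorem trotter_limit {A : Type*} [NormedRing A] [NormedAlgebra ℂ A] [CompleteSpace A]
    (X : A) (G : ℕ → A) (C : ℝ)
    (h : ∀ n : ℕ, 1 ≤ n → ‖G n - (1 + ((1 / (n : ℂ)) • X))‖ ≤ C / (n : ℝ) ^ 2) :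
    Tendsto (fun n => (G n) ^ n) atTop (𝓝 (NormedSpace.exp X)) := by
  classical
  have hC : 0 ≤ C := by
    have := h 1 le_rfl
    have h0 := norm_nonneg (G 1 - (1 + ((1 / ((1 : ℕ) : ℂ)) • X)))
    simp only [Nat.cast_one, one_pow, div_one] at this h0
    exact le_trans h0 this
  -- derivative of exp at 0
  have hd : HasFDerivAt (NormedSpace.exp : A → A) (1 : A →L[ℂ] A) 0 := hasFDerivAt_exp_zero
  have hlo := hd.isLittleO
  -- the sequence X/n tends to 0
  have hXn : Tendsto (fun n : ℕ => (1 / (n : ℂ)) • X) atTop (𝓝 0) := by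
    have h1 : Tendsto (fun n : ℕ => (1 / (n : ℂ))) atTop (𝓝 0) :=
      tendsto_one_div_atTop_nhds_zero_nat
    simpa using h1.smul_const X
  set W : ℕ → A := fun n => NormedSpace.exp ((1 / (n : ℂ)) • X) - 1 with hWdef
  set Y : ℕ → A := fun n => G n - 1 with hYdef
  have hWlo : ∀ ε : ℝ, 0 < ε → ∀ᶠ n : ℕ in atTop,
      ‖W n - (1 / (n : ℂ)) • X‖ ≤ ε * ((1 / (n : ℝ)) * ‖X‖) := by
    intro ε hε
    have h1 := (hlo.comp_tendsto hXn).def hε
    filter_upwards [h1] with n hn
    simp only [Function.comp_apply, NormedSpace.exp_zero, sub_zero,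
      one_apply_eq_self, norm_smul, norm_div, norm_one, Complex.norm_natCast] at hn
    exact hn
  have hnorm : ∀ n : ℕ, ‖(1 / (n : ℂ)) • X‖ = (1 / (n : ℝ)) * ‖X‖ := by
    intro n
    simp [norm_smul]
  -- bounds
  have hWb : ∀ᶠ n : ℕ in atTop, ‖W n‖ ≤ (2 * ‖X‖) / n := by
    filter_upwards [hWlo 1 one_pos] with n hn
    calc ‖W n‖ = ‖(W n - (1 / (n : ℂ)) • X) + (1 / (n : ℂ)) • X‖ := by rw [sub_add_cancel]
      _ ≤ ‖W n - (1 / (n : ℂ)) • X‖ + ‖(1 / (n : ℂ)) • X‖ := norm_add_le _ _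
      _ ≤ 1 * ((1 / (n : ℝ)) * ‖X‖) + (1 / (n : ℝ)) * ‖X‖ := by
          rw [hnorm n] ; gcongr
      _ = (2 * ‖X‖) / n := by ring
  have hYX : ∀ n : ℕ, 1 ≤ n → ‖Y n - (1 / (n : ℂ)) • X‖ ≤ C / (n : ℝ) ^ 2 := by
    intro n hn
    have : Y n - (1 / (n : ℂ)) • X = G n - (1 + ((1 / (n : ℂ)) • X)) := by
      simp only [hYdef]; abel
    rw [this]
    exact h n hn
  have hYb : ∀ᶠ n : ℕ in atTop, ‖Y n‖ ≤ (‖X‖ + C) / n := by
    filter_upwards [eventually_ge_atTop 1] with n hn
    have hn' : (1 : ℝ) ≤ n := by exact_mod_cast hn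
    calc ‖Y n‖ = ‖(Y n - (1 / (n : ℂ)) • X) + (1 / (n : ℂ)) • X‖ := by rw [sub_add_cancel]
      _ ≤ ‖Y n - (1 / (n : ℂ)) • X‖ + ‖(1 / (n : ℂ)) • X‖ := norm_add_le _ _
      _ ≤ C / (n : ℝ) ^ 2 + (1 / (n : ℝ)) * ‖X‖ := by
          rw [hnorm n]
          gcongr
          exact hYX n hn
      _ ≤ C / (n : ℝ) + (1 / (n : ℝ)) * ‖X‖ := by
          gcongr
          nlinarith
      _ = (‖X‖ + C) / n := by ring
  -- power bounds
  have hpow : ∀ (a : ℝ) (n : ℕ) (Z : A), 0 ≤ a → 1 ≤ n → ‖Z‖ ≤ a / n →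
      (1 + ‖Z‖) ^ n ≤ Real.exp a := by
    intro a n Z ha hn hZ
    have hn' : (0 : ℝ) < n := by exact_mod_cast hn
    calc (1 + ‖Z‖) ^ n ≤ (Real.exp (a / n)) ^ n := by
          gcongr
          have := Real.add_one_le_exp (a / n)
          linarith
      _ = Real.exp a := by
          rw [← Real.exp_nat_mul]
          congr 1
          field_simp
  -- main estimate
  have hexp : ∀ n : ℕ, 1 ≤ n → (1 + W n) ^ n = NormedSpace.exp X := by
    intro n hn
    have hn' : (n : ℂ) ≠ 0 := by exact_mod_cast (by omega : n ≠ 0)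
    simp only [hWdef, add_sub_cancel]
    let _ : NormedAlgebra ℚ A := NormedAlgebra.restrictScalars ℚ ℂ A
    rw [← NormedSpace.exp_nsmul]
    congr 1
    rw [← Nat.cast_smul_eq_nsmul ℂ, smul_smul]
    rw [mul_one_div_cancel hn', one_smul]
  set K : ℝ := Real.exp (‖X‖ + C) * (Real.exp (2 * ‖X‖) * ‖(1 : A)‖) with hK
  have hK0 : 0 ≤ K := by positivity
  have hmain : ∀ᶠ n : ℕ in atTop,
      ‖(G n) ^ n - NormedSpace.exp X‖ ≤ K * ((n : ℝ) * ‖Y n - W n‖) := by
    filter_upwards [hWb, hYb, eventually_ge_atTop 1] with n h1 h2 h3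
    have h4 := TrotterAux.pow_sub_pow_bound (Y n) (W n) n
    rw [hexp n h3] at h4
    have h5 : (1 : A) + Y n = G n := by simp only [hYdef, add_sub_cancel]
    rw [h5] at h4
    refine h4.trans ?_
    have h6 := hpow (‖X‖ + C) n (Y n) (by positivity) h3 h2
    have h7 := hpow (2 * ‖X‖) n (W n) (by positivity) h3 h1
    calc (n : ℝ) * ((1 + ‖Y n‖) ^ n * ((1 + ‖W n‖) ^ n * ‖(1 : A)‖)) * ‖Y n - W n‖
        ≤ (n : ℝ) * (Real.exp (‖X‖ + C) * (Real.exp (2 * ‖X‖) * ‖(1 : A)‖)) * ‖Y n - W n‖ := by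
          gcongr
      _ = K * ((n : ℝ) * ‖Y n - W n‖) := by rw [hK]; ring
  have hlim : Tendsto (fun n : ℕ => K * ((n : ℝ) * ‖Y n - W n‖)) atTop (𝓝 0) := by
    rw [← mul_zero K]
    refine Tendsto.const_mul K ?_
    rw [Metric.tendsto_atTop']
    intro ε hε
    -- choose δ with δ ‖X‖ ≤ ε/4
    have hδ : 0 < ε / (4 * (‖X‖ + 1)) := by positivity
    have hev1 := hWlo _ hδ
    have hev2 : ∀ᶠ n : ℕ in atTop, C / (n : ℝ) < ε / 2 := by
      have : Tendsto (fun n : ℕ => C / (n : ℝ)) atTop (𝓝 0) :=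
        tendsto_const_div_atTop_nhds_zero_nat C
      exact this.eventually (gt_mem_nhds (by positivity))
    have hev := (hev1.and (hev2.and (eventually_ge_atTop 1)))
    obtain ⟨N, hN⟩ := eventually_atTop.1 hev
    refine ⟨N, fun n hn => ?_⟩
    obtain ⟨e1, e2, e3⟩ := hN n hn.le
    have hn' : (0 : ℝ) < n := by exact_mod_cast e3
    rw [dist_zero_right, Real.norm_of_nonneg (by positivity)]
    have e4 : ‖Y n - W n‖ ≤ C / (n : ℝ) ^ 2 + ε / (4 * (‖X‖ + 1)) * ((1 / (n : ℝ)) * ‖X‖) := by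
      calc ‖Y n - W n‖ = ‖(Y n - (1 / (n : ℂ)) • X) - (W n - (1 / (n : ℂ)) • X)‖ := by
            congr 1; abel
        _ ≤ ‖Y n - (1 / (n : ℂ)) • X‖ + ‖W n - (1 / (n : ℂ)) • X‖ := norm_sub_le _ _
        _ ≤ _ := add_le_add (hYX n e3) e1
    calc (n : ℝ) * ‖Y n - W n‖
        ≤ n * (C / (n : ℝ) ^ 2 + ε / (4 * (‖X‖ + 1)) * ((1 / (n : ℝ)) * ‖X‖)) := by
          gcongr
      _ = C / n + ε / 4 * (‖X‖ / (‖X‖ + 1)) := by
          field_simp
      _ ≤ C / n + ε / 4 * 1 := by
          gcongr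
          rw [div_le_one (by positivity)]
          linarith
      _ < ε := by linarith
  rw [tendsto_iff_norm_sub_tendsto_zero]
  exact squeeze_zero' (Eventually.of_forall fun n => norm_nonneg _) hmain hlim

end Crest.Agent.R347
end

-- ▼ part R347/Crossing

/-! Crossing: twisted partition functions as limits of traces of powers of real symmetric
transfer matrices; sector sums are limits of power sums. -/

set_option autoImplicit false

namespace Crest.Agent.R347

open Matrix Filter Topology Crest.MathPhysics.SpinChain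

/-- number of operator slots of a label. -/
def wt (a : Fin 4) : ℕ := if a = 0 then 0 else 1

@[simp] theorem wt_zero : wt 0 = 0 := rfl
@[simp] theorem wt_succ (c : Fin 3) : wt c.succ = 1 := by simp [wt, Fin.succ_ne_zero]

theorem Mten_scale (S : Fin 3 → Matrix (Fin 3) (Fin 3) ℂ) (e : ℂ) (a b : Fin 4) :
    Mten (fun c => Complex.I • S c) e a b = (Complex.I * e) ^ (wt a + wt b) • Mten S 1 a b := by
  refine Fin.cases ?_ (fun a => ?_) a <;> refine Fin.cases ?_ (fun b => ?_) b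
  · simp
  · simp [smul_smul, mul_comm]
  · simp [smul_smul, mul_comm]
  · simp

theorem piK_smul {ι κ : Type*} [Fintype ι] (z : ι → ℂ) (A : ι → Matrix κ κ ℂ) :
    piK (fun j => z j • A j) = (∏ j, z j) • piK A := by
  ext σ τ
  simp [piK_apply, Matrix.smul_apply, Finset.prod_mul_distrib]

/-- number of nonzero labels. -/
def NN {ι : Type*} [Fintype ι] (a : ι → Fin 4) : ℕ := ∑ j, wt (a j)

/-- The operator attached to a label configuration. -/
noncomputable def Yop (L : ℕ) (a : Fin (L + 1) → Fin 4) :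
    Matrix (Fin (L + 1) → Fin 3) (Fin (L + 1) → Fin 3) ℂ :=
  piK (fun j => Mten spinOp 1 (a ((finRotate (L + 1)).symm j)) (a j))

theorem Gop_eq_sum (s : Fin 4 → ℂ) (e : ℂ) (L : ℕ) :
    Gop s (Mten (fun c => Complex.I • spinOp c) e) L =
      ∑ a : Fin (L + 1) → Fin 4, (s (a (Fin.last L)) * (-(e ^ 2)) ^ NN a) • Yop L a := by
  unfold Gop Yop
  refine Finset.sum_congr rfl fun a _ => ?_
  have h1 : (fun j => Mten (fun c => Complex.I • spinOp c) e
      (a ((finRotate (L + 1)).symm j)) (a j)) =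
      fun j => ((Complex.I * e) ^ (wt (a ((finRotate (L + 1)).symm j)) + wt (a j))) •
        Mten spinOp 1 (a ((finRotate (L + 1)).symm j)) (a j) := by
    funext j
    exact Mten_scale _ _ _ _
  rw [h1, piK_smul, smul_smul]
  congr 1
  congr 1
  rw [Finset.prod_pow_eq_pow_sum, Finset.sum_add_distrib]
  have h2 : ∑ j, wt (a ((finRotate (L + 1)).symm j)) = ∑ j, wt (a j) :=
    Equiv.sum_comp (finRotate (L + 1)).symm (fun j => wt (a j))
  rw [h2, ← two_mul, pow_mul]
  congr 1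
  rw [mul_pow, Complex.I_sq]
  ring

theorem NN_eq_zero_iff {ι : Type*} [Fintype ι] (a : ι → Fin 4) : NN a = 0 ↔ a = 0 := by
  unfold NN
  rw [Finset.sum_eq_zero_iff]
  constructor
  · intro h
    funext j
    have := h j (Finset.mem_univ j)
    unfold wt at this
    by_contra hne
    simp only [Pi.zero_apply] at hne
    rw [if_neg hne] at this
    exact one_ne_zero this
  · intro h j _
    rw [h]
    rfl

theorem NN_single {ι : Type*} [Fintype ι] [DecidableEq ι] (j : ι) (c : Fin 3) :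
    NN (Pi.single j c.succ : ι → Fin 4) = 1 := by
  unfold NN
  rw [Finset.sum_eq_single j]
  · simp
  · intro k _ hk
    rw [Pi.single_eq_of_ne hk]
    rfl
  · simp

theorem exists_single_of_NN_eq_one {ι : Type*} [Fintype ι] [DecidableEq ι] (a : ι → Fin 4)
    (h : NN a = 1) : ∃ j : ι, ∃ c : Fin 3, a = Pi.single j c.succ := by
  unfold NN at h
  have hex : ∃ j, a j ≠ 0 := by
    by_contra hcon
    push Not at hcon
    have : ∑ j, wt (a j) = 0 := Finset.sum_eq_zero fun j _ => by rw [hcon j]; rfl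
    omega
  obtain ⟨j, hj⟩ := hex
  obtain ⟨c, hc⟩ := Fin.exists_succ_eq.mpr hj
  refine ⟨j, c, ?_⟩
  funext k
  by_cases hk : k = j
  · subst hk
    rw [Pi.single_eq_same, hc]
  · rw [Pi.single_eq_of_ne hk]
    by_contra hne
    have h2 : wt (a j) + wt (a k) ≤ ∑ j, wt (a j) := by
      have : ∑ i ∈ ({j, k} : Finset ι), wt (a i) ≤ ∑ j, wt (a j) :=
        Finset.sum_le_sum_of_subset (Finset.subset_univ _)
      rwa [Finset.sum_pair (Ne.symm hk)] at this
    have h3 : wt (a j) = 1 := if_neg hj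
    have h4 : wt (a k) = 1 := if_neg hne
    omega

/-- splitting a sum over label configurations by the number of nonzero labels. -/
theorem sum_split {ι M : Type*} [Fintype ι] [DecidableEq ι] [AddCommMonoid M]
    (f : (ι → Fin 4) → M) :
    ∑ a, f a = f 0 + ∑ j : ι, ∑ c : Fin 3, f (Pi.single j c.succ) +
      ∑ a ∈ Finset.univ.filter (fun a => 2 ≤ NN a), f a := by
  classical
  have h0 : ∑ a ∈ Finset.univ.filter (fun a : ι → Fin 4 => NN a = 0), f a = f 0 := by
    have : Finset.univ.filter (fun a : ι → Fin 4 => NN a = 0) = {0} := by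
      ext a
      simp [NN_eq_zero_iff]
    rw [this, Finset.sum_singleton]
  have h1 : ∑ a ∈ Finset.univ.filter (fun a : ι → Fin 4 => NN a = 1), f a =
      ∑ j : ι, ∑ c : Fin 3, f (Pi.single j c.succ) := by
    rw [← Fintype.sum_prod_type' (f := fun (j : ι) (c : Fin 3) => f (Pi.single j c.succ))]
    symm
    refine Finset.sum_bij (fun (p : ι × Fin 3) _ => (Pi.single p.1 p.2.succ : ι → Fin 4))
      ?_ ?_ ?_ ?_
    · intro p _
      simp [NN_single]
    · intro p _ q _ hpq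
      have hj : p.1 = q.1 := by
        by_contra hne
        have := congrFun hpq p.1
        simp only [Pi.single_eq_same] at this
        rw [Pi.single_eq_of_ne hne] at this
        exact Fin.succ_ne_zero _ this
      have hc : p.2 = q.2 := by
        have := congrFun hpq p.1
        simp only [Pi.single_eq_same] at this
        rw [hj, Pi.single_eq_same] at this
        exact Fin.succ_injective _ this
      exact Prod.ext hj hc
    · intro a ha
      obtain ⟨j, c, hjc⟩ := exists_single_of_NN_eq_one a (Finset.mem_filter.mp ha).2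
      exact ⟨(j, c), Finset.mem_univ _, hjc.symm⟩
    · intro p _
      rfl
  rw [← h0, ← h1]
  rw [← Finset.sum_filter_add_sum_filter_not Finset.univ (fun a : ι → Fin 4 => NN a = 0) f]
  rw [add_assoc]
  congr 1
  rw [← Finset.sum_filter_add_sum_filter_not
    (Finset.univ.filter (fun a : ι → Fin 4 => ¬ NN a = 0)) (fun a : ι → Fin 4 => NN a = 1) f]
  congr 1
  · refine Finset.sum_congr ?_ fun _ _ => rfl
    ext a
    simp only [Finset.mem_filter, Finset.mem_univ, true_and]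
    omega
  · refine Finset.sum_congr ?_ fun _ _ => rfl
    ext a
    simp only [Finset.mem_filter, Finset.mem_univ, true_and]
    omega

theorem Yop_zero (L : ℕ) : Yop L 0 = 1 := by
  unfold Yop
  have : (fun j : Fin (L + 1) => Mten spinOp (1 : ℂ)
      ((0 : Fin (L + 1) → Fin 4) ((finRotate (L + 1)).symm j))
      ((0 : Fin (L + 1) → Fin 4) j)) = fun _ => 1 := by
    funext j
    simp
  rw [this, piK_one]

theorem finRotate_ne (L : ℕ) (hL : 1 ≤ L) (j : Fin (L + 1)) : finRotate (L + 1) j ≠ j := by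
  intro h
  have h2 : (finRotate (L + 1) j).val = j.val := by rw [h]
  rcases Fin.eq_castSucc_or_eq_last j with ⟨i, rfl⟩ | rfl
  · rw [finRotate_of_lt (by simp)] at h2
    simp at h2
  · rw [finRotate_last] at h2
    simp at h2
    omega

theorem Yop_single (L : ℕ) (hL : 1 ≤ L) (j : Fin (L + 1)) (c : Fin 3) :
    Yop L (Pi.single j c.succ) =
      onSite (spinOp c) j * onSite (spinOp c) (finRotate (L + 1) j) := by
  unfold Yop
  rw [onSite_eq_piK, onSite_eq_piK, piK_mul]
  congr 1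
  funext k
  have hne := finRotate_ne L hL j
  by_cases h1 : k = j
  · subst h1
    have h2 : (finRotate (L + 1)).symm k ≠ k := by
      intro h
      rw [Equiv.symm_apply_eq] at h
      exact finRotate_ne L hL k h.symm
    rw [Pi.single_eq_of_ne h2, Pi.single_eq_same, if_pos rfl, if_neg (Ne.symm hne)]
    simp
  · by_cases h3 : k = finRotate (L + 1) j
    · subst h3
      rw [Equiv.symm_apply_apply, Pi.single_eq_same, Pi.single_eq_of_ne h1, if_neg h1, if_pos rfl]
      simp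
    · have h2 : (finRotate (L + 1)).symm k ≠ j := by
        intro h
        rw [Equiv.symm_apply_eq] at h
        exact h3 h
      rw [Pi.single_eq_of_ne h2, Pi.single_eq_of_ne h1, if_neg h1, if_neg h3]
      simp

/-- `Gop` with coupling `e` is `1 - e² H + O(e⁴)`, entrywise. -/
theorem Gop_expand (a : Fin 4) (L : ℕ) (hL : 1 ≤ L) :
    ∃ C : ℝ, ∀ e : ℝ, 0 ≤ e → e ≤ 1 → ∀ σ τ,
      ‖(Gop (etaK ℂ a) (Mten (fun c => Complex.I • spinOp c) (e : ℂ)) L
        - (1 - ((e : ℂ) ^ 2) • ringTw a (L + 1))) σ τ‖ ≤ C * e ^ 4 := by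
  classical
  refine ⟨∑ σ, ∑ τ, ∑ ω : Fin (L + 1) → Fin 4, ‖etaK ℂ a (ω (Fin.last L)) * Yop L ω σ τ‖, ?_⟩
  intro e he0 he1 σ τ
  have hsplit : Gop (etaK ℂ a) (Mten (fun c => Complex.I • spinOp c) (e : ℂ)) L
        - (1 - ((e : ℂ) ^ 2) • ringTw a (L + 1)) =
      ∑ ω ∈ Finset.univ.filter (fun ω : Fin (L + 1) → Fin 4 => 2 ≤ NN ω),
        (etaK ℂ a (ω (Fin.last L)) * (-((e : ℂ) ^ 2)) ^ NN ω) • Yop L ω := by
    rw [Gop_eq_sum, sum_split]
    have h0 : (etaK ℂ a ((0 : Fin (L + 1) → Fin 4) (Fin.last L)) *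
        (-((e : ℂ) ^ 2)) ^ NN (0 : Fin (L + 1) → Fin 4)) • Yop L 0 = 1 := by
      have : NN (0 : Fin (L + 1) → Fin 4) = 0 := (NN_eq_zero_iff _).mpr rfl
      rw [this, Yop_zero]
      simp [etaK]
    have h1 : ∑ j : Fin (L + 1), ∑ c : Fin 3,
        (etaK ℂ a ((Pi.single j c.succ : Fin (L + 1) → Fin 4) (Fin.last L)) *
          (-((e : ℂ) ^ 2)) ^ NN (Pi.single j c.succ : Fin (L + 1) → Fin 4)) •
          Yop L (Pi.single j c.succ) = -(((e : ℂ) ^ 2) • ringTw a (L + 1)) := by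
      unfold ringTw
      rw [Finset.smul_sum, ← Finset.sum_neg_distrib]
      refine Finset.sum_congr rfl fun j _ => ?_
      rw [Finset.smul_sum, ← Finset.sum_neg_distrib]
      refine Finset.sum_congr rfl fun c _ => ?_
      rw [NN_single, Yop_single L hL, pow_one, smul_smul, ← neg_smul]
      congr 1
      by_cases hj : j = Fin.last L
      · subst hj
        simp only [Pi.single_eq_same, Fin.val_last, if_true]
        simp [etaK, mul_comm]
      · have hj' : ¬ (j.val + 1 = L + 1) := by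
          intro h
          apply hj
          ext
          simp only [Fin.val_last]
          omega
        rw [if_neg hj', Pi.single_eq_of_ne (Ne.symm hj)]
        simp [etaK]
    rw [h0, h1]
    abel
  rw [hsplit, Matrix.sum_apply]
  calc ‖∑ ω ∈ Finset.univ.filter (fun ω : Fin (L + 1) → Fin 4 => 2 ≤ NN ω),
        ((etaK ℂ a (ω (Fin.last L)) * (-((e : ℂ) ^ 2)) ^ NN ω) • Yop L ω) σ τ‖
      ≤ ∑ ω ∈ Finset.univ.filter (fun ω : Fin (L + 1) → Fin 4 => 2 ≤ NN ω),
        ‖((etaK ℂ a (ω (Fin.last L)) * (-((e : ℂ) ^ 2)) ^ NN ω) • Yop L ω) σ τ‖ :=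
        norm_sum_le _ _
    _ ≤ ∑ ω ∈ Finset.univ.filter (fun ω : Fin (L + 1) → Fin 4 => 2 ≤ NN ω),
        ‖etaK ℂ a (ω (Fin.last L)) * Yop L ω σ τ‖ * e ^ 4 := by
        refine Finset.sum_le_sum fun ω hω => ?_
        have h2 : 2 ≤ NN ω := (Finset.mem_filter.mp hω).2
        rw [Matrix.smul_apply, smul_eq_mul]
        have hre : etaK ℂ a (ω (Fin.last L)) * (-((e : ℂ) ^ 2)) ^ NN ω * Yop L ω σ τ =
            (etaK ℂ a (ω (Fin.last L)) * Yop L ω σ τ) * (-((e : ℂ) ^ 2)) ^ NN ω := by ring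
        rw [hre, norm_mul]
        refine mul_le_mul_of_nonneg_left ?_ (norm_nonneg _)
        rw [norm_pow, norm_neg, norm_pow, Complex.norm_real, Real.norm_of_nonneg he0]
        calc (e ^ 2) ^ NN ω ≤ (e ^ 2) ^ 2 :=
              pow_le_pow_of_le_one (by positivity) (pow_le_one₀ he0 he1) h2
          _ = e ^ 4 := by ring
    _ ≤ ∑ ω : Fin (L + 1) → Fin 4, ‖etaK ℂ a (ω (Fin.last L)) * Yop L ω σ τ‖ * e ^ 4 := by
        refine Finset.sum_le_sum_of_subset_of_nonneg (Finset.subset_univ _) ?_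
        intro ω _ _
        positivity
    _ = (∑ ω : Fin (L + 1) → Fin 4, ‖etaK ℂ a (ω (Fin.last L)) * Yop L ω σ τ‖) * e ^ 4 := by
        rw [Finset.sum_mul]
    _ ≤ _ := by
        refine mul_le_mul_of_nonneg_right ?_ (by positivity)
        calc ∑ ω : Fin (L + 1) → Fin 4, ‖etaK ℂ a (ω (Fin.last L)) * Yop L ω σ τ‖
            ≤ ∑ τ, ∑ ω : Fin (L + 1) → Fin 4, ‖etaK ℂ a (ω (Fin.last L)) * Yop L ω σ τ‖ :=
              Finset.single_le_sum (f := fun τ => ∑ ω : Fin (L + 1) → Fin 4,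
                ‖etaK ℂ a (ω (Fin.last L)) * Yop L ω σ τ‖)
                (fun τ _ => Finset.sum_nonneg fun ω _ => norm_nonneg _) (Finset.mem_univ τ)
          _ ≤ _ := Finset.single_le_sum (f := fun σ => ∑ τ, ∑ ω : Fin (L + 1) → Fin 4,
                ‖etaK ℂ a (ω (Fin.last L)) * Yop L ω σ τ‖)
                (fun σ _ => Finset.sum_nonneg fun τ _ => Finset.sum_nonneg fun ω _ =>
                  norm_nonneg _) (Finset.mem_univ σ)

section norm
attribute [local instance] Matrix.linftyOpNormedRing Matrix.linftyOpNormedAlgebra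

theorem norm_le_of_entries {κ : Type*} [Fintype κ] [DecidableEq κ] (M : Matrix κ κ ℂ) {B : ℝ}
    (hB : 0 ≤ B) (h : ∀ σ τ, ‖M σ τ‖ ≤ B) : ‖M‖ ≤ Fintype.card κ * B := by
  rw [Matrix.linfty_opNorm_def]
  let B' : NNReal := ⟨B, hB⟩
  have : ((Finset.univ : Finset κ).sup fun i => ∑ j, ‖M i j‖₊) ≤
      (Fintype.card κ : NNReal) * B' := by
    refine Finset.sup_le fun i _ => ?_
    have h1 : ∑ j, ‖M i j‖₊ ≤ ∑ _j : κ, B' := Finset.sum_le_sum fun j _ => h i j
    refine h1.trans (le_of_eq ?_)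
    simp
  exact_mod_cast this

theorem Gop_pow_tendsto (a : Fin 4) (β : ℝ) (hβ : 0 < β) (L : ℕ) (hL : 1 ≤ L) :
    Tendsto (fun n : ℕ => (Gop (etaK ℂ a)
        (Mten (fun c => Complex.I • spinOp c) ((Real.sqrt (β / n) : ℝ) : ℂ)) L) ^ n) atTop
      (𝓝 (NormedSpace.exp (-(β : ℂ) • ringTw a (L + 1)))) := by
  obtain ⟨C, hC⟩ := Gop_expand a L hL
  set X : Matrix (Fin (L + 1) → Fin 3) (Fin (L + 1) → Fin 3) ℂ :=
    -(β : ℂ) • ringTw a (L + 1) with hX
  let G : ℕ → Matrix (Fin (L + 1) → Fin 3) (Fin (L + 1) → Fin 3) ℂ := fun n =>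
    if β ≤ n then Gop (etaK ℂ a)
        (Mten (fun c => Complex.I • spinOp c) ((Real.sqrt (β / n) : ℝ) : ℂ)) L
    else 1 + ((1 / (n : ℂ)) • X)
  have hC0 : 0 ≤ |C| * β ^ 2 := by positivity
  have key := trotter_limit X G
    (Fintype.card (Fin (L + 1) → Fin 3) * (|C| * β ^ 2)) (by
      intro n hn
      have hn0 : (0 : ℝ) < n := by exact_mod_cast hn
      by_cases hb : β ≤ n
      · simp only [G, if_pos hb]
        have hnn : (0 : ℝ) ≤ β / n := by positivity
        have he1 : Real.sqrt (β / n) ≤ 1 := by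
          rw [Real.sqrt_le_one]
          rw [div_le_one hn0]
          exact hb
        have hsq : ((Real.sqrt (β / n) : ℝ) : ℂ) ^ 2 = (β : ℂ) / n := by
          rw [← Complex.ofReal_pow, Real.sq_sqrt hnn]
          push_cast
          rfl
        have hent := hC (Real.sqrt (β / n)) (Real.sqrt_nonneg _) he1
        have hmat : (1 : Matrix (Fin (L + 1) → Fin 3) (Fin (L + 1) → Fin 3) ℂ) +
            ((1 / (n : ℂ)) • X) =
            1 - (((Real.sqrt (β / n) : ℝ) : ℂ) ^ 2) • ringTw a (L + 1) := by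
          rw [hsq, hX, smul_smul, sub_eq_add_neg, ← neg_smul]
          congr 2
          ring
        rw [hmat]
        have hfour : Real.sqrt (β / n) ^ 4 = β ^ 2 / n ^ 2 := by
          have : Real.sqrt (β / n) ^ 4 = (Real.sqrt (β / n) ^ 2) ^ 2 := by ring
          rw [this, Real.sq_sqrt hnn, div_pow]
        calc _ ≤ (Fintype.card (Fin (L + 1) → Fin 3) : ℝ) * (|C| * (β ^ 2 / n ^ 2)) := by
              refine norm_le_of_entries _ (by positivity) fun σ τ => ?_
              refine (hent σ τ).trans ?_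
              rw [hfour]
              exact mul_le_mul_of_nonneg_right (le_abs_self C) (by positivity)
          _ = _ := by ring
      · simp only [G, if_neg hb, sub_self, norm_zero]
        positivity)
  refine key.congr' ?_
  filter_upwards [eventually_ge_atTop ⌈β⌉₊] with n hn
  have : β ≤ n := (Nat.le_ceil β).trans (by exact_mod_cast hn)
  simp only [G, if_pos this]

end norm

theorem map_ofReal_pow {κ : Type*} [Fintype κ] [DecidableEq κ] (M : Matrix κ κ ℝ) (l : ℕ) :
    (M.map (fun x : ℝ => (x : ℂ))) ^ l = (M ^ l).map (fun x : ℝ => (x : ℂ)) := by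
  have := map_pow (Complex.ofRealHom.mapMatrix : Matrix κ κ ℝ →+* Matrix κ κ ℂ) M l
  exact this.symm

theorem trace_map_ofReal {κ : Type*} [Fintype κ] (M : Matrix κ κ ℝ) :
    (M.map (fun x : ℝ => (x : ℂ))).trace = ((M.trace : ℝ) : ℂ) := by
  simp [Matrix.trace]

theorem Dsig_map (a : Fin 4) (n : ℕ) :
    Matrix.diagonal (fun ω : Fin n → Fin 4 => ∏ k, etaK ℂ a (ω k)) =
      (Dsig a n).map (fun x : ℝ => (x : ℂ)) := by
  have h : ∀ c : Fin 4, etaK ℂ a c = ((etaK ℝ a c : ℝ) : ℂ) := by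
    intro c
    refine Fin.cases ?_ (fun c => ?_) c <;> simp [etaK]
  unfold Dsig
  ext ω ω'
  by_cases hω : ω = ω'
  · subst hω
    simp [h]
  · simp [Matrix.diagonal_apply_ne _ hω, Matrix.map_apply]

theorem crossing_finite (a b : Fin 4) (e : ℝ) (n L : ℕ) :
    ((piK (fun _ : Fin (L + 1) => rotC b) *
      (Gop (etaK ℂ a) (Mten (fun c => Complex.I • spinOp c) (e : ℂ)) L) ^ n).trace).re =
      (Dsig a n * (tauR b e n) ^ (L + 1)).trace := by
  rw [transfer_identity, tau_complex_eq, Dsig_map, map_ofReal_pow]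
  have : (Dsig a n).map (fun x : ℝ => (x : ℂ)) *
      ((tauR b e n) ^ (L + 1)).map (fun x : ℝ => (x : ℂ)) =
      (Dsig a n * (tauR b e n) ^ (L + 1)).map (fun x : ℝ => (x : ℂ)) := by
    have := map_mul (Complex.ofRealHom.mapMatrix :
      Matrix (Fin n → Fin 4) (Fin n → Fin 4) ℝ →+* Matrix (Fin n → Fin 4) (Fin n → Fin 4) ℂ)
      (Dsig a n) ((tauR b e n) ^ (L + 1))
    exact this.symm
  rw [this, trace_map_ofReal, Complex.ofReal_re]

/-- Crossing for the ring. -/
theorem Zab_tendsto (a b : Fin 4) (β : ℝ) (hβ : 0 < β) (L : ℕ) (hL : 2 ≤ L) :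
    Tendsto (fun n : ℕ => (Dsig a n * (tauR b (Real.sqrt (β / n)) n) ^ L).trace) atTop
      (𝓝 (Zab a b β L)) := by
  obtain ⟨L, rfl⟩ : ∃ L', L = L' + 1 := ⟨L - 1, by omega⟩
  have hlim := Gop_pow_tendsto a β hβ L (by omega)
  have hcont : Continuous fun M : Matrix (Fin (L + 1) → Fin 3) (Fin (L + 1) → Fin 3) ℂ =>
      ((piK (fun _ : Fin (L + 1) => rotC b) * M).trace).re :=
    Complex.continuous_re.comp
      (Continuous.matrix_trace (Continuous.matrix_mul continuous_const continuous_id))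
  have h2 := (hcont.tendsto _).comp hlim
  unfold Zab
  refine h2.congr fun n => ?_
  simp only [Function.comp]
  exact crossing_finite a b _ n L

end Crest.Agent.R347
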