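import Crest.Agent.R347.Basic

/-! General Hermitian-matrix lemmas used in `Direct`. -/

set_option autoImplicit false

namespace Crest.Agent.R347.DirectGen

open Matrix Crest.MathPhysics.SpinChain

section general
variable {κ : Type*} [Fintype κ] [DecidableEq κ]

/-- `A = U diag(d) U*` with `U` unitary. -/
structure UDiag (A U : Matrix κ κ ℂ) (d : κ → ℝ) : Prop where
  h1 : U * star U = 1
  h2 : star U * U = 1
  h3 : A = U * diagonal (fun i => ((d i : ℝ) : ℂ)) * star U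

theorem UDiag.of_herm {A : Matrix κ κ ℂ} (hA : A.IsHermitian) :
    ∃ (U : Matrix κ κ ℂ) (d : κ → ℝ), UDiag A U d := by
  refine ⟨(hA.eigenvectorUnitary : Matrix κ κ ℂ), hA.eigenvalues,
    Unitary.coe_mul_star_self _, Unitary.coe_star_mul_self _, ?_⟩
  conv_lhs => rw [hA.spectral_theorem]
  rfl

theorem UDiag.mul {A B U : Matrix κ κ ℂ} {d e : κ → ℝ} (h : UDiag A U d) (h' : UDiag B U e) :
    UDiag (A * B) U (fun i => d i * e i) := by
  refine ⟨h.h1, h.h2, ?_⟩
  rw [h.h3, h'.h3]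
  have : U * diagonal (fun i => ((d i : ℝ) : ℂ)) * star U *
      (U * diagonal (fun i => ((e i : ℝ) : ℂ)) * star U) =
      U * (diagonal (fun i => ((d i : ℝ) : ℂ)) * (star U * U) *
        diagonal (fun i => ((e i : ℝ) : ℂ))) * star U := by
    simp only [Matrix.mul_assoc]
  rw [this, h.h2, Matrix.mul_one, Matrix.diagonal_mul_diagonal]
  simp

theorem UDiag.pow {A U : Matrix κ κ ℂ} {d : κ → ℝ} (h : UDiag A U d) (k : ℕ) :
    UDiag (A ^ k) U (fun i => d i ^ k) := by
  induction k with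
  | zero =>
    refine ⟨h.h1, h.h2, ?_⟩
    simp [h.h1]
  | succ k ih =>
    have := ih.mul h
    simpa [pow_succ] using this

theorem UDiag.exp {A U : Matrix κ κ ℂ} {d : κ → ℝ} (h : UDiag A U d) (β : ℝ) :
    UDiag (NormedSpace.exp (-(β : ℂ) • A)) U (fun i => Real.exp (-β * d i)) := by
  refine ⟨h.h1, h.h2, ?_⟩
  have hinv : U⁻¹ = star U := Matrix.inv_eq_right_inv h.h1
  have hunit : IsUnit U := by
    rw [Matrix.isUnit_iff_isUnit_det]
    exact Matrix.isUnit_det_of_right_inverse h.h1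
  have e1 : -(β : ℂ) • A = U *
      diagonal (fun i => ((-β * d i : ℝ) : ℂ)) * U⁻¹ := by
    rw [hinv, h.h3, ← Matrix.smul_mul, ← Matrix.mul_smul]
    congr 2
    ext i j
    by_cases hij : i = j
    · subst hij; simp
    · simp [hij]
  rw [e1, Matrix.exp_conj _ _ hunit, Matrix.exp_diagonal, hinv]
  congr 2
  ext i j
  by_cases hij : i = j
  · subst hij
    simp only [diagonal_apply_eq]
    rw [Pi.coe_exp, ← Complex.exp_eq_exp_ℂ]
    push_cast
    rfl
  · simp [hij]

theorem UDiag.trace {A U : Matrix κ κ ℂ} {d : κ → ℝ} (h : UDiag A U d) :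
    A.trace = ((∑ i, d i : ℝ) : ℂ) := by
  rw [h.h3, Matrix.trace_mul_comm, ← Matrix.mul_assoc, h.h2, Matrix.one_mul,
    Matrix.trace_diagonal]
  push_cast
  rfl

theorem UDiag.conj {A U : Matrix κ κ ℂ} {d : κ → ℝ} (h : UDiag A U d) :
    star U * A = diagonal (fun i => ((d i : ℝ) : ℂ)) * star U := by
  rw [h.h3, ← Matrix.mul_assoc, ← Matrix.mul_assoc, h.h2, Matrix.one_mul]

theorem UDiag.conj' {A U : Matrix κ κ ℂ} {d : κ → ℝ} (h : UDiag A U d) :
    A * U = U * diagonal (fun i => ((d i : ℝ) : ℂ)) := by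
  rw [h.h3, Matrix.mul_assoc, h.h2, Matrix.mul_one]

theorem UDiag.col {A U : Matrix κ κ ℂ} {d : κ → ℝ} (h : UDiag A U d) (i : κ) :
    A *ᵥ (fun j => U j i) = ((d i : ℝ) : ℂ) • (fun j => U j i) := by
  ext j
  have := congrFun (congrFun h.conj' j) i
  rw [Matrix.mul_apply, Matrix.mul_diagonal] at this
  simp only [mulVec, dotProduct, Pi.smul_apply, smul_eq_mul]
  rw [this, mul_comm]

theorem UDiag.col_ne {A U : Matrix κ κ ℂ} {d : κ → ℝ} (h : UDiag A U d) (i : κ) :
    (fun j => U j i) ≠ 0 := by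
  intro h0
  have := congrFun (congrFun h.h2 i) i
  rw [Matrix.mul_apply] at this
  have h0' : ∀ j, U j i = 0 := fun j => congrFun h0 j
  simp [h0'] at this

theorem UDiag.eig_mem {A U : Matrix κ κ ℂ} {d : κ → ℝ} (h : UDiag A U d) {v : κ → ℂ}
    (hv : v ≠ 0) {y : ℝ} (hy : A *ᵥ v = (y : ℂ) • v) : ∃ i, d i = y := by
  by_contra hcon
  push Not at hcon
  apply hv
  have hc : star U *ᵥ v = 0 := by
    ext i
    have h1 : (star U * A) *ᵥ v = (y : ℂ) • (star U *ᵥ v) := by
      rw [← Matrix.mulVec_mulVec, hy, Matrix.mulVec_smul]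
    rw [h.conj, ← Matrix.mulVec_mulVec] at h1
    have h2 := congrFun h1 i
    rw [Matrix.mulVec_diagonal] at h2
    simp only [Pi.smul_apply, smul_eq_mul] at h2
    have h3 : ((d i : ℂ) - y) * (star U *ᵥ v) i = 0 := by rw [sub_mul, h2, sub_self]
    rcases mul_eq_zero.mp h3 with h4 | h4
    · exfalso
      apply hcon i
      have : ((d i : ℂ)) = (y : ℂ) := sub_eq_zero.mp h4
      exact_mod_cast this
    · simpa using h4
  calc v = (U * star U) *ᵥ v := by rw [h.h1, Matrix.one_mulVec]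
    _ = U *ᵥ (star U *ᵥ v) := by rw [Matrix.mulVec_mulVec]
    _ = 0 := by rw [hc, Matrix.mulVec_zero]

theorem UDiag.norm_eq {A U : Matrix κ κ ℂ} {d : κ → ℝ} (h : UDiag A U d) (ψ φ : κ → ℂ) :
    star ψ ⬝ᵥ φ = star (star U *ᵥ ψ) ⬝ᵥ (star U *ᵥ φ) := by
  rw [Matrix.star_mulVec, ← Matrix.dotProduct_mulVec, Matrix.mulVec_mulVec]
  have : (star U)ᴴ * star U = 1 := by
    rw [Matrix.star_eq_conjTranspose, Matrix.conjTranspose_conjTranspose,
      ← Matrix.star_eq_conjTranspose, h.h1]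
  rw [this, Matrix.one_mulVec]

theorem UDiag.quad0 {A U : Matrix κ κ ℂ} {d : κ → ℝ} (h : UDiag A U d) (ψ : κ → ℂ) :
    star ψ ⬝ᵥ ψ = ((∑ i, ‖(star U *ᵥ ψ) i‖ ^ 2 : ℝ) : ℂ) := by
  rw [h.norm_eq]
  simp only [dotProduct, Pi.star_apply]
  push_cast
  refine Finset.sum_congr rfl fun i _ => ?_
  rw [← Complex.conj_mul']
  rfl

theorem UDiag.quad1 {A U : Matrix κ κ ℂ} {d : κ → ℝ} (h : UDiag A U d) (ψ : κ → ℂ) :
    star ψ ⬝ᵥ (A *ᵥ ψ) = ((∑ i, d i * ‖(star U *ᵥ ψ) i‖ ^ 2 : ℝ) : ℂ) := by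
  rw [h.norm_eq, Matrix.mulVec_mulVec, h.conj, ← Matrix.mulVec_mulVec]
  simp only [dotProduct, Pi.star_apply, Matrix.mulVec_diagonal]
  push_cast
  refine Finset.sum_congr rfl fun i _ => ?_
  rw [← Complex.conj_mul']
  simp only [RCLike.star_def]
  ring

theorem UDiag.quad2 {A U : Matrix κ κ ℂ} {d : κ → ℝ} (h : UDiag A U d) (ψ : κ → ℂ) :
    star (A *ᵥ ψ) ⬝ᵥ (A *ᵥ ψ) = ((∑ i, d i ^ 2 * ‖(star U *ᵥ ψ) i‖ ^ 2 : ℝ) : ℂ) := by
  rw [h.norm_eq, Matrix.mulVec_mulVec, h.conj, ← Matrix.mulVec_mulVec]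
  simp only [dotProduct, Pi.star_apply, Matrix.mulVec_diagonal]
  push_cast
  refine Finset.sum_congr rfl fun i _ => ?_
  rw [← Complex.conj_mul']
  simp only [RCLike.star_def, map_mul, Complex.conj_ofReal]
  ring

theorem UDiag.nonneg {A U : Matrix κ κ ℂ} {d : κ → ℝ} (h : UDiag A U d)
    {B : Matrix κ κ ℂ} (hB : A = Bᴴ * B) (i : κ) : 0 ≤ d i := by
  have h1 : star (fun j => U j i) ⬝ᵥ (A *ᵥ (fun j => U j i)) =
      ((∑ k, ‖(B *ᵥ (fun j => U j i)) k‖ ^ 2 : ℝ) : ℂ) := by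
    rw [hB, ← Matrix.mulVec_mulVec, Matrix.dotProduct_mulVec, ← Matrix.star_mulVec]
    simp only [dotProduct, Pi.star_apply]
    push_cast
    refine Finset.sum_congr rfl fun i _ => ?_
    rw [← Complex.conj_mul']
    rfl
  rw [h.col i, dotProduct_smul] at h1
  have h2 : star (fun j => U j i) ⬝ᵥ (fun j => U j i) = 1 := by
    have := congrFun (congrFun h.h2 i) i
    rw [Matrix.mul_apply, Matrix.one_apply_eq] at this
    simpa [dotProduct, Matrix.star_apply] using this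
  rw [h2, smul_eq_mul, mul_one] at h1
  have h3 : d i = ∑ k, ‖(B *ᵥ (fun j => U j i)) k‖ ^ 2 := by exact_mod_cast h1
  rw [h3]
  positivity

theorem sum_pow_le_pow_sum' {ι : Type*} (s : Finset ι) (y : ι → ℝ) (hy : ∀ i, 0 ≤ y i) (k : ℕ)
    (hk : 1 ≤ k) : ∑ i ∈ s, y i ^ k ≤ (∑ i ∈ s, y i) ^ k := by
  classical
  induction s using Finset.induction_on with
  | empty => simp
  | insert a s ha ih =>
    rw [Finset.sum_insert ha, Finset.sum_insert ha]
    have h0 : 0 ≤ ∑ i ∈ s, y i := Finset.sum_nonneg fun i _ => hy i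
    have := pow_add_pow_le (hy a) h0 (by omega : k ≠ 0)
    linarith

theorem sum_pow_le_top {ι : Type*} [Fintype ι] [DecidableEq ι] (y : ι → ℝ) (hy : ∀ i, 0 ≤ y i)
    (j : ι) (k : ℕ) (hk : 1 ≤ k) :
    ∑ i, y i ^ k ≤ y j ^ k + (∑ i, y i - y j) ^ k := by
  rw [← Finset.add_sum_erase _ _ (Finset.mem_univ j), ← Finset.add_sum_erase _ _ (Finset.mem_univ j)]
  have := sum_pow_le_pow_sum' (Finset.univ.erase j) y hy k hk
  have e : y j + ∑ i ∈ Finset.univ.erase j, y i - y j = ∑ i ∈ Finset.univ.erase j, y i := by ring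
  rw [e]
  linarith

theorem le_sum_of_mem {ι : Type*} [Fintype ι] (y : ι → ℝ) (hy : ∀ i, 0 ≤ y i)
    (j : ι) : y j ≤ ∑ i, y i :=
  Finset.single_le_sum (fun i _ => hy i) (Finset.mem_univ j)

theorem two_le_sum {ι : Type*} [Fintype ι] [DecidableEq ι] (y : ι → ℝ) (hy : ∀ i, 0 ≤ y i)
    (j k : ι) (hjk : j ≠ k) : y j + y k ≤ ∑ i, y i := by
  rw [← Finset.add_sum_erase _ _ (Finset.mem_univ j)]
  have : y k ≤ ∑ i ∈ Finset.univ.erase j, y i :=
    Finset.single_le_sum (fun i _ => hy i) (Finset.mem_erase.mpr ⟨hjk.symm, Finset.mem_univ k⟩)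
  linarith

theorem sector_ps {H P U : Matrix κ κ ℂ} {d : κ → ℝ} (h : UDiag H U d)
    (hP : P.IsHermitian) (hPP : P * P = P) (hc : Commute P H) (β : ℝ) :
    ∃ y : κ → ℝ, (∀ i, 0 ≤ y i) ∧
      (∀ k : ℕ, 1 ≤ k → (P * NormedSpace.exp (-((k * β : ℝ) : ℂ) • H)).trace =
        ((∑ i, y i ^ k : ℝ) : ℂ)) ∧
      (∀ i, P *ᵥ (fun j => U j i) ≠ 0 → ∃ j, y j = Real.exp (-β * d i)) := by
  have hexp : ∀ γ : ℝ, Commute P (NormedSpace.exp (-(γ : ℂ) • H)) := fun γ =>
    (hc.smul_right _).exp_right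
  set E := NormedSpace.exp (-((β / 2 : ℝ) : ℂ) • H) with hE
  set A := P * NormedSpace.exp (-(β : ℂ) • H) with hA
  have hEE : NormedSpace.exp (-(β : ℂ) • H) = E * E := by
    rw [(h.exp β).h3, ((h.exp (β / 2)).mul (h.exp (β / 2))).h3]
    congr 2
    ext i j
    by_cases hij : i = j
    · subst hij
      simp only [diagonal_apply_eq]
      rw [← Real.exp_add]
      congr 2
      ring
    · simp [hij]
  have hHh : H.IsHermitian := by
    rw [h.h3, Matrix.IsHermitian, Matrix.conjTranspose_mul, Matrix.conjTranspose_mul,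
      ← Matrix.star_eq_conjTranspose, star_star, Matrix.diagonal_conjTranspose, Matrix.mul_assoc,
      ← Matrix.star_eq_conjTranspose]
    congr 3
    ext i
    simp
  have hEh : Eᴴ = E := by
    have : (-((β / 2 : ℝ) : ℂ) • H).IsHermitian := by
      rw [Matrix.IsHermitian, Matrix.conjTranspose_smul, hHh.eq]
      simp
    exact this.exp.eq
  have hAB : A = (P * E)ᴴ * (P * E) := by
    rw [Matrix.conjTranspose_mul, hEh, hP.eq, hA, hEE]
    have := (hexp (β / 2)).eq
    rw [← hE] at this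
    calc P * (E * E) = (P * P) * (E * E) := by rw [hPP]
      _ = P * (P * E) * E := by simp only [Matrix.mul_assoc]
      _ = P * (E * P) * E := by rw [this]
      _ = (P * E) * (P * E) := by simp only [Matrix.mul_assoc]
      _ = (E * P) * (P * E) := by rw [this]
  have hAh : A.IsHermitian := by
    rw [hAB]; exact Matrix.isHermitian_conjTranspose_mul_self _
  obtain ⟨V, y, hy⟩ := UDiag.of_herm hAh
  refine ⟨y, fun i => hy.nonneg hAB i, fun k hk => ?_, fun i hi => ?_⟩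
  · rw [← (hy.pow k).trace, hA, (hexp β).mul_pow, IsIdempotentElem.pow_eq hPP (by omega),
      ← Matrix.exp_nsmul]
    congr 3
    ext i j
    simp only [Matrix.smul_apply, smul_eq_mul, nsmul_eq_mul]
    push_cast
    ring
  · have : A *ᵥ (P *ᵥ (fun j => U j i)) = ((Real.exp (-β * d i) : ℝ) : ℂ) •
        (P *ᵥ (fun j => U j i)) := by
      rw [Matrix.mulVec_mulVec, hA]
      have e1 : P * NormedSpace.exp (-(β : ℂ) • H) * P =
          P * NormedSpace.exp (-(β : ℂ) • H) := by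
        rw [Matrix.mul_assoc, ← (hexp β).eq, ← Matrix.mul_assoc, hPP]
      rw [e1, ← Matrix.mulVec_mulVec, (h.exp β).col i, Matrix.mulVec_smul]
    exact hy.eig_mem hi this

theorem abstract_direct {H : Matrix κ κ ℂ} (hH : H.IsHermitian) (P : Fin 4 → Matrix κ κ ℂ)
    (hP : ∀ χ, (P χ).IsHermitian) (hPP : ∀ χ, P χ * P χ = P χ) (hc : ∀ χ, Commute (P χ) H)
    (hsum : ∑ χ, P χ = 1)
    (heq : ∀ (γ : ℝ) (c : Fin 3), (P c.succ * NormedSpace.exp (-(γ : ℂ) • H)).trace =
      (P 1 * NormedSpace.exp (-(γ : ℂ) • H)).trace)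
    {β Zb T E v a b μ : ℝ} (hβ : 0 < β)
    (hZ : (NormedSpace.exp (-(β : ℂ) • H)).trace.re ≤ Zb)
    (hT : (P 0 * NormedSpace.exp (-(β : ℂ) • H)).trace.re ≤ T)
    (ψ : κ → ℂ) (hψ : ψ ≠ 0)
    (hE : star ψ ⬝ᵥ H.mulVec ψ = (E : ℂ) * (star ψ ⬝ᵥ ψ))
    (hv : (star (H.mulVec ψ) ⬝ᵥ H.mulVec ψ).re ≤ (E ^ 2 + v) * (star ψ ⬝ᵥ ψ).re)
    (h3 : Zb < 3 * Real.exp (-β * E))
    (ha : T - Real.exp (-β * E) ≤ a)
    (hb : (Zb - Real.exp (-β * E)) / 3 ≤ b)
    (hμE : E < μ) (haμ : a ≤ Real.exp (-β * μ)) (hbμ : b ≤ Real.exp (-β * μ))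
    (k : ℕ) (hk : 1 ≤ k) :
    (NormedSpace.exp (-((k * β : ℝ) : ℂ) • H)).trace.re ≤
      Real.exp (-(k * β) * (E - v / (μ - E))) + a ^ k + 3 * b ^ k := by
  obtain ⟨U, d, h⟩ := UDiag.of_herm hH
  -- the eigenvalue lists of the sectors
  have hy' : ∀ χ : Fin 4, ∃ y : κ → ℝ, (∀ i, 0 ≤ y i) ∧
      (∀ k : ℕ, 1 ≤ k → (P χ * NormedSpace.exp (-((k * β : ℝ) : ℂ) • H)).trace =
        ((∑ i, y i ^ k : ℝ) : ℂ)) ∧
      (∀ i, P χ *ᵥ (fun j => U j i) ≠ 0 → ∃ j, y j = Real.exp (-β * d i)) := fun χ =>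
    sector_ps h (hP χ) (hPP χ) (hc χ) β
  choose y hy0 hyk hyi using hy'
  -- traces
  have htr : ∀ k : ℕ, 1 ≤ k → (NormedSpace.exp (-((k * β : ℝ) : ℂ) • H)).trace.re =
      ∑ χ, ∑ i, y χ i ^ k := by
    intro k hk
    have : NormedSpace.exp (-((k * β : ℝ) : ℂ) • H) =
        ∑ χ, P χ * NormedSpace.exp (-((k * β : ℝ) : ℂ) • H) := by
      rw [← Finset.sum_mul, hsum, Matrix.one_mul]
    rw [this, Matrix.trace_sum, Complex.re_sum]
    refine Finset.sum_congr rfl fun χ _ => ?_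
    rw [hyk χ k hk, Complex.ofReal_re]
  have hceq : ∀ (c : Fin 3) (k : ℕ), 1 ≤ k → ∑ i, y c.succ i ^ k = ∑ i, y 1 i ^ k := by
    intro c k hk
    have h1 := heq (k * β) c
    rw [hyk _ k hk, hyk _ k hk] at h1
    exact_mod_cast h1
  have h1β : ((1 : ℕ) : ℝ) * β = β := by simp
  have hT' : ∑ i, y 0 i ≤ T := by
    have h1 := hyk 0 1 le_rfl
    rw [h1β] at h1
    rw [h1, Complex.ofReal_re] at hT
    simpa using hT
  have hZ' : ∑ i, y 0 i + 3 * ∑ i, y 1 i ≤ Zb := by
    have h1 := htr 1 le_rfl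
    rw [h1β] at h1
    rw [h1, Fin.sum_univ_succ] at hZ
    have h2 : ∑ c : Fin 3, ∑ i, y c.succ i ^ 1 = 3 * ∑ i, y 1 i := by
      rw [Finset.sum_congr rfl fun c _ => hceq c 1 le_rfl]
      simp
    rw [h2] at hZ
    simpa using hZ
  have hsumk : ∀ k : ℕ, 1 ≤ k → (NormedSpace.exp (-((k * β : ℝ) : ℂ) • H)).trace.re =
      ∑ i, y 0 i ^ k + 3 * ∑ i, y 1 i ^ k := by
    intro k hk
    rw [htr k hk, Fin.sum_univ_succ, Finset.sum_congr rfl fun c _ => hceq c k hk]
    simp
  -- coefficients of the trial vector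
  set c : κ → ℝ := fun i => ‖(star U *ᵥ ψ) i‖ ^ 2 with hcdef
  have hc0 : ∀ i, 0 ≤ c i := fun i => by positivity
  have hN : (star ψ ⬝ᵥ ψ) = ((∑ i, c i : ℝ) : ℂ) := h.quad0 ψ
  have hNpos : 0 < ∑ i, c i := by
    rcases (Finset.sum_nonneg fun i (_ : i ∈ Finset.univ) => hc0 i).lt_or_eq with h1 | h1
    · exact h1
    · exfalso
      apply hψ
      have h2 := (Finset.sum_eq_zero_iff_of_nonneg fun i _ => hc0 i).mp h1.symm
      have h3 : star U *ᵥ ψ = 0 := by
        ext i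
        have h4 := h2 i (Finset.mem_univ i)
        simpa [hcdef] using h4
      calc ψ = (U * star U) *ᵥ ψ := by rw [h.h1, Matrix.one_mulVec]
        _ = U *ᵥ (star U *ᵥ ψ) := by rw [Matrix.mulVec_mulVec]
        _ = 0 := by rw [h3, Matrix.mulVec_zero]
  have hE1 : ∑ i, d i * c i = E * ∑ i, c i := by
    have h1 := h.quad1 ψ
    rw [hE, hN] at h1
    exact_mod_cast h1.symm
  have hV1 : ∑ i, d i ^ 2 * c i ≤ (E ^ 2 + v) * ∑ i, c i := by
    have h1 := h.quad2 ψ
    rw [h1, hN, Complex.ofReal_re, Complex.ofReal_re] at hv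
    exact hv
  -- ground state
  have hne : Nonempty κ := by
    by_contra hcon
    rw [not_nonempty_iff] at hcon
    exact hψ (Subsingleton.elim _ _)
  obtain ⟨i0, hi0⟩ := Finite.exists_min d
  have hE0 : d i0 ≤ E := by
    have h1 : d i0 * ∑ i, c i ≤ E * ∑ i, c i := by
      rw [← hE1, Finset.mul_sum]
      exact Finset.sum_le_sum fun i _ => mul_le_mul_of_nonneg_right (hi0 i) (hc0 i)
    exact le_of_mul_le_mul_right h1 hNpos
  have hexpE : Real.exp (-β * E) ≤ Real.exp (-β * d i0) := by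
    apply Real.exp_le_exp.mpr
    nlinarith
  -- some sector contains each eigenvector
  have hsec : ∀ i, ∃ χ, P χ *ᵥ (fun j => U j i) ≠ 0 := by
    intro i
    by_contra hcon
    push Not at hcon
    apply h.col_ne i
    calc (fun j => U j i) = (1 : Matrix κ κ ℂ) *ᵥ (fun j => U j i) := (Matrix.one_mulVec _).symm
      _ = ∑ χ, P χ *ᵥ (fun j => U j i) := by rw [← hsum, Matrix.sum_mulVec]
      _ = 0 := Finset.sum_eq_zero fun χ _ => hcon χ
  -- charged sectors
  have hcharged : ∀ (i : κ) (χ : Fin 4), χ ≠ 0 → P χ *ᵥ (fun j => U j i) ≠ 0 →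
      Real.exp (-β * d i) ≤ ∑ j, y 1 j := by
    intro i χ hχ hi
    obtain ⟨j, hj⟩ := hyi χ i hi
    obtain ⟨χ', rfl⟩ := Fin.exists_succ_eq.mpr hχ
    rw [← hj]
    have h1 := hceq χ' 1 le_rfl
    simp only [pow_one] at h1
    rw [← h1]
    exact le_sum_of_mem _ (hy0 _) j
  have hy0sum : 0 ≤ ∑ i, y 0 i := Finset.sum_nonneg fun i _ => hy0 0 i
  have hy1sum : 0 ≤ ∑ i, y 1 i := Finset.sum_nonneg fun i _ => hy0 1 i
  have htop : ∃ j0, y 0 j0 = Real.exp (-β * d i0) := by
    obtain ⟨χ, hχ⟩ := hsec i0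
    by_cases h0 : χ = 0
    · subst h0
      exact hyi 0 i0 hχ
    · exfalso
      have h1 := hcharged i0 χ h0 hχ
      linarith
  obtain ⟨j0, hj0⟩ := htop
  have hA : ∑ i, y 0 i - y 0 j0 ≤ a := by rw [hj0]; linarith
  have hA0 : 0 ≤ ∑ i, y 0 i - y 0 j0 := by
    have := le_sum_of_mem (y 0) (hy0 0) j0
    linarith
  have hB : ∑ i, y 1 i ≤ b := by
    have h1 := le_sum_of_mem (y 0) (hy0 0) j0
    rw [hj0] at h1
    linarith
  -- other eigenvalues are above `μ`
  have hgap : ∀ i, d i = d i0 ∨ μ ≤ d i := by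
    intro i
    by_cases hii : d i = d i0
    · exact Or.inl hii
    · right
      have key : Real.exp (-β * d i) ≤ Real.exp (-β * μ) := by
        obtain ⟨χ, hχ⟩ := hsec i
        by_cases h0 : χ = 0
        · subst h0
          obtain ⟨j, hj⟩ := hyi 0 i hχ
          have hjj : j0 ≠ j := by
            intro hjj
            rw [← hjj, hj0] at hj
            have := Real.exp_injective hj
            apply hii
            have h5 : β * (d i - d i0) = 0 := by linarith
            rcases mul_eq_zero.mp h5 with h6 | h6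
            · linarith
            · linarith
          have h1 := two_le_sum (y 0) (hy0 0) j0 j hjj
          rw [← hj]
          linarith
        · have h1 := hcharged i χ h0 hχ
          linarith
      have := Real.exp_le_exp.mp key
      nlinarith
  -- Temple
  have htemple : (μ - E) * (E - d i0) ≤ v := by
    have h1 : 0 ≤ ∑ i, (d i - d i0) * (d i - μ) * c i := by
      refine Finset.sum_nonneg fun i _ => mul_nonneg ?_ (hc0 i)
      rcases hgap i with h2 | h2
      · rw [h2]; simp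
      · exact mul_nonneg (by linarith [hi0 i]) (by linarith)
    have h2 : ∑ i, (d i - d i0) * (d i - μ) * c i =
        ∑ i, d i ^ 2 * c i - (d i0 + μ) * ∑ i, d i * c i + d i0 * μ * ∑ i, c i := by
      rw [Finset.mul_sum, Finset.mul_sum, ← Finset.sum_sub_distrib, ← Finset.sum_add_distrib]
      exact Finset.sum_congr rfl fun i _ => by ring
    rw [h2, hE1] at h1
    have h3 : 0 ≤ ((E ^ 2 + v) - (d i0 + μ) * E + d i0 * μ) * ∑ i, c i := by linarith
    have h4 : 0 ≤ (E ^ 2 + v) - (d i0 + μ) * E + d i0 * μ :=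
      nonneg_of_mul_nonneg_left h3 hNpos
    linarith
  have hlow : E - v / (μ - E) ≤ d i0 := by
    have h1 : E - d i0 ≤ v / (μ - E) := by
      rw [le_div_iff₀ (by linarith)]
      linarith
    linarith
  rw [hsumk k hk]
  have e1 : ∑ i, y 0 i ^ k ≤ Real.exp (-(k * β) * (E - v / (μ - E))) + a ^ k := by
    have h1 := sum_pow_le_top (y 0) (hy0 0) j0 k hk
    have h2 : (∑ i, y 0 i - y 0 j0) ^ k ≤ a ^ k := pow_le_pow_left₀ hA0 hA k
    have h3 : y 0 j0 ^ k ≤ Real.exp (-(k * β) * (E - v / (μ - E))) := by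
      rw [hj0, ← Real.exp_nat_mul]
      apply Real.exp_le_exp.mpr
      have hkβ : 0 ≤ (k : ℝ) * β := by positivity
      nlinarith
    linarith
  have e2 : ∑ i, y 1 i ^ k ≤ b ^ k :=
    (sum_pow_le_pow_sum' _ (y 1) (hy0 1) k hk).trans (pow_le_pow_left₀ hy1sum hB k)
  linarith

end general

noncomputable def sq : ℂ := ((Real.sqrt 2 : ℝ) : ℂ) / 2

theorem sq_mul : sq * sq = 1 / 2 := by
  have h : ((Real.sqrt 2 : ℝ) : ℂ) * ((Real.sqrt 2 : ℝ) : ℂ) = 2 := by
    rw [← Complex.ofReal_mul, Real.mul_self_sqrt (by norm_num)]; norm_num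
  unfold sq
  linear_combination h / 4

theorem conj_sq : (starRingEnd ℂ) sq = sq := by
  have : sq = ((Real.sqrt 2 / 2 : ℝ) : ℂ) := by unfold sq; push_cast; rfl
  rw [this, Complex.conj_ofReal]

theorem spinX_eq : spinX = !![0, sq, 0; sq, 0, sq; 0, sq, 0] := by
  ext i j
  fin_cases i <;> fin_cases j <;>
    simp [spinX, spinPlus, spinMinus, sq, Matrix.conjTranspose_apply] <;> ring

theorem spinY_eq : spinY = !![0, -(Complex.I * sq), 0; Complex.I * sq, 0, -(Complex.I * sq);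
    0, Complex.I * sq, 0] := by
  have h1 : (Complex.I)⁻¹ = -Complex.I := Complex.inv_I
  ext i j
  fin_cases i <;> fin_cases j <;>
    simp [spinY, spinPlus, spinMinus, sq, Matrix.conjTranspose_apply] <;> ring

theorem spinZ_eq : spinZ = !![1, 0, 0; 0, 0, 0; 0, 0, -1] := by
  ext i j
  fin_cases i <;> fin_cases j <;>
    norm_num [spinZ, magneticNumber]

theorem spinX_herm : spinXᴴ = spinX := by
  rw [spinX_eq]
  ext i j
  fin_cases i <;> fin_cases j <;> simp [Matrix.conjTranspose_apply, conj_sq]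

theorem spinY_herm : spinYᴴ = spinY := by
  rw [spinY_eq]
  ext i j
  fin_cases i <;> fin_cases j <;> simp [Matrix.conjTranspose_apply, conj_sq]

theorem spinZ_herm : spinZᴴ = spinZ := by
  rw [spinZ_eq]
  ext i j
  fin_cases i <;> fin_cases j <;> simp [Matrix.conjTranspose_apply]

theorem spinOp_herm (c : Fin 3) : (spinOp c)ᴴ = spinOp c := by
  fin_cases c
  · exact spinX_herm
  · exact spinY_herm
  · exact spinZ_herm

theorem rot1 : rotC 1 = !![0, 0, -1; 0, -1, 0; -1, 0, 0] := by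
  have h := sq_mul
  show (1 - 2 • (spinX * spinX) : Matrix (Fin 3) (Fin 3) ℂ) = _
  rw [spinX_eq]
  ext i j
  fin_cases i <;> fin_cases j <;> simp [Matrix.mul_apply, Fin.sum_univ_three] <;> grind

theorem rot2 : rotC 2 = !![0, 0, 1; 0, -1, 0; 1, 0, 0] := by
  have h := sq_mul
  have hI := Complex.I_mul_I
  show (1 - 2 • (spinY * spinY) : Matrix (Fin 3) (Fin 3) ℂ) = _
  rw [spinY_eq]
  ext i j
  fin_cases i <;> fin_cases j <;> simp [Matrix.mul_apply, Fin.sum_univ_three] <;> grind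

theorem rot3 : rotC 3 = !![-1, 0, 0; 0, 1, 0; 0, 0, -1] := by
  show (1 - 2 • (spinZ * spinZ) : Matrix (Fin 3) (Fin 3) ℂ) = _
  rw [spinZ_eq]
  ext i j
  fin_cases i <;> fin_cases j <;> simp [Matrix.mul_apply, Fin.sum_univ_three] <;> norm_num


theorem rot1_sq : rotC 1 * rotC 1 = 1 := by
  rw [rot1]
  ext i j
  fin_cases i <;> fin_cases j <;> simp [Matrix.mul_apply, Fin.sum_univ_three]

theorem rot2_sq : rotC 2 * rotC 2 = 1 := by
  rw [rot2]
  ext i j
  fin_cases i <;> fin_cases j <;> simp [Matrix.mul_apply, Fin.sum_univ_three]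

theorem rot12 : rotC 1 * rotC 2 = rotC 3 := by
  rw [rot1, rot2, rot3]
  ext i j
  fin_cases i <;> fin_cases j <;> simp [Matrix.mul_apply, Fin.sum_univ_three]

theorem rot21 : rotC 2 * rotC 1 = rotC 3 := by
  rw [rot1, rot2, rot3]
  ext i j
  fin_cases i <;> fin_cases j <;> simp [Matrix.mul_apply, Fin.sum_univ_three]

theorem rot1_herm : (rotC 1)ᴴ = rotC 1 := by
  rw [rot1]
  ext i j
  fin_cases i <;> fin_cases j <;> simp [Matrix.conjTranspose_apply]

theorem rot2_herm : (rotC 2)ᴴ = rotC 2 := by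
  rw [rot2]
  ext i j
  fin_cases i <;> fin_cases j <;> simp [Matrix.conjTranspose_apply]

/-- signs of the conjugation of `S^c` by the π-rotation about axis 1. -/
theorem rot1_conj (c : Fin 3) : rotC 1 * spinOp c * rotC 1 = (![1, -1, -1] : Fin 3 → ℂ) c • spinOp c := by
  rw [rot1]
  fin_cases c
  · show _ * spinX * _ = (1 : ℂ) • spinX
    rw [spinX_eq]
    ext i j
    fin_cases i <;> fin_cases j <;> simp [Matrix.mul_apply, Fin.sum_univ_three]
  · show _ * spinY * _ = (-1 : ℂ) • spinY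
    rw [spinY_eq]
    ext i j
    fin_cases i <;> fin_cases j <;> simp [Matrix.mul_apply, Fin.sum_univ_three]
  · show _ * spinZ * _ = (-1 : ℂ) • spinZ
    rw [spinZ_eq]
    ext i j
    fin_cases i <;> fin_cases j <;> simp [Matrix.mul_apply, Fin.sum_univ_three]

theorem rot2_conj (c : Fin 3) : rotC 2 * spinOp c * rotC 2 = (![-1, 1, -1] : Fin 3 → ℂ) c • spinOp c := by
  rw [rot2]
  fin_cases c
  · show _ * spinX * _ = (-1 : ℂ) • spinX
    rw [spinX_eq]
    ext i j
    fin_cases i <;> fin_cases j <;> simp [Matrix.mul_apply, Fin.sum_univ_three]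
  · show _ * spinY * _ = (1 : ℂ) • spinY
    rw [spinY_eq]
    ext i j
    fin_cases i <;> fin_cases j <;> simp [Matrix.mul_apply, Fin.sum_univ_three]
  · show _ * spinZ * _ = (-1 : ℂ) • spinZ
    rw [spinZ_eq]
    ext i j
    fin_cases i <;> fin_cases j <;> simp [Matrix.mul_apply, Fin.sum_univ_three]

/-- exchange of x and z axes: π-rotation about `(x+z)/√2`. -/
noncomputable def swapXZ : Matrix (Fin 3) (Fin 3) ℂ :=
  !![-1/2, -sq, -1/2; -sq, 0, sq; -1/2, sq, -1/2]

/-- exchange of y and z axes. -/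
noncomputable def swapYZ : Matrix (Fin 3) (Fin 3) ℂ :=
  !![-1/2, Complex.I * sq, 1/2; -(Complex.I * sq), 0, -(Complex.I * sq); 1/2, Complex.I * sq, -1/2]

theorem swapXZ_sq : swapXZ * swapXZ = 1 := by
  have h := sq_mul
  unfold swapXZ
  ext i j
  fin_cases i <;> fin_cases j <;> simp [Matrix.mul_apply, Fin.sum_univ_three] <;> grind

theorem swapYZ_sq : swapYZ * swapYZ = 1 := by
  have h := sq_mul
  have hI := Complex.I_mul_I
  unfold swapYZ
  ext i j
  fin_cases i <;> fin_cases j <;> simp [Matrix.mul_apply, Fin.sum_univ_three] <;> grind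

theorem swapXZ_conj (c : Fin 3) : swapXZ * spinOp c * swapXZ =
    (![1, -1, 1] : Fin 3 → ℂ) c • spinOp ((![2, 1, 0] : Fin 3 → Fin 3) c) := by
  have h := sq_mul
  have hI := Complex.I_mul_I
  unfold swapXZ
  fin_cases c
  · show _ * spinX * _ = (1 : ℂ) • spinZ
    rw [spinX_eq, spinZ_eq]
    ext i j
    fin_cases i <;> fin_cases j <;> simp [Matrix.mul_apply, Fin.sum_univ_three] <;> grind
  · show _ * spinY * _ = (-1 : ℂ) • spinY
    rw [spinY_eq]
    ext i j
    fin_cases i <;> fin_cases j <;> simp [Matrix.mul_apply, Fin.sum_univ_three] <;> grind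
  · show _ * spinZ * _ = (1 : ℂ) • spinX
    rw [spinX_eq, spinZ_eq]
    ext i j
    fin_cases i <;> fin_cases j <;> simp [Matrix.mul_apply, Fin.sum_univ_three] <;> grind

theorem swapYZ_conj (c : Fin 3) : swapYZ * spinOp c * swapYZ =
    (![-1, 1, 1] : Fin 3 → ℂ) c • spinOp ((![0, 2, 1] : Fin 3 → Fin 3) c) := by
  have h := sq_mul
  have hI := Complex.I_mul_I
  unfold swapYZ
  fin_cases c
  · show _ * spinX * _ = (-1 : ℂ) • spinX
    rw [spinX_eq]
    ext i j
    fin_cases i <;> fin_cases j <;> simp [Matrix.mul_apply, Fin.sum_univ_three] <;> grind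
  · show _ * spinY * _ = (1 : ℂ) • spinZ
    rw [spinY_eq, spinZ_eq]
    ext i j
    fin_cases i <;> fin_cases j <;> simp [Matrix.mul_apply, Fin.sum_univ_three] <;> grind
  · show _ * spinZ * _ = (1 : ℂ) • spinY
    rw [spinY_eq, spinZ_eq]
    ext i j
    fin_cases i <;> fin_cases j <;> simp [Matrix.mul_apply, Fin.sum_univ_three] <;> grind

section
variable {ι : Type*} [Fintype ι] [DecidableEq ι]

theorem conj_onSite (R A : Matrix (Fin 3) (Fin 3) ℂ) (hR : R * R = 1) (j : ι) :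
    piK (fun _ : ι => R) * onSite A j * piK (fun _ : ι => R) = onSite (R * A * R) j := by
  rw [onSite_eq_piK, onSite_eq_piK, piK_mul, piK_mul]
  congr 1
  funext k
  by_cases hk : k = j
  · simp [hk]
  · simp [hk, hR]

theorem onSite_smul (s : ℂ) (A : Matrix (Fin 3) (Fin 3) ℂ) (j : ι) :
    onSite (s • A) j = s • onSite A j := by
  ext σ τ
  simp only [onSite, Matrix.of_apply, Matrix.smul_apply]
  split_ifs <;> simp

theorem onSite_herm (A : Matrix (Fin 3) (Fin 3) ℂ) (j : ι) :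
    (onSite A j)ᴴ = onSite Aᴴ j := by
  rw [onSite_eq_piK, onSite_eq_piK, piK_conjTranspose]
  congr 1
  funext k
  by_cases hk : k = j
  · simp [hk]
  · simp [hk]

theorem onSite_comm (A B : Matrix (Fin 3) (Fin 3) ℂ) {j k : ι} (hjk : j ≠ k) :
    onSite A j * onSite B k = onSite B k * onSite A j := by
  rw [onSite_eq_piK, onSite_eq_piK, piK_mul, piK_mul]
  congr 1
  funext i
  by_cases hi : i = j
  · subst hi; simp [hjk]
  · by_cases hi' : i = k
    · subst hi'; simp [hi]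
    · simp [hi, hi']

theorem piK_sq {R : Matrix (Fin 3) (Fin 3) ℂ} (hR : R * R = 1) :
    piK (fun _ : ι => R) * piK (fun _ : ι => R) = 1 := by
  rw [piK_mul, hR, piK_one]

theorem conj_bond {R : Matrix (Fin 3) (Fin 3) ℂ} (hR : R * R = 1) {s : Fin 3 → ℂ}
    (hs : ∀ c, s c * s c = 1) (π : Equiv.Perm (Fin 3))
    (hc : ∀ c, R * spinOp c * R = s c • spinOp (π c)) (j k : ι) :
    piK (fun _ : ι => R) * bond j k * piK (fun _ : ι => R) = bond j k := by
  have hV := piK_sq (ι := ι) hR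
  have e1 : bond j k = ∑ c : Fin 3, onSite (spinOp (π c)) j * onSite (spinOp (π c)) k :=
    (Equiv.sum_comp π (fun c => onSite (spinOp c) j * onSite (spinOp c) k)).symm
  conv_rhs => rw [e1]
  unfold bond
  rw [Finset.mul_sum, Finset.sum_mul]
  refine Finset.sum_congr rfl fun c _ => ?_
  calc piK (fun _ : ι => R) * (onSite (spinOp c) j * onSite (spinOp c) k) * piK (fun _ : ι => R)
      = piK (fun _ : ι => R) * onSite (spinOp c) j *
        (piK (fun _ : ι => R) * piK (fun _ : ι => R)) * onSite (spinOp c) k *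
          piK (fun _ : ι => R) := by rw [hV, Matrix.mul_one]; simp only [Matrix.mul_assoc]
    _ = (piK (fun _ : ι => R) * onSite (spinOp c) j * piK (fun _ : ι => R)) *
        (piK (fun _ : ι => R) * onSite (spinOp c) k * piK (fun _ : ι => R)) := by
        simp only [Matrix.mul_assoc]
    _ = onSite (spinOp (π c)) j * onSite (spinOp (π c)) k := by
        rw [conj_onSite _ _ hR, conj_onSite _ _ hR, hc, onSite_smul, onSite_smul,
          Matrix.smul_mul, Matrix.mul_smul, smul_smul, hs, one_smul]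

theorem conj_ring {R : Matrix (Fin 3) (Fin 3) ℂ} (hR : R * R = 1) {s : Fin 3 → ℂ}
    (hs : ∀ c, s c * s c = 1) (π : Equiv.Perm (Fin 3))
    (hc : ∀ c, R * spinOp c * R = s c • spinOp (π c)) (n : ℕ) :
    piK (fun _ : Fin n => R) * heisenbergRing n * piK (fun _ : Fin n => R) =
      heisenbergRing n := by
  unfold heisenbergRing
  rw [Finset.mul_sum, Finset.sum_mul]
  exact Finset.sum_congr rfl fun j _ => conj_bond hR hs π hc _ _

theorem comm_ring {R : Matrix (Fin 3) (Fin 3) ℂ} (hR : R * R = 1) {s : Fin 3 → ℂ}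
    (hs : ∀ c, s c * s c = 1) (π : Equiv.Perm (Fin 3))
    (hc : ∀ c, R * spinOp c * R = s c • spinOp (π c)) (n : ℕ) :
    Commute (piK (fun _ : Fin n => R)) (heisenbergRing n) := by
  have h1 := conj_ring hR hs π hc n
  have h2 := piK_sq (ι := Fin n) hR
  calc piK (fun _ : Fin n => R) * heisenbergRing n
      = piK (fun _ : Fin n => R) * heisenbergRing n *
        (piK (fun _ : Fin n => R) * piK (fun _ : Fin n => R)) := by rw [h2, Matrix.mul_one]
    _ = (piK (fun _ : Fin n => R) * heisenbergRing n * piK (fun _ : Fin n => R)) *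
        piK (fun _ : Fin n => R) := by simp only [Matrix.mul_assoc]
    _ = heisenbergRing n * piK (fun _ : Fin n => R) := by rw [h1]

theorem trace_conj_eq {κ : Type*} [Fintype κ] [DecidableEq κ] {V A B H : Matrix κ κ ℂ}
    (hV : V * V = 1) (hH : Commute V H) (hA : V * A * V = B) (γ : ℝ) :
    (A * NormedSpace.exp (-(γ : ℂ) • H)).trace = (B * NormedSpace.exp (-(γ : ℂ) • H)).trace := by
  have hc : Commute V (NormedSpace.exp (-(γ : ℂ) • H)) := (hH.smul_right _).exp_right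
  rw [← hA]
  have : V * A * V * NormedSpace.exp (-(γ : ℂ) • H) =
      V * (A * NormedSpace.exp (-(γ : ℂ) • H) * V) := by
    rw [Matrix.mul_assoc (V * A), hc.eq]; simp only [Matrix.mul_assoc]
  rw [this, Matrix.trace_mul_comm V, Matrix.mul_assoc _ V V, hV, Matrix.mul_one]

end

/-- permutations used. -/
def pXZ : Equiv.Perm (Fin 3) := Equiv.swap 0 2
def pYZ : Equiv.Perm (Fin 3) := Equiv.swap 1 2

theorem comm_rot1 (n : ℕ) : Commute (piK (fun _ : Fin n => rotC 1)) (heisenbergRing n) :=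
  comm_ring rot1_sq (s := ![1, -1, -1]) (by intro c; fin_cases c <;> simp) 1
    (fun c => rot1_conj c) n

theorem comm_rot2 (n : ℕ) : Commute (piK (fun _ : Fin n => rotC 2)) (heisenbergRing n) :=
  comm_ring rot2_sq (s := ![-1, 1, -1]) (by intro c; fin_cases c <;> simp) 1
    (fun c => rot2_conj c) n

theorem comm_swapXZ (n : ℕ) : Commute (piK (fun _ : Fin n => swapXZ)) (heisenbergRing n) := by
  refine comm_ring swapXZ_sq (s := ![1, -1, 1]) (by intro c; fin_cases c <;> simp) pXZ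
    (fun c => ?_) n
  rw [swapXZ_conj c]
  congr 2
  fin_cases c <;> rfl

theorem comm_swapYZ (n : ℕ) : Commute (piK (fun _ : Fin n => swapYZ)) (heisenbergRing n) := by
  refine comm_ring swapYZ_sq (s := ![-1, 1, 1]) (by intro c; fin_cases c <;> simp) pYZ
    (fun c => ?_) n
  rw [swapYZ_conj c]
  congr 2
  fin_cases c <;> rfl

theorem conj_sq_op {R S T : Matrix (Fin 3) (Fin 3) ℂ} (hR : R * R = 1) (h : R * S * R = T) :
    R * (1 - 2 • (S * S)) * R = 1 - 2 • (T * T) := by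
  have h1 : T * T = R * (S * S) * R := by
    rw [← h]
    calc R * S * R * (R * S * R) = R * S * (R * R) * S * R := by simp only [Matrix.mul_assoc]
      _ = R * (S * S) * R := by rw [hR, Matrix.mul_one]; simp only [Matrix.mul_assoc]
  rw [h1, mul_sub, sub_mul, Matrix.mul_one, hR, mul_smul_comm, smul_mul_assoc]

theorem swapXZ_rot : swapXZ * rotC 1 * swapXZ = rotC 3 := by
  have h := swapXZ_conj 0
  have h' : swapXZ * spinOp 0 * swapXZ = spinOp 2 := by simpa using h
  exact conj_sq_op swapXZ_sq h'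

theorem swapYZ_rot : swapYZ * rotC 2 * swapYZ = rotC 3 := by
  have h := swapYZ_conj 1
  have h' : swapYZ * spinOp 1 * swapYZ = spinOp 2 := by simpa using h
  exact conj_sq_op swapYZ_sq h'

theorem trace_rot13 (n : ℕ) (γ : ℝ) :
    (piK (fun _ : Fin n => rotC 1) * NormedSpace.exp (-(γ : ℂ) • heisenbergRing n)).trace =
    (piK (fun _ : Fin n => rotC 3) * NormedSpace.exp (-(γ : ℂ) • heisenbergRing n)).trace := by
  refine trace_conj_eq (piK_sq swapXZ_sq) (comm_swapXZ n) ?_ γ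
  rw [piK_mul, piK_mul, swapXZ_rot]

theorem trace_rot23 (n : ℕ) (γ : ℝ) :
    (piK (fun _ : Fin n => rotC 2) * NormedSpace.exp (-(γ : ℂ) • heisenbergRing n)).trace =
    (piK (fun _ : Fin n => rotC 3) * NormedSpace.exp (-(γ : ℂ) • heisenbergRing n)).trace := by
  refine trace_conj_eq (piK_sq swapYZ_sq) (comm_swapYZ n) ?_ γ
  rw [piK_mul, piK_mul, swapYZ_rot]

/-- sector projections. -/
noncomputable def sP {κ : Type*} [Fintype κ] [DecidableEq κ] (U1 U2 : Matrix κ κ ℂ) (χ : Fin 4) :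
    Matrix κ κ ℂ :=
  (1 / 4 : ℂ) • ((1 + (![1, 1, -1, -1] : Fin 4 → ℂ) χ • U1) *
    (1 + (![1, -1, 1, -1] : Fin 4 → ℂ) χ • U2))

section
variable {κ : Type*} [Fintype κ] [DecidableEq κ] {U1 U2 H : Matrix κ κ ℂ}

theorem sP_herm (h1 : U1ᴴ = U1) (h2 : U2ᴴ = U2) (h12 : Commute U1 U2) (χ : Fin 4) :
    (sP U1 U2 χ).IsHermitian := by
  unfold Matrix.IsHermitian sP
  rw [Matrix.conjTranspose_smul, Matrix.conjTranspose_mul, Matrix.conjTranspose_add,
    Matrix.conjTranspose_add, Matrix.conjTranspose_smul, Matrix.conjTranspose_smul, h1, h2,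
    Matrix.conjTranspose_one]
  have e : ∀ s t : ℂ, (1 + s • U1) * (1 + t • U2) = (1 + t • U2) * (1 + s • U1) := fun s t => by
    have := h12.eq
    simp only [mul_add, add_mul, Matrix.smul_mul, Matrix.mul_smul, this, Matrix.mul_one,
      Matrix.one_mul]
    rw [smul_comm]
    abel
  rw [e]
  fin_cases χ <;> simp

theorem sP_idem (h1 : U1 * U1 = 1) (h2 : U2 * U2 = 1) (h12 : Commute U1 U2) (χ : Fin 4) :
    sP U1 U2 χ * sP U1 U2 χ = sP U1 U2 χ := by
  have e : ∀ (s t : ℂ), (1 + s • U1) * (1 + t • U2) = (1 + t • U2) * (1 + s • U1) := fun s t => by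
    have := h12.eq
    simp only [mul_add, add_mul, Matrix.smul_mul, Matrix.mul_smul, this, Matrix.mul_one,
      Matrix.one_mul]
    rw [smul_comm]
    abel
  have sq1 : ∀ s : ℂ, s * s = 1 → (1 + s • U1) * (1 + s • U1) = (2 : ℂ) • (1 + s • U1) := by
    intro s hs
    simp only [mul_add, add_mul, Matrix.smul_mul, Matrix.mul_smul, Matrix.mul_one,
      Matrix.one_mul, h1, smul_smul, hs, one_smul, smul_add]
    rw [two_smul, mul_smul, two_smul]
    abel
  have sq2 : ∀ s : ℂ, s * s = 1 → (1 + s • U2) * (1 + s • U2) = (2 : ℂ) • (1 + s • U2) := by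
    intro s hs
    simp only [mul_add, add_mul, Matrix.smul_mul, Matrix.mul_smul, Matrix.mul_one,
      Matrix.one_mul, h2, smul_smul, hs, one_smul, smul_add]
    rw [two_smul, mul_smul, two_smul]
    abel
  have key : ∀ s t : ℂ, s * s = 1 → t * t = 1 →
      ((1 / 4 : ℂ) • ((1 + s • U1) * (1 + t • U2))) * ((1 / 4 : ℂ) • ((1 + s • U1) * (1 + t • U2)))
        = (1 / 4 : ℂ) • ((1 + s • U1) * (1 + t • U2)) := by
    intro s t hs ht
    rw [Matrix.smul_mul, Matrix.mul_smul, smul_smul]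
    have : (1 + s • U1) * (1 + t • U2) * ((1 + s • U1) * (1 + t • U2)) =
        (4 : ℂ) • ((1 + s • U1) * (1 + t • U2)) := by
      calc (1 + s • U1) * (1 + t • U2) * ((1 + s • U1) * (1 + t • U2))
          = (1 + s • U1) * ((1 + t • U2) * (1 + s • U1)) * (1 + t • U2) := by
            simp only [Matrix.mul_assoc]
        _ = ((1 + s • U1) * (1 + s • U1)) * ((1 + t • U2) * (1 + t • U2)) := by
            rw [← e]; simp only [Matrix.mul_assoc]
        _ = _ := by
            rw [sq1 s hs, sq2 t ht, Matrix.smul_mul, Matrix.mul_smul, smul_smul]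
            norm_num
    rw [this, smul_smul]
    norm_num
  unfold sP
  apply key
  · fin_cases χ <;> simp
  · fin_cases χ <;> simp

theorem sP_comm (h1 : Commute U1 H) (h2 : Commute U2 H) (χ : Fin 4) :
    Commute (sP U1 U2 χ) H := by
  unfold sP
  exact ((((Commute.one_left H).add_left (h1.smul_left _)).mul_left
    ((Commute.one_left H).add_left (h2.smul_left _)))).smul_left _

theorem sP_sum : ∑ χ, sP U1 U2 χ = 1 := by
  simp only [sP, Fin.sum_univ_four]
  simp only [← smul_add]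
  have : ((1 : Matrix κ κ ℂ) + (![1, 1, -1, -1] : Fin 4 → ℂ) 0 • U1) *
        (1 + (![1, -1, 1, -1] : Fin 4 → ℂ) 0 • U2) +
      (1 + (![1, 1, -1, -1] : Fin 4 → ℂ) 1 • U1) *
        (1 + (![1, -1, 1, -1] : Fin 4 → ℂ) 1 • U2) +
      (1 + (![1, 1, -1, -1] : Fin 4 → ℂ) 2 • U1) *
        (1 + (![1, -1, 1, -1] : Fin 4 → ℂ) 2 • U2) +
      (1 + (![1, 1, -1, -1] : Fin 4 → ℂ) 3 • U1) *
        (1 + (![1, -1, 1, -1] : Fin 4 → ℂ) 3 • U2) = (4 : ℂ) • 1 := by
    simp [mul_add, add_mul]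
    rw [show (4 : ℂ) = 1 + 1 + 1 + 1 by norm_num, add_smul, add_smul, add_smul, one_smul]
    abel
  rw [this, smul_smul]
  norm_num

end

end Crest.Agent.R347.DirectGen
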