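import Crest.Agent.R347.PSL

/-! Joint power sums: a family of nonnegative numbers `x i` together with weights. -/

set_option autoImplicit false

namespace Crest.Agent.R347

open Filter Topology

/-- Finite joint power sums: `K l = ∑ x^l`, `A l = ∑ w x^l`. -/
def JPS (A K : ℕ → ℝ) : Prop :=
  ∃ (m : ℕ) (x w : Fin m → ℝ), (∀ i, 0 ≤ x i) ∧ (∀ i, 0 ≤ w i) ∧
    ∀ l, 1 ≤ l → K l = ∑ i, x i ^ l ∧ A l = ∑ i, w i * x i ^ l

/-- Limits of finite joint power sums. -/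
def JPSL (A K : ℕ → ℝ) : Prop :=
  ∃ a k : ℕ → ℕ → ℝ, (∀ n, JPS (a n) (k n)) ∧
    ∀ l, 1 ≤ l → Tendsto (fun n => k n l) atTop (𝓝 (K l)) ∧
      Tendsto (fun n => a n l) atTop (𝓝 (A l))

/-! ### finite level -/

theorem JPS.of_finset {ι : Type*} (s : Finset ι) (y w : ι → ℝ) (hy : ∀ i ∈ s, 0 ≤ y i)
    (hw : ∀ i ∈ s, 0 ≤ w i) (A K : ℕ → ℝ) (hK : ∀ l, 1 ≤ l → K l = ∑ i ∈ s, y i ^ l)
    (hA : ∀ l, 1 ≤ l → A l = ∑ i ∈ s, w i * y i ^ l) : JPS A K := by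
  classical
  refine ⟨s.card, fun i => y (s.equivFin.symm i), fun i => w (s.equivFin.symm i),
    fun i => hy _ (s.equivFin.symm i).2, fun i => hw _ (s.equivFin.symm i).2, ?_⟩
  intro l hl
  refine ⟨?_, ?_⟩
  · rw [hK l hl, ← Finset.sum_coe_sort s (fun i => y i ^ l)]
    exact (Equiv.sum_comp s.equivFin.symm (fun i => y i ^ l)).symm
  · rw [hA l hl, ← Finset.sum_coe_sort s (fun i => w i * y i ^ l)]
    exact (Equiv.sum_comp s.equivFin.symm (fun i => w i * y i ^ l)).symm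

theorem JPS.isPS {A K : ℕ → ℝ} (h : JPS A K) : IsPS K := by
  obtain ⟨m, x, w, hx, hw, hf⟩ := h
  exact ⟨m, x, hx, fun l hl => (hf l hl).1⟩

theorem JPS.nonneg {A K : ℕ → ℝ} (h : JPS A K) {l : ℕ} (hl : 1 ≤ l) : 0 ≤ A l := by
  obtain ⟨m, x, w, hx, hw, hf⟩ := h
  rw [(hf l hl).2]
  exact Finset.sum_nonneg (fun i _ => mul_nonneg (hw i) (pow_nonneg (hx i) l))

theorem JPS.hankel {A K : ℕ → ℝ} (h : JPS A K) {l : ℕ} (hl : 1 ≤ l) :
    A (l + 1) ^ 2 ≤ A l * A (l + 2) := by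
  obtain ⟨m, x, w, hx, hw, hf⟩ := h
  rw [(hf l hl).2, (hf (l + 1) (by omega)).2, (hf (l + 2) (by omega)).2]
  refine Finset.sum_sq_le_sum_mul_sum_of_sq_le_mul Finset.univ
    (fun i _ => mul_nonneg (hw i) (pow_nonneg (hx i) _))
    (fun i _ => mul_nonneg (hw i) (pow_nonneg (hx i) _)) ?_
  intro i _
  apply le_of_eq
  ring

theorem JPS.le_mul {A K : ℕ → ℝ} (h : JPS A K) {l m : ℕ} (hl : 1 ≤ l) (hm : 1 ≤ m) :
    A (l + m) ≤ A l * K m := by
  obtain ⟨n, x, w, hx, hw, hf⟩ := h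
  rw [(hf (l + m) (by omega)).2, (hf l hl).2, Finset.sum_mul]
  apply Finset.sum_le_sum
  intro i _
  rw [pow_add, ← mul_assoc]
  apply mul_le_mul_of_nonneg_left _ (mul_nonneg (hw i) (pow_nonneg (hx i) l))
  rw [(hf m hm).1]
  exact Finset.single_le_sum (f := fun i => x i ^ m) (fun j _ => pow_nonneg (hx j) m)
      (Finset.mem_univ i)


theorem JPS.exists_top {A K : ℕ → ℝ} (h : JPS A K) :
    ∃ x w : ℝ, 0 ≤ x ∧ 0 ≤ w ∧ JPS (fun l => A l - w * x ^ l) (fun l => K l - x ^ l) ∧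
      (∀ l, 1 ≤ l → K (l + 1) ≤ x * K l) ∧ (∀ l, 1 ≤ l → A (l + 1) ≤ x * A l) := by
  classical
  obtain ⟨m, x, w, hx, hw, hf⟩ := h
  rcases Nat.eq_zero_or_pos m with rfl | hm
  · refine ⟨0, 0, le_rfl, le_rfl, ?_, ?_, ?_⟩
    · refine ⟨0, x, w, hx, hw, ?_⟩
      intro l hl
      constructor
      · show K l - 0 ^ l = _
        rw [(hf l hl).1, zero_pow (by omega)]
        simp
      · show A l - 0 * 0 ^ l = _
        rw [(hf l hl).2]
        simp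
    · intro l hl
      rw [(hf (l + 1) (by omega)).1]
      simp
    · intro l hl
      rw [(hf (l + 1) (by omega)).2]
      simp
  · have : Nonempty (Fin m) := ⟨⟨0, hm⟩⟩
    obtain ⟨i₀, _, hi₀⟩ := Finset.exists_max_image (Finset.univ : Finset (Fin m)) x
      Finset.univ_nonempty
    refine ⟨x i₀, w i₀, hx i₀, hw i₀, ?_, ?_, ?_⟩
    · refine JPS.of_finset (Finset.univ.erase i₀) x w (fun i _ => hx i) (fun i _ => hw i) _ _
        ?_ ?_
      · intro l hl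
        rw [(hf l hl).1, ← Finset.add_sum_erase Finset.univ (fun i => x i ^ l)
          (Finset.mem_univ i₀)]
        ring
      · intro l hl
        rw [(hf l hl).2, ← Finset.add_sum_erase Finset.univ (fun i => w i * x i ^ l)
          (Finset.mem_univ i₀)]
        ring
    · intro l hl
      rw [(hf (l + 1) (by omega)).1, (hf l hl).1, Finset.mul_sum]
      apply Finset.sum_le_sum
      intro i _
      rw [pow_succ, mul_comm]
      exact mul_le_mul_of_nonneg_right (hi₀ i (Finset.mem_univ i)) (pow_nonneg (hx i) l)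
    · intro l hl
      rw [(hf (l + 1) (by omega)).2, (hf l hl).2, Finset.mul_sum]
      apply Finset.sum_le_sum
      intro i _
      have := mul_le_mul_of_nonneg_right (hi₀ i (Finset.mem_univ i))
        (mul_nonneg (hw i) (pow_nonneg (hx i) l))
      calc w i * x i ^ (l + 1) = x i * (w i * x i ^ l) := by ring
        _ ≤ _ := this

/-! ### limits -/

theorem JPSL.psl {A K : ℕ → ℝ} (h : JPSL A K) : PSL K := by
  obtain ⟨a, k, h1, h2⟩ := h
  exact ⟨k, fun n => (h1 n).isPS, fun l hl => (h2 l hl).1⟩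

theorem JPSL.nonneg {A K : ℕ → ℝ} (h : JPSL A K) {l : ℕ} (hl : 1 ≤ l) : 0 ≤ A l := by
  obtain ⟨a, k, h1, h2⟩ := h
  exact ge_of_tendsto' (h2 l hl).2 (fun n => (h1 n).nonneg hl)

theorem JPSL.hankel {A K : ℕ → ℝ} (h : JPSL A K) {l : ℕ} (hl : 1 ≤ l) :
    A (l + 1) ^ 2 ≤ A l * A (l + 2) := by
  obtain ⟨a, k, h1, h2⟩ := h
  exact le_of_tendsto_of_tendsto' ((h2 (l + 1) (by omega)).2.pow 2)
    ((h2 l hl).2.mul (h2 (l + 2) (by omega)).2) (fun n => (h1 n).hankel hl)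

/-- `A (l + m) ≤ A l * K m`. -/
theorem JPSL.le_mul {A K : ℕ → ℝ} (h : JPSL A K) {l m : ℕ} (hl : 1 ≤ l) (hm : 1 ≤ m) :
    A (l + m) ≤ A l * K m := by
  obtain ⟨a, k, h1, h2⟩ := h
  exact le_of_tendsto_of_tendsto' (h2 (l + m) (by omega)).2
    ((h2 l hl).2.mul (h2 m hm).1) (fun n => (h1 n).le_mul hl hm)


/-- Splitting off the top of `K` jointly (provided `K 1 > 0`). -/
theorem JPSL.exists_top {A K : ℕ → ℝ} (h : JPSL A K) (hK : 0 < K 2) :
    ∃ x w : ℝ, 0 < x ∧ 0 ≤ w ∧ JPSL (fun l => A l - w * x ^ l) (fun l => K l - x ^ l) ∧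
      (∀ l, 1 ≤ l → K (l + 1) ≤ x * K l) ∧ (∀ l, 1 ≤ l → A (l + 1) ≤ x * A l) := by
  obtain ⟨a, k, h1, h2⟩ := h
  choose x w hx0 hw0 hj hkr har using fun n => (h1 n).exists_top
  have hx1 : ∀ n, x n ≤ k n 1 := by
    intro n
    have := (hj n).isPS.nonneg (l := 1) le_rfl
    simp only [pow_one] at this
    linarith
  have hw1 : ∀ n, w n * x n ≤ a n 1 := by
    intro n
    have := (hj n).nonneg (l := 1) le_rfl
    simp only [pow_one] at this
    linarith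
  obtain ⟨B, hB⟩ := (h2 1 le_rfl).1.bddAbove_range
  obtain ⟨C, hC⟩ := (h2 1 le_rfl).2.bddAbove_range
  have hxB : ∀ n, ((x n, w n * x n) : ℝ × ℝ) ∈ Set.Icc (0 : ℝ) B ×ˢ Set.Icc (0 : ℝ) C :=
    fun n => ⟨⟨hx0 n, (hx1 n).trans (hB ⟨n, rfl⟩)⟩,
      ⟨mul_nonneg (hw0 n) (hx0 n), (hw1 n).trans (hC ⟨n, rfl⟩)⟩⟩
  obtain ⟨p, hp, φ, hφ, hlim⟩ := (isCompact_Icc.prod isCompact_Icc).tendsto_subseq hxB
  have hlim1 : Tendsto (fun n => x (φ n)) atTop (𝓝 p.1) :=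
    ((continuous_fst.tendsto p).comp hlim)
  have hlim2 : Tendsto (fun n => w (φ n) * x (φ n)) atTop (𝓝 p.2) :=
    ((continuous_snd.tendsto p).comp hlim)
  have hratio : K 2 ≤ p.1 * K 1 := by
    refine le_of_tendsto_of_tendsto ((h2 2 (by omega)).1.comp hφ.tendsto_atTop)
      (hlim1.mul ((h2 1 le_rfl).1.comp hφ.tendsto_atTop)) ?_
    exact Eventually.of_forall (fun n => hkr (φ n) 1 le_rfl)
  have hp1 : 0 < p.1 := by
    rcases eq_or_lt_of_le hp.1.1 with h0 | h0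
    · rw [← h0, zero_mul] at hratio
      linarith
    · exact h0
  have hlimw : Tendsto (fun n => w (φ n)) atTop (𝓝 (p.2 / p.1)) := by
    have h3 := hlim2.div hlim1 hp1.ne'
    refine h3.congr' ?_
    have h4 : ∀ᶠ n in atTop, 0 < x (φ n) := hlim1.eventually (lt_mem_nhds hp1)
    filter_upwards [h4] with n hn
    simp only [Pi.div_apply]
    field_simp
  refine ⟨p.1, p.2 / p.1, hp1, div_nonneg hp.2.1 hp1.le, ?_, ?_, ?_⟩
  · refine ⟨fun n l => a (φ n) l - w (φ n) * x (φ n) ^ l,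
      fun n l => k (φ n) l - x (φ n) ^ l, fun n => hj (φ n), ?_⟩
    intro l hl
    exact ⟨((h2 l hl).1.comp hφ.tendsto_atTop).sub (hlim1.pow l),
      ((h2 l hl).2.comp hφ.tendsto_atTop).sub (hlimw.mul (hlim1.pow l))⟩
  · intro l hl
    refine le_of_tendsto_of_tendsto ((h2 (l + 1) (by omega)).1.comp hφ.tendsto_atTop)
      (hlim1.mul ((h2 l hl).1.comp hφ.tendsto_atTop)) ?_
    exact Eventually.of_forall (fun n => hkr (φ n) l hl)
  · intro l hl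
    refine le_of_tendsto_of_tendsto ((h2 (l + 1) (by omega)).2.comp hφ.tendsto_atTop)
      (hlim1.mul ((h2 l hl).2.comp hφ.tendsto_atTop)) ?_
    exact Eventually.of_forall (fun n => har (φ n) l hl)

/-- Finite signed joint power sums. -/
def JXYZfin (X Y Z : ℕ → ℝ) : Prop :=
  ∃ (m : ℕ) (κ w s : Fin m → ℝ), (∀ i, 0 ≤ w i) ∧ (∀ i, s i = 1 ∨ s i = -1) ∧
    ∀ N, 1 ≤ N → Z N = ∑ i, κ i ^ N ∧ Y N = ∑ i, w i * κ i ^ N ∧
      X N = ∑ i, s i * w i * κ i ^ N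

/-- Limits of finite signed joint power sums (`N ≥ 2`). -/
def JXYZ (X Y Z : ℕ → ℝ) : Prop :=
  ∃ x y z : ℕ → ℕ → ℝ, (∀ n, JXYZfin (x n) (y n) (z n)) ∧
    ∀ N, 2 ≤ N → Tendsto (fun n => z n N) atTop (𝓝 (Z N)) ∧
      Tendsto (fun n => y n N) atTop (𝓝 (Y N)) ∧ Tendsto (fun n => x n N) atTop (𝓝 (X N))

/-- Properties of the top (largest `|κ|`), of modulus `Λ`, weight `W`, sign `s`. -/
structure IsTop (X Y Z : ℕ → ℝ) (Λ W s : ℝ) : Prop where
  pos : 0 < Λ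
  W_nonneg : 0 ≤ W
  sign : s = 1 ∨ s = -1
  Z_ge : ∀ l, 1 ≤ l → Λ ^ (2 * l) ≤ Z (2 * l)
  Z_rest : ∀ l, 1 ≤ l → Z (4 * l) - Λ ^ (4 * l) ≤ (Z (2 * l) - Λ ^ (2 * l)) ^ 2
  Z_ratio : ∀ l, 1 ≤ l → Z (4 * l) ≤ Λ ^ (2 * l) * Z (2 * l)
  Y_ge : ∀ l, 1 ≤ l → W * Λ ^ (2 * l) ≤ Y (2 * l)
  Y_ratio : ∀ l, 1 ≤ l → Y (2 * l + 2) ≤ Λ ^ 2 * Y (2 * l)
  Y_rest_ratio : ∀ l, 1 ≤ l →
    Y (2 * l + 2) - W * Λ ^ (2 * l + 2) ≤ Λ ^ 2 * (Y (2 * l) - W * Λ ^ (2 * l))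
  Y_rest : ∀ l, 1 ≤ l → Y (4 * l) - W * Λ ^ (4 * l) ≤
    (Y (2 * l) - W * Λ ^ (2 * l)) * (Z (2 * l) - Λ ^ (2 * l))
  X_rest : ∀ l, 1 ≤ l → (X (2 * l + 1) - s * (W * Λ ^ (2 * l + 1))) ^ 2 ≤
    (Y (2 * l) - W * Λ ^ (2 * l)) * (Y (2 * l + 2) - W * Λ ^ (2 * l + 2))

/-- The same properties at the finite level (the top may vanish). -/
theorem JXYZfin.exists_top {X Y Z : ℕ → ℝ} (h : JXYZfin X Y Z) :
    ∃ Λ W s : ℝ, 0 ≤ Λ ∧ 0 ≤ W ∧ (s = 1 ∨ s = -1) ∧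
      (∀ l, 1 ≤ l → Λ ^ (2 * l) ≤ Z (2 * l)) ∧
      (∀ l, 1 ≤ l → Z (4 * l) - Λ ^ (4 * l) ≤ (Z (2 * l) - Λ ^ (2 * l)) ^ 2) ∧
      (∀ l, 1 ≤ l → Z (4 * l) ≤ Λ ^ (2 * l) * Z (2 * l)) ∧
      (∀ l, 1 ≤ l → W * Λ ^ (2 * l) ≤ Y (2 * l)) ∧
      (∀ l, 1 ≤ l → Y (2 * l + 2) ≤ Λ ^ 2 * Y (2 * l)) ∧
      (∀ l, 1 ≤ l →
        Y (2 * l + 2) - W * Λ ^ (2 * l + 2) ≤ Λ ^ 2 * (Y (2 * l) - W * Λ ^ (2 * l))) ∧
      (∀ l, 1 ≤ l → Y (4 * l) - W * Λ ^ (4 * l) ≤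
        (Y (2 * l) - W * Λ ^ (2 * l)) * (Z (2 * l) - Λ ^ (2 * l))) ∧
      (∀ l, 1 ≤ l → (X (2 * l + 1) - s * (W * Λ ^ (2 * l + 1))) ^ 2 ≤
        (Y (2 * l) - W * Λ ^ (2 * l)) * (Y (2 * l + 2) - W * Λ ^ (2 * l + 2))) := by
  classical
  obtain ⟨m, κ, w, s, hw, hs, hf⟩ := h
  have hZ : ∀ N, 1 ≤ N → Z N = ∑ i, κ i ^ N := fun N hN => (hf N hN).1
  have hY : ∀ N, 1 ≤ N → Y N = ∑ i, w i * κ i ^ N := fun N hN => (hf N hN).2.1
  have hX : ∀ N, 1 ≤ N → X N = ∑ i, s i * w i * κ i ^ N := fun N hN => (hf N hN).2.2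
  have hev : ∀ i l, 0 ≤ κ i ^ (2 * l) := fun i l => by rw [pow_mul]; positivity
  rcases Nat.eq_zero_or_pos m with rfl | hm
  · have hZ0 : ∀ N, 1 ≤ N → Z N = 0 := fun N hN => by rw [hZ N hN]; simp
    have hY0 : ∀ N, 1 ≤ N → Y N = 0 := fun N hN => by rw [hY N hN]; simp
    have hX0 : ∀ N, 1 ≤ N → X N = 0 := fun N hN => by rw [hX N hN]; simp
    have h0 : ∀ N, 1 ≤ N → (0 : ℝ) ^ N = 0 := fun N hN => zero_pow (by omega)
    refine ⟨0, 0, 1, le_rfl, le_rfl, Or.inl rfl, ?_, ?_, ?_, ?_, ?_, ?_, ?_, ?_⟩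
    · intro l hl
      rw [hZ0 _ (by omega), h0 _ (by omega)]
    · intro l hl
      rw [hZ0 _ (by omega), hZ0 _ (by omega), h0 _ (by omega), h0 _ (by omega)]
      simp
    · intro l hl
      rw [hZ0 _ (by omega), hZ0 _ (by omega)]
      simp
    · intro l hl
      rw [hY0 _ (by omega)]
      simp
    · intro l hl
      rw [hY0 _ (by omega), hY0 _ (by omega)]
      simp
    · intro l hl
      rw [hY0 _ (by omega), hY0 _ (by omega)]
      simp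
    · intro l hl
      rw [hY0 _ (by omega), hY0 _ (by omega)]
      simp
    · intro l hl
      rw [hX0 _ (by omega), hY0 _ (by omega)]
      simp
  · have : Nonempty (Fin m) := ⟨⟨0, hm⟩⟩
    obtain ⟨i₀, _, hi₀⟩ := Finset.exists_max_image (Finset.univ : Finset (Fin m))
      (fun i => |κ i|) Finset.univ_nonempty
    set Λ : ℝ := |κ i₀| with hΛ
    have hΛ0 : 0 ≤ Λ := abs_nonneg _
    -- even powers of the top
    have htop : ∀ l, κ i₀ ^ (2 * l) = Λ ^ (2 * l) := fun l => by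
      rw [pow_mul, pow_mul, hΛ, sq_abs]
    have hle : ∀ i l, κ i ^ (2 * l) ≤ Λ ^ (2 * l) := fun i l => by
      rw [← htop, pow_mul, pow_mul]
      apply pow_le_pow_left₀ (sq_nonneg _)
      exact sq_le_sq.mpr (hi₀ i (Finset.mem_univ i))
    -- the rests
    set E : Finset (Fin m) := Finset.univ.erase i₀ with hE
    have hZr : ∀ l, 1 ≤ l → Z (2 * l) - Λ ^ (2 * l) = ∑ i ∈ E, κ i ^ (2 * l) := by
      intro l hl
      rw [hZ (2 * l) (by omega), ← Finset.add_sum_erase Finset.univ (fun i => κ i ^ (2 * l))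
        (Finset.mem_univ i₀), htop]
      ring
    have hYr : ∀ l, 1 ≤ l → Y (2 * l) - w i₀ * Λ ^ (2 * l) = ∑ i ∈ E, w i * κ i ^ (2 * l) := by
      intro l hl
      rw [hY (2 * l) (by omega), ← Finset.add_sum_erase Finset.univ
        (fun i => w i * κ i ^ (2 * l)) (Finset.mem_univ i₀), htop]
      ring
    obtain ⟨σ, hσ, hσκ⟩ : ∃ σ : ℝ, (σ = 1 ∨ σ = -1) ∧ κ i₀ = σ * Λ := by
      rcases abs_choice (κ i₀) with h | h
      · exact ⟨1, Or.inl rfl, by rw [hΛ, h, one_mul]⟩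
      · exact ⟨-1, Or.inr rfl, by rw [hΛ, h]; ring⟩
    have hXr : ∀ l, 1 ≤ l → X (2 * l + 1) - (s i₀ * σ) * (w i₀ * Λ ^ (2 * l + 1)) =
        ∑ i ∈ E, s i * w i * κ i ^ (2 * l + 1) := by
      intro l hl
      have e1 : κ i₀ ^ (2 * l + 1) = σ * Λ ^ (2 * l + 1) := by
        rw [pow_succ, htop, hσκ]; ring
      rw [hX (2 * l + 1) (by omega), ← Finset.add_sum_erase Finset.univ
        (fun i => s i * w i * κ i ^ (2 * l + 1)) (Finset.mem_univ i₀), e1]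
      ring
    refine ⟨Λ, w i₀, s i₀ * σ, hΛ0, hw i₀, ?_, ?_, ?_, ?_, ?_, ?_, ?_, ?_, ?_⟩
    · rcases hs i₀ with h1 | h1 <;> rcases hσ with h2 | h2 <;> rw [h1, h2] <;> norm_num
    · intro l hl
      have := hZr l hl
      have h2 : 0 ≤ ∑ i ∈ E, κ i ^ (2 * l) := Finset.sum_nonneg (fun i _ => hev i l)
      linarith
    · intro l hl
      have e4 : 4 * l = 2 * (2 * l) := by ring
      rw [e4, hZr (2 * l) (by omega), hZr l hl]
      have : ∀ i, κ i ^ (2 * (2 * l)) = (κ i ^ (2 * l)) ^ 2 := fun i => by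
        rw [← pow_mul]; ring_nf
      simp only [this]
      rw [sq (∑ i ∈ E, κ i ^ (2 * l)), Finset.sum_mul]
      apply Finset.sum_le_sum
      intro i hi
      rw [sq]
      exact mul_le_mul_of_nonneg_left
        (Finset.single_le_sum (f := fun i => κ i ^ (2 * l)) (fun j _ => hev j l) hi) (hev i l)
    · intro l hl
      have e4 : 4 * l = 2 * l + 2 * l := by ring
      rw [hZ (4 * l) (by omega), hZ (2 * l) (by omega), Finset.mul_sum]
      apply Finset.sum_le_sum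
      intro i _
      rw [e4, pow_add]
      exact mul_le_mul_of_nonneg_right (hle i l) (hev i l)
    · intro l hl
      have := hYr l hl
      have h2 : 0 ≤ ∑ i ∈ E, w i * κ i ^ (2 * l) :=
        Finset.sum_nonneg (fun i _ => mul_nonneg (hw i) (hev i l))
      linarith
    · intro l hl
      rw [hY (2 * l + 2) (by omega), hY (2 * l) (by omega), Finset.mul_sum]
      apply Finset.sum_le_sum
      intro i _
      have h2 := mul_le_mul_of_nonneg_right (hle i 1) (mul_nonneg (hw i) (hev i l))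
      calc w i * κ i ^ (2 * l + 2) = κ i ^ (2 * 1) * (w i * κ i ^ (2 * l)) := by ring
        _ ≤ Λ ^ (2 * 1) * (w i * κ i ^ (2 * l)) := h2
        _ = _ := by ring
    · intro l hl
      have e2 : 2 * l + 2 = 2 * (l + 1) := by ring
      rw [e2, hYr (l + 1) (by omega), hYr l hl, Finset.mul_sum]
      apply Finset.sum_le_sum
      intro i _
      have h2 := mul_le_mul_of_nonneg_right (hle i 1) (mul_nonneg (hw i) (hev i l))
      calc w i * κ i ^ (2 * (l + 1)) = κ i ^ (2 * 1) * (w i * κ i ^ (2 * l)) := by ring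
        _ ≤ Λ ^ (2 * 1) * (w i * κ i ^ (2 * l)) := h2
        _ = _ := by ring
    · intro l hl
      have e4 : 4 * l = 2 * (2 * l) := by ring
      rw [e4, hYr (2 * l) (by omega), hYr l hl, hZr l hl, Finset.sum_mul]
      apply Finset.sum_le_sum
      intro i hi
      have h3 : κ i ^ (2 * l) ≤ ∑ i ∈ E, κ i ^ (2 * l) :=
        Finset.single_le_sum (f := fun i => κ i ^ (2 * l)) (fun j _ => hev j l) hi
      have h2 := mul_le_mul_of_nonneg_left h3 (mul_nonneg (hw i) (hev i l))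
      calc w i * κ i ^ (2 * (2 * l)) = w i * κ i ^ (2 * l) * κ i ^ (2 * l) := by ring
        _ ≤ _ := h2
    · intro l hl
      have e2 : 2 * l + 2 = 2 * (l + 1) := by ring
      rw [hXr l hl, hYr l hl, e2, hYr (l + 1) (by omega)]
      refine Finset.sum_sq_le_sum_mul_sum_of_sq_le_mul E
        (fun i _ => mul_nonneg (hw i) (hev i l)) (fun i _ => mul_nonneg (hw i) (hev i (l + 1))) ?_
      intro i _
      have hs2 : s i ^ 2 = 1 := by rcases hs i with h | h <;> rw [h] <;> norm_num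
      apply le_of_eq
      calc (s i * w i * κ i ^ (2 * l + 1)) ^ 2
          = s i ^ 2 * (w i ^ 2 * (κ i ^ (2 * l + 1)) ^ 2) := by ring
        _ = w i * κ i ^ (2 * l) * (w i * κ i ^ (2 * (l + 1))) := by rw [hs2]; ring

theorem JXYZ.exists_top {X Y Z : ℕ → ℝ} (h : JXYZ X Y Z) (hZ : 0 < Z 4) :
    ∃ Λ W s : ℝ, IsTop X Y Z Λ W s := by
  obtain ⟨x, y, z, h1, h2⟩ := h
  choose Λ W s c1 c2 c3 c4 c5 c6 c7 c8 c9 c10 c11 using fun n => (h1 n).exists_top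
  have hz2 := (h2 2 le_rfl).1
  have hy2 := (h2 2 le_rfl).2.1
  obtain ⟨B, hB⟩ := hz2.bddAbove_range
  obtain ⟨C, hC⟩ := hy2.bddAbove_range
  have hB0 : ∀ n, Λ n ^ 2 ≤ B := fun n => by
    have := c4 n 1 le_rfl
    norm_num at this
    exact this.trans (hB ⟨n, rfl⟩)
  have hC0 : ∀ n, W n * Λ n ^ 2 ≤ C := fun n => by
    have := c7 n 1 le_rfl
    norm_num at this
    exact this.trans (hC ⟨n, rfl⟩)
  have hBB : ∀ n, Λ n ≤ B + 1 := fun n => by
    have := hB0 n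
    nlinarith [c1 n, sq_nonneg (Λ n - 1), sq_nonneg (Λ n)]
  have hmem : ∀ n, ((Λ n, (W n * Λ n ^ 2, s n)) : ℝ × (ℝ × ℝ)) ∈
      Set.Icc (0 : ℝ) (B + 1) ×ˢ (Set.Icc (0 : ℝ) C ×ˢ ({1, -1} : Set ℝ)) := fun n =>
    ⟨⟨c1 n, hBB n⟩, ⟨⟨mul_nonneg (c2 n) (sq_nonneg _), hC0 n⟩, by
      rcases c3 n with h | h <;> simp [h]⟩⟩
  have hfin : IsCompact ({1, -1} : Set ℝ) := (Set.toFinite _).isCompact
  obtain ⟨p, hp, φ, hφ, hlim⟩ :=
    (isCompact_Icc.prod (isCompact_Icc.prod hfin)).tendsto_subseq hmem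
  have hlim1 : Tendsto (fun n => Λ (φ n)) atTop (𝓝 p.1) :=
    ((continuous_fst.tendsto p).comp hlim)
  have hlim2 : Tendsto (fun n => W (φ n) * Λ (φ n) ^ 2) atTop (𝓝 p.2.1) :=
    (((continuous_fst.comp continuous_snd).tendsto p).comp hlim)
  have hlim3 : Tendsto (fun n => s (φ n)) atTop (𝓝 p.2.2) :=
    (((continuous_snd.comp continuous_snd).tendsto p).comp hlim)
  have hZl : ∀ N, 2 ≤ N → Tendsto (fun n => z (φ n) N) atTop (𝓝 (Z N)) := fun N hN =>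
    (h2 N hN).1.comp hφ.tendsto_atTop
  have hYl : ∀ N, 2 ≤ N → Tendsto (fun n => y (φ n) N) atTop (𝓝 (Y N)) := fun N hN =>
    (h2 N hN).2.1.comp hφ.tendsto_atTop
  have hXl : ∀ N, 2 ≤ N → Tendsto (fun n => x (φ n) N) atTop (𝓝 (X N)) := fun N hN =>
    (h2 N hN).2.2.comp hφ.tendsto_atTop
  have hratio : Z 4 ≤ p.1 ^ 2 * Z 2 := by
    refine le_of_tendsto_of_tendsto' (hZl 4 (by omega))
      ((hlim1.pow 2).mul (hZl 2 le_rfl)) ?_
    intro n
    have := c6 (φ n) 1 le_rfl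
    norm_num at this
    exact this
  have hp1 : 0 < p.1 := by
    rcases eq_or_lt_of_le hp.1.1 with h0 | h0
    · rw [← h0] at hratio
      norm_num at hratio
      linarith
    · exact h0
  have hlimW : Tendsto (fun n => W (φ n)) atTop (𝓝 (p.2.1 / p.1 ^ 2)) := by
    have h3 := hlim2.div (hlim1.pow 2) (by positivity)
    refine h3.congr' ?_
    have h4 : ∀ᶠ n in atTop, 0 < Λ (φ n) := hlim1.eventually (lt_mem_nhds hp1)
    filter_upwards [h4] with n hn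
    simp only [Pi.div_apply]
    field_simp
  refine ⟨p.1, p.2.1 / p.1 ^ 2, p.2.2, ?_⟩
  refine ⟨hp1, div_nonneg hp.2.1.1 (by positivity), ?_, ?_, ?_, ?_, ?_, ?_, ?_, ?_, ?_⟩
  · have := hp.2.2
    simpa using this
  · intro l hl
    exact le_of_tendsto_of_tendsto' (hlim1.pow _) (hZl _ (by omega)) (fun n => c4 (φ n) l hl)
  · intro l hl
    exact le_of_tendsto_of_tendsto' ((hZl _ (by omega)).sub (hlim1.pow _))
      (((hZl _ (by omega)).sub (hlim1.pow _)).pow 2) (fun n => c5 (φ n) l hl)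
  · intro l hl
    exact le_of_tendsto_of_tendsto' (hZl _ (by omega))
      ((hlim1.pow _).mul (hZl _ (by omega))) (fun n => c6 (φ n) l hl)
  · intro l hl
    exact le_of_tendsto_of_tendsto' (hlimW.mul (hlim1.pow _)) (hYl _ (by omega))
      (fun n => c7 (φ n) l hl)
  · intro l hl
    exact le_of_tendsto_of_tendsto' (hYl _ (by omega))
      ((hlim1.pow _).mul (hYl _ (by omega))) (fun n => c8 (φ n) l hl)
  · intro l hl
    exact le_of_tendsto_of_tendsto' ((hYl _ (by omega)).sub (hlimW.mul (hlim1.pow _)))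
      ((hlim1.pow _).mul ((hYl _ (by omega)).sub (hlimW.mul (hlim1.pow _))))
      (fun n => c9 (φ n) l hl)
  · intro l hl
    exact le_of_tendsto_of_tendsto' ((hYl _ (by omega)).sub (hlimW.mul (hlim1.pow _)))
      (((hYl _ (by omega)).sub (hlimW.mul (hlim1.pow _))).mul
        ((hZl _ (by omega)).sub (hlim1.pow _)))
      (fun n => c10 (φ n) l hl)
  · intro l hl
    exact le_of_tendsto_of_tendsto'
      (((hXl _ (by omega)).sub (hlim3.mul (hlimW.mul (hlim1.pow _)))).pow 2)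
      (((hYl _ (by omega)).sub (hlimW.mul (hlim1.pow _))).mul
        ((hYl _ (by omega)).sub (hlimW.mul (hlim1.pow _))))
      (fun n => c11 (φ n) l hl)

theorem JXYZfin.X_sq_le {X Y Z : ℕ → ℝ} (h : JXYZfin X Y Z) {l : ℕ} (hl : 1 ≤ l) :
    X (2 * l + 1) ^ 2 ≤ Y (2 * l) * Y (2 * l + 2) := by
  obtain ⟨m, κ, w, s, hw, hs, hf⟩ := h
  have hev : ∀ i l, 0 ≤ κ i ^ (2 * l) := fun i l => by rw [pow_mul]; positivity
  rw [(hf (2 * l + 1) (by omega)).2.2, (hf (2 * l) (by omega)).2.1,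
    (hf (2 * l + 2) (by omega)).2.1]
  have e2 : 2 * l + 2 = 2 * (l + 1) := by ring
  rw [e2]
  refine Finset.sum_sq_le_sum_mul_sum_of_sq_le_mul Finset.univ
    (fun i _ => mul_nonneg (hw i) (hev i l)) (fun i _ => mul_nonneg (hw i) (hev i (l + 1))) ?_
  intro i _
  have hs2 : s i ^ 2 = 1 := by rcases hs i with h | h <;> rw [h] <;> norm_num
  apply le_of_eq
  calc (s i * w i * κ i ^ (2 * l + 1)) ^ 2
      = s i ^ 2 * (w i ^ 2 * (κ i ^ (2 * l + 1)) ^ 2) := by ring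
    _ = w i * κ i ^ (2 * l) * (w i * κ i ^ (2 * (l + 1))) := by rw [hs2]; ring

/-- For odd `N = 2 l + 1`: `X(N)² ≤ Y(N-1) Y(N+1)`. -/
theorem JXYZ.X_sq_le {X Y Z : ℕ → ℝ} (h : JXYZ X Y Z) {l : ℕ} (hl : 1 ≤ l) :
    X (2 * l + 1) ^ 2 ≤ Y (2 * l) * Y (2 * l + 2) := by
  obtain ⟨x, y, z, h1, h2⟩ := h
  exact le_of_tendsto_of_tendsto' ((h2 (2 * l + 1) (by omega)).2.2.pow 2)
    ((h2 (2 * l) (by omega)).2.1.mul (h2 (2 * l + 2) (by omega)).2.1)
    (fun n => (h1 n).X_sq_le hl)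

end Crest.Agent.R347
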