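import Crest.Agent.R347.NumScalar_Mg
import Crest.Agent.R347.NumCW
import Crest.Agent.R347.DirectGen
import Crest.Agent.R347.Data

-- ▼ part R347/NumRun
section

/-! From kernel runs to certified sums for the ring. -/

set_option autoImplicit false

namespace Crest.Agent.R347.Num

open Matrix

/-- decode a code -/
def dec (L c : ℕ) : Cfg L := fun j => ⟨(c / 4 ^ (j : ℕ) % 4) % 3, Nat.mod_lt _ (by norm_num)⟩

def decJ (L : ℕ) (J : List (ℕ × ℕ)) : List (Cfg L × ℕ) := J.map fun x => (dec L x.1, x.2)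

def okJ (L : ℕ) (J : List (ℕ × ℕ)) : Bool := J.all fun x => decide (code (dec L x.1) = x.1)

theorem okJ_spec {L : ℕ} {J : List (ℕ × ℕ)} (h : okJ L J = true) :
    (decJ L J).map (fun x => (code x.1, x.2)) = J := by
  unfold decJ
  rw [List.map_map]
  unfold okJ at h
  rw [List.all_eq_true] at h
  conv_rhs => rw [← List.map_id J]
  refine List.map_congr_left fun x hx => ?_
  have := of_decide_eq_true (h x hx)
  show (code (dec L x.1), x.2) = x
  rw [this]

theorem decJ_nodup {L : ℕ} {J : List (ℕ × ℕ)} (h : okJ L J = true)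
    (hn : (J.map Prod.fst).Nodup) : ((decJ L J).map Prod.fst).Nodup := by
  rw [← okJ_spec h, List.map_map] at hn
  have : (Prod.fst ∘ fun x : Cfg L × ℕ => (code x.1, x.2)) = code ∘ Prod.fst := rfl
  rw [this, ← List.map_map] at hn
  exact List.Nodup.of_map _ hn

theorem decJ_snd (L : ℕ) (J : List (ℕ × ℕ)) : (decJ L J).map Prod.snd = J.map Prod.snd := by
  unfold decJ
  rw [List.map_map]
  rfl

theorem decJ_append (L : ℕ) (J J' : List (ℕ × ℕ)) : decJ L (J ++ J') = decJ L J ++ decJ L J' := by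
  unfold decJ
  rw [List.map_append]

/-- weight check -/
def wtok (L : ℕ) [NeZero L] (x : ℕ × ℕ) : Bool :=
  decide (canon (dec L x.1)) &&
    decide (x.2 * stab (dec L x.1) = L * (if dsum (dec L x.1) < L then 2 else
      if dsum (dec L x.1) = L then 1 else 0))

theorem wtok_spec {L : ℕ} [NeZero L] {x : ℕ × ℕ} (h : wtok L x = true) :
    (x.2 : ℚ) = wt0 (dec L x.1) := by
  unfold wtok at h
  rw [Bool.and_eq_true] at h
  have h1 := of_decide_eq_true h.1
  have h2 := of_decide_eq_true h.2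
  unfold wt0 wgt mul0
  rw [if_pos h1]
  have h3 : (stab (dec L x.1) : ℚ) ≠ 0 := by exact_mod_cast (stab_pos _).ne'
  have h4 : (x.2 : ℚ) * stab (dec L x.1) = L * (if dsum (dec L x.1) < L then 2 else
      if dsum (dec L x.1) = L then 1 else 0) := by
    exact_mod_cast h2
  field_simp
  rw [h4]

theorem T_flip {L : ℕ} (σ : Cfg L) : code (fl σ) + code σ = ∑ j : Fin L, 2 * 4 ^ (j : ℕ) := by
  unfold code fl
  rw [← Finset.sum_add_distrib]
  refine Finset.sum_congr rfl fun j _ => ?_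
  have h1 := (σ j).isLt
  have h2 : (((σ j).rev : Fin 3) : ℕ) + (σ j : ℕ) = 2 := by
    rw [Fin.val_rev]; omega
  rw [← add_mul, h2]

section
variable {n : ℕ} (hn : 1 ≤ n) (tw : Bool) (c1 r Cn w : ℕ) (us : List ℕ) (J : List (ℕ × ℕ))
  (Qb : ℕ) (bs : List Bd) (hbs : (ringBonds (n + 1) tw).map Bond.toBd = bs) (hJ0 : J ≠ [])
  (hdec : okJ (n + 1) J = true) (hnd : (J.map Prod.fst).Nodup) (hw : 1 ≤ w)
  (hQ : ∀ σ τ, |Qm n tw c1 (r ^ 2) us σ τ| ≤ Qb) (hs : 2 * ((J.map Prod.snd).sum * Qb) < 2 ^ w)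
  (hC : 2 * (n + 1) + 2 * (n + 1) + r ^ 2 ≤ Cn)

include hn hbs hJ0 hdec hnd hw hQ hs hC in
theorem run_gen (h : Cfg (n + 1) → Cfg (n + 1)) (h' : ℕ → ℕ)
    (hh : ∀ σ, h' (code σ) = code (h σ)) {α : Type} (fin : ℕ → ℕ → (ℕ → ℕ) → α) :
    ∃ f : ℕ → ℕ, runA 1 (r ^ 2) c1 Cn w (w * J.length) bs [] J us fin =
        fin (2 ^ w) (2 ^ (w * J.length) - 1) f ∧
      ∀ (h : Cfg (n + 1) → Cfg (n + 1)) (h' : ℕ → ℕ), (∀ σ, h' (code σ) = code (h σ)) → ∀ K : ℕ,
        sgnd w (outT (2 ^ w) K (w * (J.length - 1)) (2 ^ (w * J.length) - 1) h' f J) ≤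
          wdiag (Qm n tw c1 (r ^ 2) us) h (decJ (n + 1) J) ∧
        wdiag (Qm n tw c1 (r ^ 2) us) h (decJ (n + 1) J) ≤
          sgnd w (outT (2 ^ w) K (w * (J.length - 1)) (2 ^ (w * J.length) - 1) h' f J) + 1 := by
  have hlen : (ringBonds (n + 1) tw).length = n + 1 := by simp [ringBonds]
  obtain ⟨f, hf1, hf2, hf3⟩ := go_spec (L := n + 1) 1 (r ^ 2) c1 Cn (w * J.length)
    (ringBonds (n + 1) tw) [] (ringBonds_ne (by omega) tw) (esel (2 ^ w) J)
    (by rw [hlen]; simp; omega) (fin (2 ^ w) (2 ^ (w * J.length) - 1)) us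
  refine ⟨f, ?_, ?_⟩
  · rw [← hf1, hbs]
    rfl
  · intro h h' hh K
    have hJ := okJ_spec hdec
    have hl : (decJ (n + 1) J).length = J.length := by unfold decJ; rw [List.length_map]
    have key := out_spec w hw (decJ (n + 1) J) (by
        intro h0
        apply hJ0
        rw [← hJ, h0]
        rfl) (decJ_nodup hdec hnd) (Qm n tw c1 (r ^ 2) us) Qb hQ
      (by rw [decJ_snd]; exact hs) h h' hh f (by
        rw [hl, hJ]
        exact hf3) K
    rw [hl, hJ] at key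
    exact key

include hn hbs hJ0 hdec hnd hw hQ hs hC in
theorem run1_spec (R : ℕ)
    (hrun : run1 1 (r ^ 2) c1 Cn w (w * J.length) (w * (J.length - 1)) bs [] J us = R) :
    sgnd w R ≤ wdiag (Qm n tw c1 (r ^ 2) us) id (decJ (n + 1) J) ∧
    wdiag (Qm n tw c1 (r ^ 2) us) id (decJ (n + 1) J) ≤ sgnd w R + 1 := by
  obtain ⟨f, h1, h2⟩ := run_gen hn tw c1 r Cn w us J Qb bs hbs hJ0 hdec hnd hw hQ hs hC id id
    (fun _ => rfl) (fun q mask f => outT q (w * J.length) (w * (J.length - 1)) mask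
      (fun c => c) f J)
  have h3 : run1 1 (r ^ 2) c1 Cn w (w * J.length) (w * (J.length - 1)) bs [] J us =
    runA 1 (r ^ 2) c1 Cn w (w * J.length) bs [] J us
      (fun q mask f => outT q (w * J.length) (w * (J.length - 1)) mask (fun c => c) f J) := rfl
  rw [h3, h1] at hrun
  have := h2 id (fun c => c) (fun _ => rfl) (w * J.length)
  rw [hrun] at this
  exact this

include hn hbs hJ0 hdec hnd hw hQ hs hC in
theorem run2_spec (R R' T : ℕ) (hT : T = ∑ j : Fin (n + 1), 2 * 4 ^ (j : ℕ))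
    (hrun : run2 1 (r ^ 2) c1 Cn w (w * J.length) (w * (J.length - 1)) T bs [] J us = (R, R')) :
    (sgnd w R ≤ wdiag (Qm n tw c1 (r ^ 2) us) id (decJ (n + 1) J) ∧
    wdiag (Qm n tw c1 (r ^ 2) us) id (decJ (n + 1) J) ≤ sgnd w R + 1) ∧
    (sgnd w R' ≤ wdiag (Qm n tw c1 (r ^ 2) us) fl (decJ (n + 1) J) ∧
    wdiag (Qm n tw c1 (r ^ 2) us) fl (decJ (n + 1) J) ≤ sgnd w R' + 1) := by
  obtain ⟨f, h1, h2⟩ := run_gen hn tw c1 r Cn w us J Qb bs hbs hJ0 hdec hnd hw hQ hs hC id id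
    (fun _ => rfl) (fun q mask f => (outT q (w * J.length) (w * (J.length - 1)) mask
      (fun c => c) f J, outT q (w * J.length) (w * (J.length - 1)) mask
      (fun c => Nat.sub T c) f J))
  have h3 : run2 1 (r ^ 2) c1 Cn w (w * J.length) (w * (J.length - 1)) T bs [] J us =
    runA 1 (r ^ 2) c1 Cn w (w * J.length) bs [] J us
      (fun q mask f => (outT q (w * J.length) (w * (J.length - 1)) mask (fun c => c) f J,
        outT q (w * J.length) (w * (J.length - 1)) mask (fun c => Nat.sub T c) f J)) := rfl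
  rw [h3, h1, Prod.mk.injEq] at hrun
  have a1 := h2 id (fun c => c) (fun _ => rfl) (w * J.length)
  have a2 := h2 fl (fun c => Nat.sub T c) (fun σ => by
    show T - code σ = code (fl σ)
    have := T_flip σ
    omega) (w * J.length)
  rw [hrun.1] at a1
  rw [hrun.2] at a2
  exact ⟨a1, a2⟩

end

end Crest.Agent.R347.Num
end

-- ▼ part R347/NumTot
section

/-! Total traces of the ring polynomial from the chunks. -/

set_option autoImplicit false

namespace Crest.Agent.R347.Num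

open Matrix

theorem wdiag_append {L : ℕ} (Q : Matrix (Cfg L) (Cfg L) ℤ) (h : Cfg L → Cfg L)
    (J J' : List (Cfg L × ℕ)) : wdiag Q h (J ++ J') = wdiag Q h J + wdiag Q h J' := by
  unfold wdiag
  rw [List.map_append, List.sum_append]


section
variable {n : ℕ} {J0 J1 J2 : List (ℕ × ℕ)}

structure ChkData (n : ℕ) (J0 J1 J2 : List (ℕ × ℕ)) : Prop where
  ok : okJ (n + 1) (J0 ++ (J1 ++ J2)) = true
  wt : ∀ x ∈ J0 ++ (J1 ++ J2), wtok (n + 1) x = true
  sm : ((J0 ++ (J1 ++ J2)).map Prod.snd).sum = 3 ^ (n + 1)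
  nd : ((J0 ++ (J1 ++ J2)).map Prod.fst).Nodup
  ev : ∀ x ∈ J0 ++ J1, dsum (dec (n + 1) x.1) % 2 = 0
  od : ∀ x ∈ J2, dsum (dec (n + 1) x.1) % 2 = 1
  ne : ∀ x ∈ J1 ++ J2, dsum (dec (n + 1) x.1) ≠ n + 1


variable (hc : ChkData n J0 J1 J2)
include hc

theorem sum_all (f : Cfg (n + 1) → ℤ) (hf : ∀ k σ, f (tr k σ) = f σ)
    (hf' : ∀ σ, f (fl σ) = f σ) :
    ∑ σ, f σ = ((J0 ++ (J1 ++ J2)).map fun x => (x.2 : ℤ) * f (dec (n + 1) x.1)).sum := by
  rw [sum_reps_int (decJ (n + 1) (J0 ++ (J1 ++ J2))) (decJ_nodup hc.ok hc.nd) ?_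
    (by rw [decJ_snd]; exact hc.sm) f hf hf']
  · unfold decJ
    rw [List.map_map]
    rfl
  · intro x hx
    unfold decJ at hx
    rw [List.mem_map] at hx
    obtain ⟨y, hy, rfl⟩ := hx
    exact wtok_spec (hc.wt y hy)

omit hc in
theorem wd_eq (Q : Matrix (Cfg (n + 1)) (Cfg (n + 1)) ℤ) (h : Cfg (n + 1) → Cfg (n + 1))
    (J : List (ℕ × ℕ)) : wdiag Q h (decJ (n + 1) J) =
      (J.map fun x => (x.2 : ℤ) * Q (h (dec (n + 1) x.1)) (dec (n + 1) x.1)).sum := by
  unfold wdiag decJ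
  rw [List.map_map]
  rfl

variable (tw : Bool) (c1 ρ : ℕ) (us : List ℕ)

theorem tot_diag (hn : 1 ≤ n) : ∑ σ, Qm n tw c1 ρ us σ σ =
    wdiag (Qm n tw c1 ρ us) id (decJ (n + 1) J0) + wdiag (Qm n tw c1 ρ us) id (decJ (n + 1) J1)
      + wdiag (Qm n tw c1 ρ us) id (decJ (n + 1) J2) := by
  rw [sum_all hc (fun σ => Qm n tw c1 ρ us σ σ) (fun k σ => Qm_diag_tr tw c1 ρ us hn k σ)
    (fun σ => Qm_fl tw c1 ρ us σ σ)]
  rw [List.map_append, List.map_append, List.sum_append, List.sum_append, wd_eq, wd_eq, wd_eq]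
  simp only [id]
  ring

theorem tot_sign (hn : 1 ≤ n) : ∑ σ, sg σ * Qm n tw c1 ρ us σ σ =
    wdiag (Qm n tw c1 ρ us) id (decJ (n + 1) J0) + wdiag (Qm n tw c1 ρ us) id (decJ (n + 1) J1)
      - wdiag (Qm n tw c1 ρ us) id (decJ (n + 1) J2) := by
  rw [sum_all hc (fun σ => sg σ * Qm n tw c1 ρ us σ σ)
    (fun k σ => by rw [sg_tr, Qm_diag_tr tw c1 ρ us hn k σ])
    (fun σ => by rw [sg_fl, Qm_fl tw c1 ρ us σ σ])]
  rw [List.map_append, List.map_append, List.sum_append, List.sum_append, wd_eq, wd_eq, wd_eq]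
  have e0 : (J0.map fun x => (x.2 : ℤ) * (sg (dec (n + 1) x.1) *
      Qm n tw c1 ρ us (dec (n + 1) x.1) (dec (n + 1) x.1))) =
      J0.map fun x => (x.2 : ℤ) * Qm n tw c1 ρ us (dec (n + 1) x.1) (dec (n + 1) x.1) := by
    refine List.map_congr_left fun x hx => ?_
    have : sg (dec (n + 1) x.1) = 1 := by
      unfold sg
      exact Even.neg_one_pow (Nat.even_iff.mpr (hc.ev x (List.mem_append_left _ hx)))
    rw [this, one_mul]
  have e1 : (J1.map fun x => (x.2 : ℤ) * (sg (dec (n + 1) x.1) *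
      Qm n tw c1 ρ us (dec (n + 1) x.1) (dec (n + 1) x.1))) =
      J1.map fun x => (x.2 : ℤ) * Qm n tw c1 ρ us (dec (n + 1) x.1) (dec (n + 1) x.1) := by
    refine List.map_congr_left fun x hx => ?_
    have : sg (dec (n + 1) x.1) = 1 := by
      unfold sg
      exact Even.neg_one_pow (Nat.even_iff.mpr (hc.ev x (List.mem_append_right _ hx)))
    rw [this, one_mul]
  have e2 : ∀ J : List (ℕ × ℕ), (∀ x ∈ J, dsum (dec (n + 1) x.1) % 2 = 1) →
      (J.map fun x => (x.2 : ℤ) * (sg (dec (n + 1) x.1) *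
      Qm n tw c1 ρ us (dec (n + 1) x.1) (dec (n + 1) x.1))).sum =
      -(J.map fun x => (x.2 : ℤ) * Qm n tw c1 ρ us (dec (n + 1) x.1) (dec (n + 1) x.1)).sum := by
    intro J hJ
    induction J with
    | nil => simp
    | cons y J ih =>
      rw [List.map_cons, List.sum_cons, List.map_cons, List.sum_cons,
        ih (fun x hx => hJ x (List.mem_cons_of_mem _ hx))]
      have : sg (dec (n + 1) y.1) = -1 := by
        unfold sg
        exact Odd.neg_one_pow (Nat.odd_iff.mpr (hJ y List.mem_cons_self))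
      rw [this]
      ring
  rw [e0, e1, e2 J2 hc.od]
  simp only [id]
  ring

theorem tot_flip (hn : 1 ≤ n) : ∑ σ, Qm n tw c1 ρ us (fl σ) σ =
    wdiag (Qm n tw c1 ρ us) fl (decJ (n + 1) J0) := by
  rw [sum_all hc (fun σ => Qm n tw c1 ρ us (fl σ) σ)
    (fun k σ => Qm_flip_tr tw c1 ρ us hn k σ) (fun σ => Qm_flip_fl tw c1 ρ us σ)]
  rw [List.map_append, List.sum_append, wd_eq]
  have : ∀ J : List (ℕ × ℕ), (∀ x ∈ J, dsum (dec (n + 1) x.1) ≠ n + 1) →
      (J.map fun x => (x.2 : ℤ) * Qm n tw c1 ρ us (fl (dec (n + 1) x.1)) (dec (n + 1) x.1)).sum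
        = 0 := by
    intro J hJ
    induction J with
    | nil => simp
    | cons y J ih =>
      rw [List.map_cons, List.sum_cons, ih (fun x hx => hJ x (List.mem_cons_of_mem _ hx))]
      have h1 := hJ y List.mem_cons_self
      have h2 := dsum_fl (dec (n + 1) y.1)
      rw [Qm_label tw c1 ρ us hn _ _ (by omega), mul_zero, add_zero]
  rw [this (J1 ++ J2) hc.ne, add_zero]

end

end Crest.Agent.R347.Num
end

-- ▼ part R347/NumRot
section

/-! (E1) rotation by π about (x+z)/√2 exchanges the axes x and z. -/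

set_option autoImplicit false

namespace Crest.Agent.R347.Num

open Matrix Crest.MathPhysics.SpinChain Crest.Agent.R347 Crest.Agent.R347.DirectGen

theorem swapXZ_rot' : swapXZ * rotC 3 * swapXZ = rotC 1 := by
  rw [← swapXZ_rot]
  calc swapXZ * (swapXZ * rotC 1 * swapXZ) * swapXZ
      = (swapXZ * swapXZ) * rotC 1 * (swapXZ * swapXZ) := by simp only [Matrix.mul_assoc]
    _ = rotC 1 := by rw [swapXZ_sq, Matrix.one_mul, Matrix.mul_one]

/-- conjugation of one bond term. -/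
theorem conj_bondc {ι : Type*} [Fintype ι] [DecidableEq ι] (c : Fin 3) (j k : ι) :
    piK (fun _ : ι => swapXZ) * (onSite (spinOp c) j * onSite (spinOp c) k) *
      piK (fun _ : ι => swapXZ) =
      onSite (spinOp (pXZ c)) j * onSite (spinOp (pXZ c)) k := by
  have hV := piK_sq (ι := ι) swapXZ_sq
  have hc : swapXZ * spinOp c * swapXZ = (![1, -1, 1] : Fin 3 → ℂ) c • spinOp (pXZ c) := by
    rw [swapXZ_conj c]
    congr 2
    fin_cases c <;> rfl
  have hs : (![1, -1, 1] : Fin 3 → ℂ) c * (![1, -1, 1] : Fin 3 → ℂ) c = 1 := by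
    fin_cases c <;> simp
  calc piK (fun _ : ι => swapXZ) * (onSite (spinOp c) j * onSite (spinOp c) k) *
        piK (fun _ : ι => swapXZ)
      = piK (fun _ : ι => swapXZ) * onSite (spinOp c) j *
        (piK (fun _ : ι => swapXZ) * piK (fun _ : ι => swapXZ)) * onSite (spinOp c) k *
          piK (fun _ : ι => swapXZ) := by rw [hV, Matrix.mul_one]; simp only [Matrix.mul_assoc]
    _ = (piK (fun _ : ι => swapXZ) * onSite (spinOp c) j * piK (fun _ : ι => swapXZ)) *
        (piK (fun _ : ι => swapXZ) * onSite (spinOp c) k * piK (fun _ : ι => swapXZ)) := by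
        simp only [Matrix.mul_assoc]
    _ = onSite (spinOp (pXZ c)) j * onSite (spinOp (pXZ c)) k := by
        rw [conj_onSite _ _ swapXZ_sq, conj_onSite _ _ swapXZ_sq, hc, onSite_smul, onSite_smul,
          Matrix.smul_mul, Matrix.mul_smul, smul_smul, hs, one_smul]

theorem eta_swap (c : Fin 3) : eta 1 c = eta 3 (pXZ c) := by
  fin_cases c <;> decide

theorem conj_ringTw (L : ℕ) :
    piK (fun _ : Fin L => swapXZ) * ringTw 1 L * piK (fun _ : Fin L => swapXZ) = ringTw 3 L := by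
  unfold ringTw
  rw [Finset.mul_sum, Finset.sum_mul]
  refine Finset.sum_congr rfl fun j _ => ?_
  rw [Finset.mul_sum, Finset.sum_mul]
  rw [← Equiv.sum_comp pXZ (fun c : Fin 3 =>
    (if j.val + 1 = L then ((eta 3 c : ℤ) : ℂ) else 1) •
      (onSite (spinOp c) j * onSite (spinOp c) (finRotate L j)))]
  refine Finset.sum_congr rfl fun c _ => ?_
  rw [Matrix.mul_smul, Matrix.smul_mul, conj_bondc, eta_swap]

/-- (E1) -/
theorem Zab_one_three (β : ℝ) (L : ℕ) : Zab 1 3 β L = Zab 3 1 β L := by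
  unfold Zab
  set V : Matrix (Fin L → Fin 3) (Fin L → Fin 3) ℂ := piK (fun _ : Fin L => swapXZ) with hVdef
  have hV : V * V = 1 := piK_sq swapXZ_sq
  have hVinv : V⁻¹ = V := Matrix.inv_eq_right_inv hV
  have hunit : IsUnit V := by
    rw [Matrix.isUnit_iff_isUnit_det]
    exact Matrix.isUnit_det_of_right_inverse hV
  have hrot : V * piK (fun _ : Fin L => rotC 3) * V = piK (fun _ : Fin L => rotC 1) := by
    rw [hVdef, piK_mul, piK_mul, swapXZ_rot']
  have hexp : NormedSpace.exp (-(β : ℂ) • ringTw 3 L) =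
      V * NormedSpace.exp (-(β : ℂ) • ringTw 1 L) * V := by
    have h1 : -(β : ℂ) • ringTw 3 L = V * (-(β : ℂ) • ringTw 1 L) * V⁻¹ := by
      rw [hVinv, Matrix.mul_smul, Matrix.smul_mul, hVdef, conj_ringTw]
    rw [h1, Matrix.exp_conj _ _ hunit, hVinv]
  rw [hexp, ← hrot]
  have h2 : V * piK (fun _ : Fin L => rotC 3) * V *
      (V * NormedSpace.exp (-(β : ℂ) • ringTw 1 L) * V) =
      V * (piK (fun _ : Fin L => rotC 3) * NormedSpace.exp (-(β : ℂ) • ringTw 1 L) * V) := by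
    calc V * piK (fun _ : Fin L => rotC 3) * V *
          (V * NormedSpace.exp (-(β : ℂ) • ringTw 1 L) * V)
        = V * piK (fun _ : Fin L => rotC 3) * (V * V) *
          NormedSpace.exp (-(β : ℂ) • ringTw 1 L) * V := by simp only [Matrix.mul_assoc]
      _ = _ := by rw [hV, Matrix.mul_one]; simp only [Matrix.mul_assoc]
  rw [h2, Matrix.trace_mul_comm V, Matrix.mul_assoc _ V V, hV, Matrix.mul_one]

end Crest.Agent.R347.Num
end

-- ▼ part R347/NumReal
section

/-! From the integer traces to the normalised twisted partition functions. -/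

set_option autoImplicit false

namespace Crest.Agent.R347.Num

open Matrix Crest.MathPhysics.SpinChain

/-- complexified ring matrix -/
noncomputable def Gc (n : ℕ) (tw : Bool) (c1 : ℕ) : Matrix (Cfg (n + 1)) (Cfg (n + 1)) ℂ :=
  (Gmat 1 c1 (ringBonds (n + 1) tw) []).map (Int.cast : ℤ → ℂ)

theorem exp_ring {n : ℕ} (hn : 1 ≤ n) (tw : Bool) (c0 c1 : ℕ) (hc : c0 + c1 = n + 1) (β : ℝ) :
    NormedSpace.exp (-(β : ℂ) • ringTw (if tw then 3 else 0) (n + 1)) =
      ((Real.exp (β * c0) : ℝ) : ℂ) • NormedSpace.exp ((β : ℂ) • Gc n tw c1) := by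
  rw [ringTw_eq (n + 1) (by omega) tw c1]
  have h1 : ((c1 : ℂ) - ((n + 1 : ℕ) : ℂ)) = -(c0 : ℂ) := by
    rw [← hc]; push_cast; ring
  have h2 : -(β : ℂ) • (((c1 : ℂ) - ((n + 1 : ℕ) : ℂ)) • (1 : Matrix (Cfg (n + 1)) (Cfg (n + 1)) ℂ) -
      (Gmat 1 c1 (ringBonds (n + 1) tw) []).map (Int.cast : ℤ → ℂ)) =
      Matrix.diagonal (fun _ => ((β : ℂ) * c0)) + (β : ℂ) • Gc n tw c1 := by
    rw [h1, ← smul_one_eq_diagonal]
    unfold Gc
    rw [smul_sub, smul_smul, neg_smul, neg_mul_neg, sub_neg_eq_add]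
  rw [h2, Matrix.exp_add_of_commute, Matrix.exp_diagonal]
  · have h3 : (NormedSpace.exp (fun _ : Cfg (n + 1) => ((β : ℂ) * c0))) =
        fun _ => ((Real.exp (β * c0) : ℝ) : ℂ) := by
      rw [Pi.exp_def]
      funext _
      rw [← Complex.exp_eq_exp_ℂ]
      push_cast
      rfl
    rw [h3, ← smul_one_eq_diagonal, smul_mul_assoc, one_mul]
  · show Matrix.diagonal (fun _ => ((β : ℂ) * c0)) * ((β : ℂ) • Gc n tw c1) =
      ((β : ℂ) • Gc n tw c1) * Matrix.diagonal (fun _ => ((β : ℂ) * c0))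
    rw [← smul_one_eq_diagonal, smul_mul_assoc, one_mul, mul_smul_comm, mul_one]

theorem Zab_ring {n : ℕ} (hn : 1 ≤ n) (tw : Bool) (b : Fin 4) (c0 c1 : ℕ)
    (hc : c0 + c1 = n + 1) (β : ℝ) :
    Zab (if tw then 3 else 0) b β (n + 1) = Real.exp (β * c0) *
      (trace (piK (fun _ : Fin (n + 1) => rotC b) * NormedSpace.exp ((β : ℂ) • Gc n tw c1))).re := by
  unfold Zab
  rw [exp_ring hn tw c0 c1 hc, mul_smul_comm, trace_smul, smul_eq_mul, Complex.re_ofReal_mul]

/-! ### the three rotations -/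

theorem tr_zero_rot {n : ℕ} (Q : Matrix (Cfg (n + 1)) (Cfg (n + 1)) ℤ) :
    (trace (piK (fun _ : Fin (n + 1) => rotC 0) * Q.map (Int.cast : ℤ → ℂ))).re =
      ((∑ σ, Q σ σ : ℤ) : ℝ) := by
  have : rotC 0 = 1 := rfl
  rw [this, piK_one, one_mul, trace]
  simp

theorem prod_es {L : ℕ} (hL : Even L) (σ : Cfg L) :
    ∏ j, (if σ j = 1 then (1 : ℂ) else -1) = ((sg σ : ℤ) : ℂ) := by
  have h1 : ∀ x : Fin 3, (if x = 1 then (1 : ℂ) else -1) = -((-1 : ℂ) ^ (x : ℕ)) := by
    intro x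
    fin_cases x <;> norm_num
  simp only [h1]
  rw [Finset.prod_neg, Finset.prod_pow_eq_pow_sum, Finset.card_univ, Fintype.card_fin,
    hL.neg_one_pow, one_mul]
  unfold sg dsum
  push_cast
  rfl

theorem tr_three_rot {n : ℕ} (hL : Even (n + 1)) (Q : Matrix (Cfg (n + 1)) (Cfg (n + 1)) ℤ) :
    (trace (piK (fun _ : Fin (n + 1) => rotC 3) * Q.map (Int.cast : ℤ → ℂ))).re =
      ((∑ σ, sg σ * Q σ σ : ℤ) : ℝ) := by
  rw [piK_rotC_three, trace]
  simp only [diag_apply, diagonal_mul, prod_es hL, Matrix.map_apply]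
  rw [Complex.re_sum]
  push_cast
  refine Finset.sum_congr rfl fun σ _ => ?_
  rw [← Int.cast_mul, Complex.intCast_re]
  push_cast
  rfl

theorem tr_one_rot {n : ℕ} (hL : Even (n + 1)) (Q : Matrix (Cfg (n + 1)) (Cfg (n + 1)) ℤ) :
    (trace (piK (fun _ : Fin (n + 1) => rotC 1) * Q.map (Int.cast : ℤ → ℂ))).re =
      ((∑ σ, Q (fl σ) σ : ℤ) : ℝ) := by
  rw [piK_rotC_one, trace]
  simp only [diag_apply, mul_apply, Matrix.of_apply, Matrix.map_apply, hL.neg_one_pow]
  rw [Complex.re_sum]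
  push_cast
  refine Finset.sum_congr rfl fun σ _ => ?_
  have : (fun j => (σ j).rev) = fl σ := rfl
  simp only [this, ite_mul, one_mul, zero_mul]
  rw [Finset.sum_ite_eq' Finset.univ (fl σ), if_pos (Finset.mem_univ _), Complex.intCast_re]

theorem unit_zero {n : ℕ} : (piK (fun _ : Fin (n + 1) => rotC 0))ᴴ *
    piK (fun _ : Fin (n + 1) => rotC 0) = 1 := by
  have : rotC 0 = 1 := rfl
  rw [this, piK_one]
  simp

theorem unit_three {n : ℕ} : (piK (fun _ : Fin (n + 1) => rotC 3))ᴴ *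
    piK (fun _ : Fin (n + 1) => rotC 3) = 1 := by
  rw [piK_conjTranspose, piK_mul, ← piK_one]
  congr 1
  funext j
  have h := piK_rotC_three 1
  have h2 : rotC 3 = Matrix.diagonal (fun x : Fin 3 => if x = 1 then (1 : ℂ) else -1) := by
    ext x y
    have := congrFun (congrFun h (fun _ => x)) (fun _ => y)
    simp only [piK_apply, Finset.univ_unique, Fin.default_eq_zero, Fin.isValue,
      Finset.prod_singleton, diagonal_apply] at this
    rw [this, diagonal_apply]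
    by_cases hxy : x = y
    · subst hxy; simp
    · rw [if_neg hxy, if_neg (fun h => hxy (congrFun h 0))]
  rw [h2, diagonal_conjTranspose, diagonal_mul_diagonal]
  rw [← diagonal_one]
  congr 1
  funext x
  simp only [Pi.star_apply]
  split_ifs <;> simp

theorem unit_one {n : ℕ} : (piK (fun _ : Fin (n + 1) => rotC 1))ᴴ *
    piK (fun _ : Fin (n + 1) => rotC 1) = 1 := by
  rw [piK_conjTranspose, piK_mul, ← piK_one]
  congr 1
  funext j
  have h := piK_rotC_one 1
  have h2 : rotC 1 = Matrix.of (fun x y : Fin 3 => if y = x.rev then (-1 : ℂ) else 0) := by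
    ext x y
    have := congrFun (congrFun h (fun _ => x)) (fun _ => y)
    simp only [piK_apply, Finset.univ_unique, Fin.default_eq_zero, Fin.isValue,
      Finset.prod_singleton, Matrix.of_apply, pow_one] at this
    rw [this, Matrix.of_apply]
    by_cases hxy : y = x.rev
    · rw [if_pos hxy, if_pos (by funext _; exact hxy)]
    · rw [if_neg hxy, if_neg (fun h => hxy (congrFun h 0))]
  rw [h2]
  ext x y
  fin_cases x <;> fin_cases y <;>
    simp [Matrix.mul_apply, Fin.sum_univ_three, Matrix.conjTranspose_apply, Fin.rev, Fin.ext_iff]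

end Crest.Agent.R347.Num
end

-- ▼ part R347/NumChk
section

/-! Fast kernel checks on codes for `ChkData`. -/

set_option autoImplicit false

namespace Crest.Agent.R347.Num

open Matrix

/-- rotation of a code with `n + 1` digits -/
def rotN (n c : ℕ) : ℕ := c / 4 + c % 4 * 4 ^ n


theorem code_snoc {n : ℕ} (σ : Cfg (n + 1)) :
    code σ = code (fun j : Fin n => σ j.castSucc) + (σ (Fin.last n) : ℕ) * 4 ^ n := by
  unfold code
  rw [Fin.sum_univ_castSucc]
  simp

theorem code_tr_one {n : ℕ} (σ : Cfg (n + 1)) : code (tr 1 σ) = rotN n (code σ) := by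
  rw [code_snoc (tr 1 σ)]
  unfold rotN
  rw [code_succ σ]
  have h0 := (σ 0).isLt
  have e1 : ((σ 0 : ℕ) + 4 * code (fun j : Fin n => σ j.succ)) / 4 =
      code (fun j : Fin n => σ j.succ) := by omega
  have e2 : ((σ 0 : ℕ) + 4 * code (fun j : Fin n => σ j.succ)) % 4 = (σ 0 : ℕ) := by omega
  rw [e1, e2]
  have e3 : (fun j : Fin n => tr 1 σ j.castSucc) = fun j : Fin n => σ j.succ := by
    funext j
    show σ (j.castSucc + 1) = σ j.succ
    rw [Fin.coeSucc_eq_succ]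
  have e4 : tr 1 σ (Fin.last n) = σ 0 := by
    show σ (Fin.last n + 1) = σ 0
    rw [Fin.last_add_one]
  rw [e3, e4]

theorem code_tr {n : ℕ} (σ : Cfg (n + 1)) (k : Fin (n + 1)) :
    code (tr k σ) = (rotN n)^[(k : ℕ)] (code σ) := by
  induction k using Fin.induction generalizing σ with
  | zero => rw [tr_zero]; rfl
  | succ i ih =>
    have : i.succ = i.castSucc + 1 := (Fin.coeSucc_eq_succ (a := i)).symm
    rw [this, ← tr_tr, ih, code_tr_one]
    rw [← this, Fin.val_succ, Function.iterate_succ_apply]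
    rfl

noncomputable section

/-- scan of the rotations: `k` steps left, current rotated code `x`, count of returns -/
def scan (n c : ℕ) (k : ℕ) : ℕ → ℕ → ℕ → ℕ :=
  Nat.rec (motive := fun _ => ℕ → ℕ → ℕ → ℕ) (fun _ cnt _ => cnt)
    (fun _ ih x cnt _ =>
      Bool.rec (motive := fun _ => ℕ) 0
        (force (rotN n x) fun y =>
          Bool.rec (motive := fun _ => ℕ) (ih y cnt 0) (ih y (Nat.add cnt 1) 0) (Nat.beq x c))
        (Nat.ble c x)) k

end

/-- specification of `scan` as a plain recursion -/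
def scanS (n c : ℕ) : ℕ → ℕ → ℕ → ℕ
  | 0, _, cnt => cnt
  | k + 1, x, cnt => if c ≤ x then (scanS n c k (rotN n x) (if x = c then cnt + 1 else cnt)) else 0

theorem scan_eq (n c k : ℕ) : ∀ x cnt z, scan n c k x cnt z = scanS n c k x cnt := by
  induction k with
  | zero => intro x cnt z; rfl
  | succ k ih =>
    intro x cnt z
    have e : scan n c (k + 1) x cnt z = Bool.rec (motive := fun _ => ℕ) 0
        (Bool.rec (motive := fun _ => ℕ) (scan n c k (rotN n x) cnt 0)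
          (scan n c k (rotN n x) (cnt + 1) 0) (Nat.beq x c)) (Nat.ble c x) := rfl
    rw [e, scanS]
    by_cases h : c ≤ x
    · have h1 : Nat.ble c x = true := Nat.ble_eq.mpr h
      rw [h1, if_pos h]
      show Bool.rec (motive := fun _ => ℕ) (scan n c k (rotN n x) cnt 0)
          (scan n c k (rotN n x) (cnt + 1) 0) (Nat.beq x c) = _
      by_cases h2 : x = c
      · have h3 : Nat.beq x c = true := by rw [h2]; exact Nat.beq_refl c
        rw [h3, if_pos h2]
        exact ih _ _ _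
      · have h3 : Nat.beq x c = false := by
          cases hh : Nat.beq x c with
          | false => rfl
          | true => exact absurd (Nat.eq_of_beq_eq_true hh) h2
        rw [h3, if_neg h2]
        exact ih _ _ _
    · have h1 : Nat.ble c x = false := by
        cases hh : Nat.ble c x with
        | false => rfl
        | true => exact absurd (Nat.ble_eq.mp hh) h
      rw [h1, if_neg h]

theorem scanS_spec (n c : ℕ) (k : ℕ) : ∀ x cnt : ℕ, 0 < scanS n c k x cnt →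
    (∀ i < k, c ≤ (rotN n)^[i] x) ∧
      scanS n c k x cnt = cnt + ((Finset.range k).filter fun i => (rotN n)^[i] x = c).card := by
  induction k with
  | zero =>
    intro x cnt h
    refine ⟨fun i hi => absurd hi (Nat.not_lt_zero i), ?_⟩
    simp [scanS]
  | succ k ih =>
    intro x cnt h
    rw [scanS] at h ⊢
    by_cases hcx : c ≤ x
    · rw [if_pos hcx] at h ⊢
      obtain ⟨h1, h2⟩ := ih _ _ h
      refine ⟨?_, ?_⟩
      · intro i hi
        rcases i with _ | i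
        · exact hcx
        · rw [Function.iterate_succ_apply]
          exact h1 i (by omega)
      · rw [h2]
        have hcard : ((Finset.range (k + 1)).filter fun i => (rotN n)^[i] x = c).card =
            (if x = c then 1 else 0) +
            ((Finset.range k).filter fun i => (rotN n)^[i] (rotN n x) = c).card := by
          simp only [Finset.card_filter]
          rw [Finset.sum_range_succ', add_comm]
          rfl
        rw [hcard]
        split_ifs <;> omega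
    · rw [if_neg hcx] at h
      exact absurd h (lt_irrefl 0)

theorem scan_canon {n : ℕ} (σ : Cfg (n + 1)) (h : 0 < scan n (code σ) (n + 1) (code σ) 0 0) :
    canon σ ∧ stab σ = scan n (code σ) (n + 1) (code σ) 0 0 := by
  rw [scan_eq] at h ⊢
  obtain ⟨h1, h2⟩ := scanS_spec n (code σ) (n + 1) (code σ) 0 h
  refine ⟨fun k => ?_, ?_⟩
  · rw [code_tr]
    exact h1 k k.isLt
  · rw [h2, zero_add]
    unfold stab
    refine Finset.card_bij (fun k _ => (k : ℕ)) ?_ ?_ ?_
    · intro k hk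
      rw [Finset.mem_filter] at hk ⊢
      refine ⟨Finset.mem_range.mpr k.isLt, ?_⟩
      rw [← code_tr, hk.2]
    · intro a _ b _ hab
      exact Fin.ext hab
    · intro i hi
      rw [Finset.mem_filter, Finset.mem_range] at hi
      refine ⟨⟨i, hi.1⟩, ?_, rfl⟩
      rw [Finset.mem_filter]
      refine ⟨Finset.mem_univ _, ?_⟩
      apply code_injective
      rw [code_tr]
      exact hi.2

/-! ### digits -/

noncomputable section

/-- validity and digit sum: returns `0` if invalid, else `dsum + 1` (accumulated in `s`) -/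
def digs (L : ℕ) : ℕ → ℕ → ℕ :=
  Nat.rec (motive := fun _ => ℕ → ℕ → ℕ)
    (fun c s => Bool.rec (motive := fun _ => ℕ) 0 (Nat.add s 1) (Nat.beq c 0))
    (fun _ ih c s => force (Nat.mod c 4) fun d =>
      Bool.rec (motive := fun _ => ℕ) 0 (force (Nat.div c 4) fun c' => ih c' (Nat.add s d))
        (Nat.ble d 2)) L

end

theorem dec_succ (L c : ℕ) (j : Fin L) : dec (L + 1) c j.succ = dec L (c / 4) j := by
  unfold dec
  apply Fin.ext
  show (c / 4 ^ ((j.succ : Fin (L + 1)) : ℕ) % 4) % 3 = (c / 4 / 4 ^ (j : ℕ) % 4) % 3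
  rw [Fin.val_succ, pow_succ', ← Nat.div_div_eq_div_mul]

theorem dsum_succ {L : ℕ} (σ : Cfg (L + 1)) :
    dsum σ = (σ 0 : ℕ) + dsum (fun j : Fin L => σ j.succ) := by
  unfold dsum
  rw [Fin.sum_univ_succ]

theorem digs_spec (L : ℕ) : ∀ c s : ℕ, digs L c s ≠ 0 →
    code (dec L c) = c ∧ digs L c s = s + dsum (dec L c) + 1 := by
  induction L with
  | zero =>
    intro c s h
    have e : digs 0 c s = Bool.rec (motive := fun _ => ℕ) 0 (s + 1) (Nat.beq c 0) := rfl
    rw [e] at h ⊢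
    by_cases hc : c = 0
    · subst hc
      refine ⟨by simp [code], ?_⟩
      show s + 1 = _
      simp [dsum]
    · have h3 : Nat.beq c 0 = false := by
        cases hh : Nat.beq c 0 with
        | false => rfl
        | true => exact absurd (Nat.eq_of_beq_eq_true hh) hc
      rw [h3] at h
      exact absurd rfl h
  | succ L ih =>
    intro c s h
    have e : digs (L + 1) c s = Bool.rec (motive := fun _ => ℕ) 0 (digs L (c / 4) (s + c % 4))
        (Nat.ble (c % 4) 2) := rfl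
    rw [e] at h ⊢
    by_cases hd : c % 4 ≤ 2
    · have h1 : Nat.ble (c % 4) 2 = true := Nat.ble_eq.mpr hd
      rw [h1] at h ⊢
      obtain ⟨h2, h3⟩ := ih _ _ h
      have h0 : ((dec (L + 1) c 0 : Fin 3) : ℕ) = c % 4 := by
        show (c / 4 ^ ((0 : Fin (L + 1)) : ℕ) % 4) % 3 = _
        rw [Fin.val_zero, pow_zero, Nat.div_one]
        omega
      have h4 : (fun j : Fin L => dec (L + 1) c j.succ) = dec L (c / 4) := by
        funext j
        exact dec_succ L c j
      constructor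
      · rw [code_succ, h0, h4, h2]
        omega
      · show digs L (c / 4) (s + c % 4) = _
        rw [h3, dsum_succ, h0, h4]
        omega
    · have h1 : Nat.ble (c % 4) 2 = false := by
        cases hh : Nat.ble (c % 4) 2 with
        | false => rfl
        | true => exact absurd (Nat.ble_eq.mp hh) hd
      rw [h1] at h
      exact absurd rfl h

noncomputable section

/-- per-element check; `p` selects the class: 0: `M = 0`; 1: even, `M > 0`; 2: odd, `M > 0` -/
def elt (n p : ℕ) (x : ℕ × ℕ) : Bool :=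
  force x.1 fun c => force (digs (n + 1) c 0) fun d => force (scan n c (n + 1) c 0 0) fun s =>
    Bool.and (Nat.ble 1 d) (Bool.and (Nat.ble 1 s)
      (Nat.rec (motive := fun _ => Bool)
        (Bool.and (Nat.beq d (n + 2)) (Nat.beq (Nat.mul x.2 s) (n + 1)))
        (fun q _ => Bool.and (Nat.ble d (n + 1)) (Bool.and
          (Nat.beq (Nat.mul x.2 s) (Nat.mul (n + 1) 2)) (Nat.beq (Nat.mod (Nat.add d q) 2) 1)))
        p))

end

theorem beq_iff (a b : ℕ) : Nat.beq a b = true ↔ a = b :=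
  ⟨Nat.eq_of_beq_eq_true, fun h => by rw [h]; exact Nat.beq_refl b⟩

theorem band_iff (a b : Bool) : Bool.and a b = true ↔ a = true ∧ b = true := by
  cases a <;> cases b <;> simp

structure EltData (n p : ℕ) (x : ℕ × ℕ) : Prop where
  cd : code (dec (n + 1) x.1) = x.1
  wt : wtok (n + 1) x = true
  cl : (p = 0 ∧ dsum (dec (n + 1) x.1) = n + 1) ∨
    (∃ q, p = q + 1 ∧ dsum (dec (n + 1) x.1) < n + 1 ∧ (dsum (dec (n + 1) x.1) + q) % 2 = 0)

theorem elt_spec {n p : ℕ} {x : ℕ × ℕ} (h : elt n p x = true) : EltData n p x := by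
  have e : elt n p x = Bool.and (Nat.ble 1 (digs (n + 1) x.1 0))
      (Bool.and (Nat.ble 1 (scan n x.1 (n + 1) x.1 0 0))
      (Nat.rec (motive := fun _ => Bool)
        (Bool.and (Nat.beq (digs (n + 1) x.1 0) (n + 2))
          (Nat.beq (x.2 * (scan n x.1 (n + 1) x.1 0 0)) (n + 1)))
        (fun q _ => Bool.and (Nat.ble (digs (n + 1) x.1 0) (n + 1)) (Bool.and
          (Nat.beq (x.2 * (scan n x.1 (n + 1) x.1 0 0)) ((n + 1) * 2))
          (Nat.beq (((digs (n + 1) x.1 0) + q) % 2) 1)))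
        p)) := rfl
  rw [e, band_iff, band_iff, Nat.ble_eq, Nat.ble_eq] at h
  obtain ⟨h1, h2, h3⟩ := h
  obtain ⟨h4, h5⟩ := digs_spec (n + 1) x.1 0 (by omega)
  rw [zero_add] at h5
  set σ := dec (n + 1) x.1 with hσ
  have h2' : 0 < scan n (code σ) (n + 1) (code σ) 0 0 := by rw [h4]; exact h2
  obtain ⟨h6, h7⟩ := scan_canon σ h2'
  rw [h4] at h7
  rcases p with _ | q
  · have h3' : Bool.and (Nat.beq (digs (n + 1) x.1 0) (n + 2))
          (Nat.beq (x.2 * (scan n x.1 (n + 1) x.1 0 0)) (n + 1)) = true := h3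
    rw [band_iff, beq_iff, beq_iff, h5] at h3'
    have hd : dsum σ = n + 1 := by omega
    refine ⟨h4, ?_, Or.inl ⟨rfl, hd⟩⟩
    unfold wtok
    rw [Bool.and_eq_true]
    refine ⟨decide_eq_true h6, decide_eq_true ?_⟩
    rw [← hσ, h7, h3'.2, hd, if_neg (lt_irrefl _), if_pos rfl, mul_one]
  · have h3' : Bool.and (Nat.ble (digs (n + 1) x.1 0) (n + 1)) (Bool.and
          (Nat.beq (x.2 * (scan n x.1 (n + 1) x.1 0 0)) ((n + 1) * 2))
          (Nat.beq (((digs (n + 1) x.1 0) + q) % 2) 1)) = true := h3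
    rw [band_iff, band_iff, Nat.ble_eq, beq_iff, beq_iff, h5] at h3'
    have hd : dsum σ < n + 1 := by omega
    have hpar : (dsum σ + q) % 2 = 0 := by
      have := h3'.2.2
      generalize dsum σ = D at *
      omega
    refine ⟨h4, ?_, Or.inr ⟨q, rfl, hd, hpar⟩⟩
    unfold wtok
    rw [Bool.and_eq_true]
    refine ⟨decide_eq_true h6, decide_eq_true ?_⟩
    rw [← hσ, h7, h3'.2.1, if_pos hd]

theorem chk_of_elt {n : ℕ} (hev : (n + 1) % 2 = 0) {J0 J1 J2 : List (ℕ × ℕ)}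
    (h0 : J0.all (elt n 0) = true)
    (h1 : J1.all (elt n 1) = true) (h2 : J2.all (elt n 2) = true)
    (hs : ((J0 ++ (J1 ++ J2)).map Prod.snd).sum = 3 ^ (n + 1))
    (hnd : ((J0 ++ (J1 ++ J2)).map Prod.fst).Nodup) : ChkData n J0 J1 J2 := by
  rw [List.all_eq_true] at h0 h1 h2
  have hall : ∀ x ∈ J0 ++ (J1 ++ J2), code (dec (n + 1) x.1) = x.1 ∧ wtok (n + 1) x = true := by
    intro x hx
    rw [List.mem_append, List.mem_append] at hx
    rcases hx with hx | hx | hx
    · exact ⟨(elt_spec (h0 x hx)).cd, (elt_spec (h0 x hx)).wt⟩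
    · exact ⟨(elt_spec (h1 x hx)).cd, (elt_spec (h1 x hx)).wt⟩
    · exact ⟨(elt_spec (h2 x hx)).cd, (elt_spec (h2 x hx)).wt⟩
  have c0 : ∀ x ∈ J0, dsum (dec (n + 1) x.1) = n + 1 := by
    intro x hx
    rcases (elt_spec (h0 x hx)).cl with h | ⟨q, h, _⟩
    · exact h.2
    · exact absurd h (by omega)
  have c1 : ∀ x ∈ J1, dsum (dec (n + 1) x.1) < n + 1 ∧ dsum (dec (n + 1) x.1) % 2 = 0 := by
    intro x hx
    rcases (elt_spec (h1 x hx)).cl with h | ⟨q, h, h3, h4⟩
    · exact absurd h.1 (by omega)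
    · obtain rfl : q = 0 := by omega
      exact ⟨h3, by simpa using h4⟩
  have c2 : ∀ x ∈ J2, dsum (dec (n + 1) x.1) < n + 1 ∧ dsum (dec (n + 1) x.1) % 2 = 1 := by
    intro x hx
    rcases (elt_spec (h2 x hx)).cl with h | ⟨q, h, h3, h4⟩
    · exact absurd h.1 (by omega)
    · obtain rfl : q = 1 := by omega
      exact ⟨h3, by omega⟩
  refine ⟨?_, fun x hx => (hall x hx).2, hs, hnd, ?_, fun x hx => (c2 x hx).2, ?_⟩
  · unfold okJ
    rw [List.all_eq_true]
    exact fun x hx => decide_eq_true (hall x hx).1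
  · intro x hx
    rw [List.mem_append] at hx
    rcases hx with hx | hx
    · rw [c0 x hx]; exact hev
    · exact (c1 x hx).2
  · intro x hx
    rw [List.mem_append] at hx
    rcases hx with hx | hx
    · exact (c1 x hx).1.ne
    · exact (c2 x hx).1.ne

/-! ### duplicate check with a bit mask -/

noncomputable section

def nodB (l : List (ℕ × ℕ)) : ℕ → Bool :=
  List.rec (motive := fun _ => ℕ → Bool) (fun _ => true)
    (fun x _ ih m => force m fun m => force x.1 fun c =>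
      Bool.and (Nat.beq (Nat.land (Nat.shiftRight m c) 1) 0) (ih (Nat.lor m (Nat.pow 2 c)))) l

end

theorem nodB_spec (l : List (ℕ × ℕ)) : ∀ m : ℕ, nodB l m = true →
    (l.map Prod.fst).Nodup ∧ ∀ c ∈ l.map Prod.fst, m.testBit c = false := by
  induction l with
  | nil => intro m _; exact ⟨List.nodup_nil, fun c hc => absurd hc List.not_mem_nil⟩
  | cons x l ih =>
    intro m h
    have e : nodB (x :: l) m = Bool.and (Nat.beq (Nat.land (Nat.shiftRight m x.1) 1) 0)
      (nodB l (m ||| 2 ^ x.1)) := rfl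
    rw [e, band_iff, beq_iff] at h
    obtain ⟨h1, h2⟩ := h
    obtain ⟨h3, h4⟩ := ih _ h2
    have hbit : m.testBit x.1 = false := by
      have h5 : Nat.land (Nat.shiftRight m x.1) 1 = (m >>> x.1) &&& 1 := rfl
      rw [h5, Nat.and_one_is_mod] at h1
      rw [Nat.testBit_eq_decide_div_mod_eq, ← Nat.shiftRight_eq_div_pow]
      simp [h1]
    have hor : ∀ c, (m ||| 2 ^ x.1).testBit c = false → m.testBit c = false ∧ c ≠ x.1 := by
      intro c hc
      rw [Nat.testBit_or, Bool.or_eq_false_iff] at hc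
      refine ⟨hc.1, fun h => ?_⟩
      rw [h, Nat.testBit_two_pow_self] at hc
      exact absurd hc.2 (by simp)
    rw [List.map_cons]
    refine ⟨List.nodup_cons.mpr ⟨fun hmem => ?_, h3⟩, ?_⟩
    · exact (hor _ (h4 _ hmem)).2 rfl
    · intro c hc
      rw [List.mem_cons] at hc
      rcases hc with rfl | hc
      · exact hbit
      · exact (hor _ (h4 _ hc)).1

end Crest.Agent.R347.Num
private theorem rz_6c84a537a1 : type_of% @_root_.Crest.Agent.R347.Num.scanS.eq_def := @_root_.Crest.Agent.R347.Num.scanS.eq_def -- L71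
private theorem rz_c6b75d12fd : type_of% @_root_.Crest.Agent.R347.Num.scanS.eq_1 := @_root_.Crest.Agent.R347.Num.scanS.eq_1 -- L71
end

-- ▼ part R347/NumFin
section

/-! General final bounds for the ring traces. -/

set_option autoImplicit false

namespace Crest.Agent.R347.Num

open Matrix Crest.MathPhysics.SpinChain

/-- crude bound of the polynomial -/
def Qsum (r : ℕ) (us : List ℕ) : ℕ :=
  ∑ k ∈ Finset.range us.length, us.reverse.getD k 0 * r ^ k * (k + 1)

/-- spectral data of the ring matrix -/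
structure SpecData (n : ℕ) (tw : Bool) (c1 r : ℕ) : Prop where
  hn : 1 ≤ n
  hr : 0 < r
  spec : ∀ (μ : ℝ) (v : Cfg (n + 1) → ℝ), v ≠ 0 →
    ((Gmat 1 c1 (ringBonds (n + 1) tw) []).map (Int.cast : ℤ → ℝ)) *ᵥ v = μ • v →
      -(2 * (r : ℝ)) ≤ μ ∧ μ ≤ 2 * r

theorem specData_of_checks {n : ℕ} (tw : Bool) (c1 r A R1 it R2 : ℕ) (bs : List Bd) (hn : 1 ≤ n)
    (hr : 0 < r)
    (hbs : ((ringBonds (n + 1) tw).map fun b => b.un.toBd) = bs) (hA : A = 2 * (n + 1))
    (hlo : checkLo (n + 1) 1 A R1 it bs [] = true) (hhi : checkHi (n + 1) 1 R2 bs [] = true)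
    (h1 : R1 + c1 ≤ 2 * r + A) (h2 : R2 ≤ 2 * r + c1) : SpecData n tw c1 r := by
  refine ⟨hn, hr, fun μ v hv hG => ?_⟩
  subst hbs
  have hbl := ringBonds_ne (L := n + 1) (by omega) tw
  have a1 := checkHi_spec 1 c1 R2 (ringBonds (n + 1) tw) [] hbl hhi μ v hv hG
  have a2 := checkLo_spec 1 c1 A R1 it (ringBonds (n + 1) tw) [] hbl (by
    intro σ
    have := Dn_le 1 (ringBonds (n + 1) tw) [] σ
    have hlen : (ringBonds (n + 1) tw).length = n + 1 := by simp [ringBonds]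
    rw [hlen] at this
    simp at this
    omega) hlo μ v hv hG
  have h1' : (R1 : ℝ) + c1 ≤ 2 * r + A := by exact_mod_cast h1
  have h2' : (R2 : ℝ) ≤ 2 * r + c1 := by exact_mod_cast h2
  constructor <;> linarith

theorem Gm_symm {n : ℕ} (hn : 1 ≤ n) (tw : Bool) (c1 : ℕ) :
    (Gmat 1 c1 (ringBonds (n + 1) tw) [])ᵀ = Gmat 1 c1 (ringBonds (n + 1) tw) [] :=
  Gmat_symm 1 c1 _ [] (ringBonds_ne (by omega) tw)

theorem Qm_le {n : ℕ} {tw : Bool} {c1 r : ℕ} (hsp : SpecData n tw c1 r) (us : List ℕ)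
    (σ τ : Cfg (n + 1)) : |Qm n tw c1 (r ^ 2) us σ τ| ≤ Qsum r us := by
  refine entry_bound _ (Gm_symm hsp.hn tw c1) (r ^ 2) us (-(2 * (r : ℝ))) (2 * r) hsp.spec
    (Qsum r us) ?_ σ τ
  intro g h1 h2
  refine (clv_abs_le r hsp.hr us g (abs_le.mpr ⟨h1, h2⟩)).trans (le_of_eq ?_)
  unfold Qsum
  push_cast
  rfl

theorem Zab_bound {n : ℕ} {tw : Bool} {c0 c1 r : ℕ} (hsp : SpecData n tw c1 r)
    (hc : c0 + c1 = n + 1) (us : List ℕ) (hne : us ≠ []) (num acc pm : ℤ)
    (hnum : num = 12 * r) (hgo : (ExpApprox.go r num 1 0 1 (alt false us.reverse)).2.2 = (acc, pm))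
    (b : Fin 4) (hU : (piK (fun _ : Fin (n + 1) => rotC b))ᴴ *
      piK (fun _ : Fin (n + 1) => rotC b) = 1) (T : ℤ)
    (hT : (trace (piK (fun _ : Fin (n + 1) => rotC b) *
      (Qm n tw c1 (r ^ 2) us).map (Int.cast : ℤ → ℂ))).re = T) :
    |(pm : ℝ) * Real.exp (-(num : ℝ)) * (Real.exp (-(6 * c0 : ℝ)) *
      Zab (if tw then 3 else 0) b 6 (n + 1)) - T| ≤ 3 ^ (n + 1) * ((acc : ℝ) / num) := by
  have hnum0 : 0 < num := by
    rw [hnum]
    have := hsp.hr
    positivity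
  have happ : ∀ g : ℝ, -(2 * (r : ℝ)) ≤ g → g ≤ 2 * r →
      |((pm : ℝ) * Real.exp (-(num : ℝ))) * Real.exp (6 * g) - clv g (r ^ 2) us| ≤
        (acc : ℝ) / num := by
    intro g h1 h2
    have := exp_clv_approx r hsp.hr num 1 hnum0 one_pos us hne hgo 6 (by
      rw [hnum]; push_cast; ring) g (abs_le.mpr ⟨h1, h2⟩)
    simpa using this
  have key := trace_poly_approx (Gmat 1 c1 (ringBonds (n + 1) tw) []) (Gm_symm hsp.hn tw c1)
    (piK (fun _ : Fin (n + 1) => rotC b)) hU (r ^ 2) us (-(2 * (r : ℝ))) (2 * r) hsp.spec 6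
    ((pm : ℝ) * Real.exp (-(num : ℝ))) ((acc : ℝ) / num) happ
  have h3 := Zab_ring hsp.hn tw b c0 c1 hc 6
  have h4 : Real.exp (-(6 * c0 : ℝ)) * Zab (if tw then 3 else 0) b 6 (n + 1) =
      (trace (piK (fun _ : Fin (n + 1) => rotC b) *
        NormedSpace.exp (((6 : ℝ) : ℂ) • Gc n tw c1))).re := by
    rw [h3, ← mul_assoc, ← Real.exp_add, neg_add_cancel, Real.exp_zero, one_mul]
  rw [h4]
  have hcard : (Fintype.card (Cfg (n + 1)) : ℝ) = 3 ^ (n + 1) := by
    simp
  rw [hcard] at key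
  rw [← hT]
  exact key

/-- interval arithmetic for the final step -/
theorem interval {X y lo hi g1 g2 pm v ε : ℝ} (hX1 : lo ≤ X) (hX2 : X ≤ hi) (hy1 : g1 ≤ y)
    (hy2 : y ≤ g2) (hg : 0 < g1) (hpm : 0 < pm)
    (a1 : pm * (v - ε) ≤ lo * g1) (a2 : pm * (v - ε) ≤ lo * g2)
    (a3 : hi * g1 ≤ pm * (v + ε)) (a4 : hi * g2 ≤ pm * (v + ε)) : |X * y / pm - v| ≤ ε := by
  have hy0 : 0 < y := lt_of_lt_of_le hg hy1
  have b1 : pm * (v - ε) ≤ X * y := by
    refine le_trans ?_ (mul_le_mul_of_nonneg_right hX1 hy0.le)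
    rcases le_total 0 lo with h | h
    · exact a1.trans (mul_le_mul_of_nonneg_left hy1 h)
    · exact a2.trans (mul_le_mul_of_nonpos_left hy2 h)
  have b2 : X * y ≤ pm * (v + ε) := by
    refine le_trans (mul_le_mul_of_nonneg_right hX2 hy0.le) ?_
    rcases le_total 0 hi with h | h
    · exact (mul_le_mul_of_nonneg_left hy2 h).trans a4
    · exact (mul_le_mul_of_nonpos_left hy1 h).trans a3
  rw [abs_le]
  constructor
  · have : v - ε ≤ X * y / pm := by rw [le_div_iff₀ hpm]; linarith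
    linarith
  · have : X * y / pm ≤ v + ε := by rw [div_le_iff₀ hpm]; linarith
    linarith

theorem nZ_bound {n : ℕ} {tw : Bool} {c0 c1 r : ℕ} (hsp : SpecData n tw c1 r)
    (hc : c0 + c1 = n + 1) (us : List ℕ) (hne : us ≠ []) (num acc pm : ℤ)
    (hnum : num = 12 * r) (hgo : (ExpApprox.go r num 1 0 1 (alt false us.reverse)).2.2 = (acc, pm))
    (b : Fin 4) (hU : (piK (fun _ : Fin (n + 1) => rotC b))ᴴ *
      piK (fun _ : Fin (n + 1) => rotC b) = 1) (T : ℤ)
    (hT : (trace (piK (fun _ : Fin (n + 1) => rotC b) *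
      (Qm n tw c1 (r ^ 2) us).map (Int.cast : ℤ → ℂ))).re = T)
    (γ g1 g2 : ℝ) (hγ : γ = 6 * e0 * (n + 1) + 6 * c0 + num) (hg1 : g1 ≤ Real.exp γ)
    (hg2 : Real.exp γ ≤ g2) (hg : 0 < g1) (hpm : (0 : ℝ) < pm) (Tl Tu : ℤ) (hTl : Tl ≤ T)
    (hTu : T ≤ Tu) (E v ε : ℝ) (hE : 3 ^ (n + 1) * ((acc : ℝ) / num) ≤ E)
    (a1 : pm * (v - ε) ≤ (Tl - E) * g1) (a2 : pm * (v - ε) ≤ (Tl - E) * g2)
    (a3 : (Tu + E) * g1 ≤ pm * (v + ε)) (a4 : (Tu + E) * g2 ≤ pm * (v + ε)) :
    |nZ (if tw then 3 else 0) b (n + 1) - v| ≤ ε := by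
  have key := Zab_bound hsp hc us hne num acc pm hnum hgo b hU T hT
  set Z := Zab (if tw then 3 else 0) b 6 (n + 1) with hZ
  set X := (pm : ℝ) * Real.exp (-(num : ℝ)) * (Real.exp (-(6 * c0 : ℝ)) * Z) with hX
  have hnZ : nZ (if tw then 3 else 0) b (n + 1) = X * Real.exp γ / pm := by
    unfold nZ
    rw [← hZ, hX, hγ]
    have e1 : Real.exp (6 * e0 * (n + 1) + 6 * c0 + num) =
        Real.exp (6 * e0 * (n + 1)) * Real.exp (6 * c0) * Real.exp num := by
      rw [Real.exp_add, Real.exp_add]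
    have e2 : Real.exp (-(num : ℝ)) * Real.exp num = 1 := by
      rw [← Real.exp_add, neg_add_cancel, Real.exp_zero]
    have e3 : Real.exp (-(6 * c0 : ℝ)) * Real.exp (6 * c0) = 1 := by
      rw [← Real.exp_add, neg_add_cancel, Real.exp_zero]
    rw [e1, eq_div_iff hpm.ne']
    push_cast
    linear_combination (-(pm : ℝ) * Z * Real.exp (6 * e0 * (n + 1)) *
      (Real.exp (-(6 * c0 : ℝ)) * Real.exp (6 * c0))) * e2 -
      (pm : ℝ) * Z * Real.exp (6 * e0 * (n + 1)) * e3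
  rw [hnZ]
  have hTl' : (Tl : ℝ) ≤ T := by exact_mod_cast hTl
  have hTu' : (T : ℝ) ≤ Tu := by exact_mod_cast hTu
  rw [abs_le] at key
  exact interval (lo := Tl - E) (hi := Tu + E) (by linarith) (by linarith) hg1 hg2 hg hpm
    a1 a2 a3 a4

/-- rational bounds for the exponential through `exp (x / 16) ^ 16`. -/
theorem exp_bounds (x s1 s2 g1 g2 : ℝ) (k : ℕ) (hk : 0 < k) (hx : |x / 16| ≤ 1)
    (h1 : s1 ≤ (∑ m ∈ Finset.range k, (x / 16) ^ m / m.factorial) -
      |x / 16| ^ k * (k.succ / (k.factorial * k)))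
    (h2 : (∑ m ∈ Finset.range k, (x / 16) ^ m / m.factorial) +
      |x / 16| ^ k * (k.succ / (k.factorial * k)) ≤ s2) (hs1 : 0 ≤ s1)
    (hg1 : g1 ≤ s1 ^ 16) (hg2 : s2 ^ 16 ≤ g2) : g1 ≤ Real.exp x ∧ Real.exp x ≤ g2 := by
  have hb := abs_le.mp (Real.exp_bound hx hk)
  have e : Real.exp x = Real.exp (x / 16) ^ 16 := by
    rw [← Real.exp_nat_mul]
    congr 1
    push_cast
    ring
  rw [e]
  have h3 : s1 ≤ Real.exp (x / 16) := by linarith [hb.1]
  have h4 : Real.exp (x / 16) ≤ s2 := by linarith [hb.2]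
  constructor
  · exact hg1.trans (pow_le_pow_left₀ hs1 h3 16)
  · exact (pow_le_pow_left₀ (Real.exp_pos _).le h4 16).trans hg2

end Crest.Agent.R347.Num
end

-- ▼ part R347/NumAsm

/-! Assembling the chunks of the kernel runs. -/

set_option autoImplicit false

namespace Crest.Agent.R347.Num

open Matrix Crest.MathPhysics.SpinChain

/-- certified interval for one chunk -/
def CB {L : ℕ} (Q : Matrix (Cfg L) (Cfg L) ℤ) (h : Cfg L → Cfg L) (w : ℕ) (J : List (ℕ × ℕ))
    (R : ℕ) : Prop :=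
  sgnd w R ≤ wdiag Q h (decJ L J) ∧ wdiag Q h (decJ L J) ≤ sgnd w R + 1

theorem chunks_bound {L : ℕ} {Q : Matrix (Cfg L) (Cfg L) ℤ} {h : Cfg L → Cfg L} {w : ℕ}
    {chs : List (List (ℕ × ℕ))} {Rs : List ℕ} (hF : List.Forall₂ (CB Q h w) chs Rs) :
    (Rs.map (sgnd w)).sum ≤ wdiag Q h (decJ L chs.flatten) ∧
      wdiag Q h (decJ L chs.flatten) ≤ (Rs.map (sgnd w)).sum + chs.length := by
  induction hF with
  | nil =>
    have : wdiag Q h (decJ L ([] : List (List (ℕ × ℕ))).flatten) = 0 := rfl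
    rw [this]
    simp
  | @cons J R chs Rs h1 h2 ih =>
    rw [List.flatten_cons, decJ_append, wdiag_append, List.map_cons, List.sum_cons,
      List.length_cons]
    obtain ⟨a1, a2⟩ := h1
    obtain ⟨b1, b2⟩ := ih
    push_cast
    constructor <;> linarith

theorem sub0 {J : List (ℕ × ℕ)} {c0 c1 c2 : List (List (ℕ × ℕ))} (h : J ∈ c0) :
    J.Sublist (c0.flatten ++ (c1.flatten ++ c2.flatten)) :=
  (List.sublist_flatten_of_mem h).trans (List.sublist_append_left _ _)

theorem sub1 {J : List (ℕ × ℕ)} {c0 c1 c2 : List (List (ℕ × ℕ))} (h : J ∈ c1) :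
    J.Sublist (c0.flatten ++ (c1.flatten ++ c2.flatten)) :=
  ((List.sublist_flatten_of_mem h).trans (List.sublist_append_left _ _)).trans
    (List.sublist_append_right _ _)

theorem sub2 {J : List (ℕ × ℕ)} {c0 c1 c2 : List (List (ℕ × ℕ))} (h : J ∈ c2) :
    J.Sublist (c0.flatten ++ (c1.flatten ++ c2.flatten)) :=
  ((List.sublist_flatten_of_mem h).trans (List.sublist_append_right _ _)).trans
    (List.sublist_append_right _ _)

section
variable {n : ℕ} {J0 J1 J2 : List (ℕ × ℕ)}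

theorem ok_sub (hc : ChkData n J0 J1 J2) {J : List (ℕ × ℕ)}
    (hs : J.Sublist (J0 ++ (J1 ++ J2))) : okJ (n + 1) J = true := by
  have h := hc.ok
  unfold okJ at h ⊢
  rw [List.all_eq_true] at h ⊢
  exact fun x hx => h x (hs.subset hx)

theorem nd_sub (hc : ChkData n J0 J1 J2) {J : List (ℕ × ℕ)}
    (hs : J.Sublist (J0 ++ (J1 ++ J2))) : (J.map Prod.fst).Nodup :=
  hc.nd.sublist (hs.map _)

/-- one chunk, trace only -/
theorem chunk1 (hc : ChkData n J0 J1 J2) {tw : Bool} {c1 r : ℕ} (hsp : SpecData n tw c1 r)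
    (us : List ℕ) (bs : List Bd) (w : ℕ) (hbs : (ringBonds (n + 1) tw).map Bond.toBd = bs)
    (hw : 1 ≤ w) (ρ : ℕ) (hρ : r ^ 2 = ρ) (hC : 2 * (n + 1) + 2 * (n + 1) + r ^ 2 ≤ 64)
    {J : List (ℕ × ℕ)} (hsub : J.Sublist (J0 ++ (J1 ++ J2))) (hJ0 : J ≠ [])
    (hs : 2 * ((J.map Prod.snd).sum * Qsum r us) < 2 ^ w) (K K1 R : ℕ)
    (hK : w * J.length = K) (hK1 : w * (J.length - 1) = K1)
    (hrun : run1 1 ρ c1 64 w K K1 bs [] J us = R) : CB (Qm n tw c1 (r ^ 2) us) id w J R := by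
  subst hρ hK hK1
  exact run1_spec hsp.hn tw c1 r 64 w us J (Qsum r us) bs hbs hJ0 (ok_sub hc hsub)
    (nd_sub hc hsub) hw (fun σ τ => Qm_le hsp us σ τ) hs hC R hrun

/-- one chunk, trace and flipped trace -/
theorem chunk2 (hc : ChkData n J0 J1 J2) {tw : Bool} {c1 r : ℕ} (hsp : SpecData n tw c1 r)
    (us : List ℕ) (bs : List Bd) (w : ℕ) (hbs : (ringBonds (n + 1) tw).map Bond.toBd = bs)
    (hw : 1 ≤ w) (ρ : ℕ) (hρ : r ^ 2 = ρ) (hC : 2 * (n + 1) + 2 * (n + 1) + r ^ 2 ≤ 64)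
    {J : List (ℕ × ℕ)} (hsub : J.Sublist (J0 ++ (J1 ++ J2))) (hJ0 : J ≠ [])
    (hs : 2 * ((J.map Prod.snd).sum * Qsum r us) < 2 ^ w) (K K1 R R' T : ℕ)
    (hK : w * J.length = K) (hK1 : w * (J.length - 1) = K1)
    (hT : T = ∑ j : Fin (n + 1), 2 * 4 ^ (j : ℕ))
    (hrun : run2 1 ρ c1 64 w K K1 T bs [] J us = (R, R')) :
    CB (Qm n tw c1 (r ^ 2) us) id w J R ∧ CB (Qm n tw c1 (r ^ 2) us) fl w J R' := by
  subst hρ hK hK1
  exact run2_spec hsp.hn tw c1 r 64 w us J (Qsum r us) bs hbs hJ0 (ok_sub hc hsub)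
    (nd_sub hc hsub) hw (fun σ τ => Qm_le hsp us σ τ) hs hC R R' T hT hrun

end

section
variable {n : ℕ} {c0 c1 c2 : List (List (ℕ × ℕ))}
  (hc : ChkData n c0.flatten c1.flatten c2.flatten) (hn : 1 ≤ n) (tw : Bool) (cc ρ : ℕ)
  (us : List ℕ) (w : ℕ) {R0 R1 R2 : List ℕ}
  (h0 : List.Forall₂ (CB (Qm n tw cc ρ us) id w) c0 R0)
  (h1 : List.Forall₂ (CB (Qm n tw cc ρ us) id w) c1 R1)
  (h2 : List.Forall₂ (CB (Qm n tw cc ρ us) id w) c2 R2)

include hc hn h0 h1 h2

theorem diag_bounds (Tl Tu : ℤ)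
    (hl : Tl ≤ (R0.map (sgnd w)).sum + (R1.map (sgnd w)).sum + (R2.map (sgnd w)).sum)
    (hu : (R0.map (sgnd w)).sum + (R1.map (sgnd w)).sum + (R2.map (sgnd w)).sum +
      (c0.length + c1.length + c2.length) ≤ Tu) :
    Tl ≤ ∑ σ, Qm n tw cc ρ us σ σ ∧ ∑ σ, Qm n tw cc ρ us σ σ ≤ Tu := by
  rw [tot_diag hc tw cc ρ us hn]
  obtain ⟨a1, a2⟩ := chunks_bound h0
  obtain ⟨b1, b2⟩ := chunks_bound h1
  obtain ⟨d1, d2⟩ := chunks_bound h2
  constructor <;> linarith

theorem sign_bounds (Tl Tu : ℤ)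
    (hl : Tl ≤ (R0.map (sgnd w)).sum + (R1.map (sgnd w)).sum - (R2.map (sgnd w)).sum -
      c2.length)
    (hu : (R0.map (sgnd w)).sum + (R1.map (sgnd w)).sum - (R2.map (sgnd w)).sum +
      (c0.length + c1.length) ≤ Tu) :
    Tl ≤ ∑ σ, sg σ * Qm n tw cc ρ us σ σ ∧ ∑ σ, sg σ * Qm n tw cc ρ us σ σ ≤ Tu := by
  rw [tot_sign hc tw cc ρ us hn]
  obtain ⟨a1, a2⟩ := chunks_bound h0
  obtain ⟨b1, b2⟩ := chunks_bound h1
  obtain ⟨d1, d2⟩ := chunks_bound h2
  constructor <;> linarith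

omit h0 h1 h2 in
theorem flip_bounds {R0' : List ℕ} (h0' : List.Forall₂ (CB (Qm n tw cc ρ us) fl w) c0 R0')
    (Tl Tu : ℤ) (hl : Tl ≤ (R0'.map (sgnd w)).sum)
    (hu : (R0'.map (sgnd w)).sum + c0.length ≤ Tu) :
    Tl ≤ ∑ σ, Qm n tw cc ρ us (fl σ) σ ∧ ∑ σ, Qm n tw cc ρ us (fl σ) σ ≤ Tu := by
  rw [tot_flip hc tw cc ρ us hn]
  obtain ⟨a1, a2⟩ := chunks_bound h0'
  constructor <;> linarith

end

end Crest.Agent.R347.Num
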