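import Mathlib.Data.Nat.Basic

/-! Kernel evaluation engine: Clenshaw recursion for a sparse integer matrix acting on packed
vectors, memoised by the kernel cache.  Everything here is written with raw recursors. -/

set_option autoImplicit false

namespace Crest.Agent.R347.Num

noncomputable section

/-- call by value -/
def force {α : Type} (e : ℕ) (F : ℕ → α) : α :=
  Nat.rec (motive := fun _ => α) (F 0) (fun m _ => F m) (Nat.add e 1)


/-- A bond between sites with shifts `s1`, `s2` (twice the site index) and powers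
`p = 4 ^ site`; `tw` = twisted. -/
structure Bd where
  s1 : ℕ
  s2 : ℕ
  p1 : ℕ
  p2 : ℕ
  tw : Bool

/-- A field: shift of the site, and the three values. -/
structure Fd where
  s : ℕ
  t0 : ℕ
  t1 : ℕ
  t2 : ℕ

abbrev Row := (ℕ → ℕ) → ℕ

structure W where
  run : (ℕ → ℕ) → (ℕ → ℕ) → ℕ → ℕ

/-- `1 + (1 - a) (1 - b)` for digits `a b ≤ 2`. -/
def diagv (a b : ℕ) : ℕ :=
  Bool.rec (motive := fun _ => ℕ)
    (Bool.rec (motive := fun _ => ℕ) 1 0 (Nat.beq (Nat.add a b) 2))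
    (Bool.rec (motive := fun _ => ℕ) 2 1 (Nat.beq a 1))
    (Nat.beq a b)

def flipA {α : Type} (ok tw : Bool) (B c : ℕ) (acc : Row) (k : Row → α) : α :=
  Bool.rec (motive := fun _ => α) (k acc)
    (force c fun c =>
      Bool.rec (motive := fun _ => α) (k (fun f => Nat.add (f c) (acc f)))
        (k (fun f => Nat.add (Nat.sub B (f c)) (acc f))) tw) ok

def adj {α : Type} (B κ : ℕ) (k : ℕ → ℕ → Row → α) (bs : List Bd) : ℕ → ℕ → Row → α :=
  List.rec (motive := fun _ => ℕ → ℕ → Row → α)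
    (fun i D acc => k i D acc)
    (fun b _ ih i D acc =>
      force (Nat.land (Nat.shiftRight i b.s1) 3) fun a =>
      force (Nat.land (Nat.shiftRight i b.s2) 3) fun c =>
      force (Nat.add D (Nat.mul κ (diagv a c))) fun D' =>
      flipA (Bool.and (Nat.ble 1 a) (Nat.ble c 1)) b.tw B (Nat.add (Nat.sub i b.p1) b.p2) acc
        fun acc1 =>
      flipA (Bool.and (Nat.ble 1 c) (Nat.ble a 1)) b.tw B (Nat.sub (Nat.add i b.p1) b.p2) acc1
        fun acc2 =>
      ih i D' acc2) bs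

def tbl (t0 t1 t2 a : ℕ) : ℕ :=
  Nat.rec (motive := fun _ => ℕ) t0
    (fun m _ => Nat.rec (motive := fun _ => ℕ) t1 (fun _ _ => t2) m) a

def fld {α : Type} (k : ℕ → ℕ → α) (fs : List Fd) : ℕ → ℕ → α :=
  List.rec (motive := fun _ => ℕ → ℕ → α)
    (fun i D => k i D)
    (fun b _ ih i D =>
      force (Nat.land (Nat.shiftRight i b.s) 3) fun a =>
      force (Nat.add D (tbl b.t0 b.t1 b.t2 a)) fun D' => ih i D') fs

/-- the closure for one row of the Clenshaw recursion -/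
def finW (κ ρ c1 C mask : ℕ) (E : ℕ → ℕ) (i D : ℕ) (acc : Row) : W :=
  force (E i) fun e =>
  force (Nat.sub D c1) fun Dn =>
  force (Nat.sub c1 D) fun Dp =>
  Bool.rec (motive := fun _ => W)
    (Bool.rec (motive := fun _ => W)
      ⟨fun f1 f2 u => Nat.land (Nat.add (Nat.add (Nat.mul u e) (Nat.mul Dp (f1 i)))
        (Nat.sub C (Nat.add (Nat.mul κ (acc f1)) (Nat.mul ρ (f2 i))))) mask⟩
      ⟨fun f1 f2 u => Nat.land (Nat.add (Nat.mul u e)
        (Nat.sub C (Nat.add (Nat.mul κ (acc f1)) (Nat.add (Nat.mul Dn (f1 i))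
          (Nat.mul ρ (f2 i)))))) mask⟩
      (Nat.beq Dp 0))
    (Bool.rec (motive := fun _ => W)
      ⟨fun f1 f2 _ => Nat.land (Nat.add (Nat.mul Dp (f1 i))
        (Nat.sub C (Nat.add (Nat.mul κ (acc f1)) (Nat.mul ρ (f2 i))))) mask⟩
      ⟨fun f1 f2 _ => Nat.land
        (Nat.sub C (Nat.add (Nat.mul κ (acc f1)) (Nat.add (Nat.mul Dn (f1 i))
          (Nat.mul ρ (f2 i))))) mask⟩
      (Nat.beq Dp 0))
    (Nat.beq e 0)

/-- row closure of the code `i` -/
def rowW (κ ρ c1 B C mask : ℕ) (bs : List Bd) (fs : List Fd) (E : ℕ → ℕ) (i : ℕ) : W :=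
  fld (fun i D => adj B κ (finW κ ρ c1 C mask E) bs i D (fun _ => 0)) fs i 0

/-- the recursion over the coefficient list (highest first) -/
def go {α : Type} (row : ℕ → W) (fin : (ℕ → ℕ) → α) (us : List ℕ) :
    (ℕ → ℕ) → (ℕ → ℕ) → α :=
  List.rec (motive := fun _ => (ℕ → ℕ) → (ℕ → ℕ) → α) (fun f1 _ => fin f1)
    (fun u _ ih f1 f2 => ih (fun i => W.run (row i) f1 f2 u) f1) us

/-- lane selector: `2 ^ (w p)` at the `p`-th code of `J`; `q = 2 ^ w`. -/
def esel (q : ℕ) (J : List (ℕ × ℕ)) (i : ℕ) : ℕ :=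
  List.rec (motive := fun _ => ℕ → ℕ) (fun _ => 0)
    (fun j _ ih p => Bool.rec (motive := fun _ => ℕ) (ih (Nat.mul p q)) p (Nat.beq i j.1)) J 1

/-- weighted output sum `∑ wt_p q^(m-1-p) f (h c_p)` -/
def outS (q : ℕ) (h : ℕ → ℕ) (f : ℕ → ℕ) (J : List (ℕ × ℕ)) : ℕ → ℕ :=
  List.rec (motive := fun _ => ℕ → ℕ) (fun acc => acc)
    (fun j _ ih acc => force (h j.1) fun c =>
      ih (Nat.add (Nat.mul acc q) (Nat.mul j.2 (f c)))) J

/-- top lane -/
def outT (q K K1 : ℕ) (mask : ℕ) (h : ℕ → ℕ) (f : ℕ → ℕ) (J : List (ℕ × ℕ)) : ℕ :=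
  Nat.shiftRight (Nat.land (outS q h f J 0) mask) K1

/-- a whole run: `K = w * J.length`, `K1 = w * (J.length - 1)`. -/
def runA {α : Type} (κ ρ c1 Cn w K : ℕ) (bs : List Bd) (fs : List Fd) (J : List (ℕ × ℕ))
    (us : List ℕ) (fin : ℕ → ℕ → (ℕ → ℕ) → α) : α :=
  force (Nat.pow 2 w) fun q =>
  force (Nat.pow 2 K) fun B =>
  force (Nat.sub B 1) fun mask =>
  force (Nat.mul Cn B) fun C =>
  go (rowW κ ρ c1 B C mask bs fs (esel q J)) (fin q mask) us (fun _ => 0) (fun _ => 0)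

def run1 (κ ρ c1 Cn w K K1 : ℕ) (bs : List Bd) (fs : List Fd) (J : List (ℕ × ℕ))
    (us : List ℕ) : ℕ :=
  runA κ ρ c1 Cn w K bs fs J us fun q mask f => outT q K K1 mask (fun c => c) f J

/-- as `run1`, second component with the flipped row (`T = 2 (4^L - 1) / 3`) -/
def run2 (κ ρ c1 Cn w K K1 T : ℕ) (bs : List Bd) (fs : List Fd) (J : List (ℕ × ℕ))
    (us : List ℕ) : ℕ × ℕ :=
  runA κ ρ c1 Cn w K bs fs J us fun q mask f =>
    (outT q K K1 mask (fun c => c) f J, outT q K K1 mask (fun c => Nat.sub T c) f J)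

end

end Crest.Agent.R347.Num
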