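import Mathlib
import Crest.Agent.R347.NumEngine

-- ▼ part R347/NumCode
section

/-! Spin configurations, base-4 codes, and the integer bond matrices. -/

set_option autoImplicit false

namespace Crest.Agent.R347.Num

open Matrix

/-- configurations -/
abbrev Cfg (L : ℕ) := Fin L → Fin 3

/-- base-4 code -/
def code {L : ℕ} (σ : Cfg L) : ℕ := ∑ j, (σ j : ℕ) * 4 ^ (j : ℕ)

theorem code_succ {L : ℕ} (σ : Cfg (L + 1)) :
    code σ = (σ 0 : ℕ) + 4 * code (fun j : Fin L => σ j.succ) := by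
  unfold code
  rw [Fin.sum_univ_succ, Finset.mul_sum]
  simp only [Fin.val_zero, pow_zero, mul_one, Fin.val_succ, pow_succ]
  congr 1
  refine Finset.sum_congr rfl fun j _ => ?_
  ring

theorem code_digit {L : ℕ} (σ : Cfg L) (j : Fin L) :
    code σ / 4 ^ (j : ℕ) % 4 = (σ j : ℕ) := by
  induction L with
  | zero => exact j.elim0
  | succ L ih =>
    rw [code_succ]
    have h0 : (σ 0 : ℕ) < 4 := lt_trans (σ 0).isLt (by norm_num)
    refine Fin.cases ?_ (fun j => ?_) j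
    · simp only [Fin.val_zero, pow_zero, Nat.div_one]
      omega
    · simp only [Fin.val_succ, pow_succ']
      rw [← Nat.div_div_eq_div_mul]
      have : ((σ 0 : ℕ) + 4 * code (fun j : Fin L => σ j.succ)) / 4 =
          code (fun j : Fin L => σ j.succ) := by omega
      rw [this]
      exact ih _ j

theorem land3 (n : ℕ) : Nat.land n 3 = n % 4 := by
  have := Nat.and_two_pow_sub_one_eq_mod n 2
  simpa using this

theorem dig_eq {L : ℕ} (σ : Cfg L) (j : Fin L) :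
    Nat.land (Nat.shiftRight (code σ) (2 * j)) 3 = (σ j : ℕ) := by
  rw [land3]
  have : Nat.shiftRight (code σ) (2 * j) = code σ / 4 ^ (j : ℕ) := by
    have h := Nat.shiftRight_eq_div_pow (code σ) (2 * j)
    rw [pow_mul] at h
    exact h
  rw [this, code_digit]

theorem code_injective {L : ℕ} : Function.Injective (code : Cfg L → ℕ) := by
  intro σ τ h
  funext j
  apply Fin.ext
  rw [← code_digit σ j, ← code_digit τ j, h]

/-- change two sites -/
def upd2 {L : ℕ} (σ : Cfg L) (j k : Fin L) (a c : Fin 3) : Cfg L :=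
  Function.update (Function.update σ j a) k c

theorem code_update {L : ℕ} (σ : Cfg L) (j : Fin L) (a : Fin 3) :
    code (Function.update σ j a) + (σ j : ℕ) * 4 ^ (j : ℕ) = code σ + (a : ℕ) * 4 ^ (j : ℕ) := by
  unfold code
  rw [← Finset.add_sum_erase _ _ (Finset.mem_univ j), ← Finset.add_sum_erase (a := j) _ _ (Finset.mem_univ j)]
  rw [Function.update_self]
  have : ∑ x ∈ Finset.univ.erase j, ((Function.update σ j a x : Fin 3) : ℕ) * 4 ^ (x : ℕ) =
      ∑ x ∈ Finset.univ.erase j, ((σ x : Fin 3) : ℕ) * 4 ^ (x : ℕ) := by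
    refine Finset.sum_congr rfl fun x hx => ?_
    rw [Function.update_of_ne (Finset.ne_of_mem_erase hx)]
  rw [this]
  ring

theorem code_upd2 {L : ℕ} (σ : Cfg L) {j k : Fin L} (hjk : j ≠ k) (a c : Fin 3) :
    code (upd2 σ j k a c) + (σ j : ℕ) * 4 ^ (j : ℕ) + (σ k : ℕ) * 4 ^ (k : ℕ) =
      code σ + (a : ℕ) * 4 ^ (j : ℕ) + (c : ℕ) * 4 ^ (k : ℕ) := by
  have h1 := code_update σ j a
  have h2 := code_update (Function.update σ j a) k c
  rw [Function.update_of_ne hjk.symm] at h2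
  unfold upd2
  omega

theorem pow_le_code {L : ℕ} (σ : Cfg L) (j : Fin L) (h : 1 ≤ (σ j : ℕ)) :
    4 ^ (j : ℕ) ≤ code σ := by
  unfold code
  calc 4 ^ (j : ℕ) ≤ (σ j : ℕ) * 4 ^ (j : ℕ) := Nat.le_mul_of_pos_left _ h
    _ ≤ _ := Finset.single_le_sum (f := fun j => (σ j : ℕ) * 4 ^ (j : ℕ))
        (fun _ _ => Nat.zero_le _) (Finset.mem_univ j)

/-- local matrix elements of the bond -/
def hl (tw : Bool) (a c a' c' : Fin 3) : ℤ :=
  (if a' = a ∧ c' = c then (1 - (a : ℤ)) * (1 - (c : ℤ)) else 0) +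
    (if tw then -1 else 1) *
      ((if (a' : ℕ) + 1 = a ∧ (c' : ℕ) = c + 1 then 1 else 0) +
        (if (a' : ℕ) = a + 1 ∧ (c' : ℕ) + 1 = c then 1 else 0))

theorem sum_hl {R : Type*} [CommRing R] (tw : Bool) (a c : Fin 3) (v : ℕ → ℕ → R) :
    ∑ a' : Fin 3, ∑ c' : Fin 3, ((hl tw a c a' c' : ℤ) : R) * v a' c' =
      (1 - (a : ℕ)) * (1 - (c : ℕ)) * v a c +
      (if tw then -1 else 1) *
        ((if 1 ≤ (a : ℕ) ∧ (c : ℕ) ≤ 1 then v (a - 1) (c + 1) else 0) +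
          (if 1 ≤ (c : ℕ) ∧ (a : ℕ) ≤ 1 then v (a + 1) (c - 1) else 0)) := by
  fin_cases a <;> fin_cases c <;> cases tw <;>
    simp [Fin.sum_univ_three, hl] <;> ring

end Crest.Agent.R347.Num
end

-- ▼ part R347/NumSpec
section

/-! Correctness of the engine: one row of the recursion. -/

set_option autoImplicit false

namespace Crest.Agent.R347.Num

open Matrix

noncomputable section

/-! ### unfolding the continuation-passing code -/

def flipRow (ok tw : Bool) (B c : ℕ) (acc : Row) : Row :=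
  if ok then (if tw then fun f => (B - f c) + acc f else fun f => f c + acc f) else acc

theorem flipA_eq {α : Type} (ok tw : Bool) (B c : ℕ) (acc : Row) (k : Row → α) :
    flipA ok tw B c acc k = k (flipRow ok tw B c acc) := by
  cases ok <;> cases tw <;> rfl

def dg (i s : ℕ) : ℕ := Nat.land (Nat.shiftRight i s) 3

def adjD (κ : ℕ) (i : ℕ) (bs : List Bd) : ℕ :=
  (bs.map fun b => κ * diagv (dg i b.s1) (dg i b.s2)).sum

def adjR (B i : ℕ) : List Bd → Row → Row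
  | [], acc => acc
  | b :: bs, acc =>
    adjR B i bs
      (flipRow (Bool.and (Nat.ble 1 (dg i b.s2)) (Nat.ble (dg i b.s1) 1)) b.tw B
        (i + b.p1 - b.p2)
        (flipRow (Bool.and (Nat.ble 1 (dg i b.s1)) (Nat.ble (dg i b.s2) 1)) b.tw B
          (i - b.p1 + b.p2) acc))

theorem adj_eq {α : Type} (B κ : ℕ) (k : ℕ → ℕ → Row → α) (bs : List Bd) (i D : ℕ) (acc : Row) :
    adj B κ k bs i D acc = k i (D + adjD κ i bs) (adjR B i bs acc) := by
  induction bs generalizing D acc with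
  | nil => simp [adjD, adjR, adj]
  | cons b bs ih =>
    have h : adj B κ k (b :: bs) i D acc =
      flipA (Bool.and (Nat.ble 1 (dg i b.s1)) (Nat.ble (dg i b.s2) 1)) b.tw B
        (i - b.p1 + b.p2) acc
        fun acc1 =>
      flipA (Bool.and (Nat.ble 1 (dg i b.s2)) (Nat.ble (dg i b.s1) 1)) b.tw B
        (i + b.p1 - b.p2) acc1
        fun acc2 =>
      adj B κ k bs i (D + κ * diagv (dg i b.s1) (dg i b.s2)) acc2 := rfl
    rw [h, flipA_eq, flipA_eq, ih]
    simp only [adjD, adjR, List.map_cons, List.sum_cons]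
    rw [add_assoc]

def fldD (i : ℕ) (fs : List Fd) : ℕ :=
  (fs.map fun b => tbl b.t0 b.t1 b.t2 (dg i b.s)).sum

theorem fld_eq {α : Type} (k : ℕ → ℕ → α) (fs : List Fd) (i D : ℕ) :
    fld k fs i D = k i (D + fldD i fs) := by
  induction fs generalizing D with
  | nil => simp [fldD, fld]
  | cons b bs ih =>
    have h : fld k (b :: bs) i D = fld k bs i (D + tbl b.t0 b.t1 b.t2 (dg i b.s)) := rfl
    rw [h, ih]
    simp only [fldD, List.map_cons, List.sum_cons]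
    rw [add_assoc]

theorem finW_run (κ ρ c1 C mask : ℕ) (E : ℕ → ℕ) (i D : ℕ) (acc : Row) (f1 f2 : ℕ → ℕ) (u : ℕ) :
    (finW κ ρ c1 C mask E i D acc).run f1 f2 u =
      Nat.land (u * E i + (c1 - D) * f1 i +
        (C - (κ * acc f1 + (D - c1) * f1 i + ρ * f2 i))) mask := by
  have h : finW κ ρ c1 C mask E i D acc =
    Bool.rec (motive := fun _ => W)
    (Bool.rec (motive := fun _ => W)
      ⟨fun f1 f2 u => Nat.land (u * E i + (c1 - D) * f1 i +
        (C - (κ * acc f1 + ρ * f2 i))) mask⟩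
      ⟨fun f1 f2 u => Nat.land (u * E i + (C - (κ * acc f1 + ((D - c1) * f1 i + ρ * f2 i)))) mask⟩
      (Nat.beq (c1 - D) 0))
    (Bool.rec (motive := fun _ => W)
      ⟨fun f1 f2 _ => Nat.land ((c1 - D) * f1 i + (C - (κ * acc f1 + ρ * f2 i))) mask⟩
      ⟨fun f1 f2 _ => Nat.land (C - (κ * acc f1 + ((D - c1) * f1 i + ρ * f2 i))) mask⟩
      (Nat.beq (c1 - D) 0))
    (Nat.beq (E i) 0) := rfl
  rw [h]
  by_cases h1 : E i = 0
  · have e1 : Nat.beq (E i) 0 = true := by rw [h1]; rfl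
    by_cases h2 : c1 - D = 0
    · have e2 : Nat.beq (c1 - D) 0 = true := by rw [h2]; rfl
      rw [e1, e2]
      simp only [h1, h2, mul_zero, zero_mul, zero_add, add_assoc]
    · have e2 : Nat.beq (c1 - D) 0 = false := by
        cases h3 : Nat.beq (c1 - D) 0 with
        | false => rfl
        | true => exact absurd (Nat.eq_of_beq_eq_true h3) h2
      have e3 : D - c1 = 0 := by omega
      rw [e1, e2]
      simp only [h1, e3, mul_zero, zero_mul, zero_add, add_zero]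
  · have e1 : Nat.beq (E i) 0 = false := by
      cases h3 : Nat.beq (E i) 0 with
      | false => rfl
      | true => exact absurd (Nat.eq_of_beq_eq_true h3) h1
    by_cases h2 : c1 - D = 0
    · have e2 : Nat.beq (c1 - D) 0 = true := by rw [h2]; rfl
      rw [e1, e2]
      simp only [h2, zero_mul, add_zero, add_assoc]
    · have e2 : Nat.beq (c1 - D) 0 = false := by
        cases h3 : Nat.beq (c1 - D) 0 with
        | false => rfl
        | true => exact absurd (Nat.eq_of_beq_eq_true h3) h2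
      have e3 : D - c1 = 0 := by omega
      rw [e1, e2]
      simp only [e3, zero_mul, add_zero]

theorem rowW_run (κ ρ c1 B C mask : ℕ) (bs : List Bd) (fs : List Fd) (E : ℕ → ℕ) (i : ℕ)
    (f1 f2 : ℕ → ℕ) (u : ℕ) :
    (rowW κ ρ c1 B C mask bs fs E i).run f1 f2 u =
      Nat.land (u * E i + (c1 - (fldD i fs + adjD κ i bs)) * f1 i +
        (C - (κ * adjR B i bs (fun _ => 0) f1 + ((fldD i fs + adjD κ i bs) - c1) * f1 i
          + ρ * f2 i))) mask := by
  unfold rowW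
  rw [fld_eq, adj_eq, finW_run, zero_add]

/-! ### values of the pieces -/

/-- sum of the two flip terms of a bond -/
def flv (N i : ℕ) (b : Bd) (f : ℕ → ℕ) : ZMod N :=
  (if b.tw then -1 else 1) *
    ((if 1 ≤ dg i b.s1 ∧ dg i b.s2 ≤ 1 then (f (i - b.p1 + b.p2) : ZMod N) else 0) +
     (if 1 ≤ dg i b.s2 ∧ dg i b.s1 ≤ 1 then (f (i + b.p1 - b.p2) : ZMod N) else 0))

theorem flipRow_cast (N : ℕ) (ok : Prop) [Decidable ok] (okb tw : Bool) (hok : okb = true ↔ ok)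
    (c : ℕ) (acc : Row) (f : ℕ → ℕ) (hf : ∀ x, f x < N) :
    ((flipRow okb tw N c acc f : ℕ) : ZMod N) =
      (if tw then -1 else 1) * (if ok then (f c : ZMod N) else 0) + (acc f : ZMod N) := by
  by_cases h : ok
  · rw [hok.mpr h, if_pos h]
    cases tw
    · simp [flipRow]
    · simp only [flipRow, if_true]
      rw [Nat.cast_add, Nat.cast_sub (hf c).le]
      simp
  · have : okb = false := by
      cases okb
      · rfl
      · exact absurd (hok.mp rfl) h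
    rw [this, if_neg h]
    simp [flipRow]

theorem band_ble (a c : ℕ) : Bool.and (Nat.ble 1 a) (Nat.ble c 1) = true ↔ (1 ≤ a ∧ c ≤ 1) := by
  show (Nat.ble 1 a && Nat.ble c 1) = true ↔ _
  rw [Bool.and_eq_true, Nat.ble_eq, Nat.ble_eq]

theorem adjR_cast (N i : ℕ) (bs : List Bd) (acc : Row) (f : ℕ → ℕ) (hf : ∀ x, f x < N) :
    ((adjR N i bs acc f : ℕ) : ZMod N) =
      (bs.map fun b => flv N i b f).sum + (acc f : ZMod N) := by
  induction bs generalizing acc with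
  | nil => simp [adjR]
  | cons b bs ih =>
    rw [adjR, ih, flipRow_cast N (1 ≤ dg i b.s2 ∧ dg i b.s1 ≤ 1) _ _ (band_ble _ _) _ _ _ hf,
      flipRow_cast N (1 ≤ dg i b.s1 ∧ dg i b.s2 ≤ 1) _ _ (band_ble _ _) _ _ _ hf]
    simp only [List.map_cons, List.sum_cons, flv]
    ring

theorem flipRow_le (N : ℕ) (ok tw : Bool) (c : ℕ) (acc : Row) (f : ℕ → ℕ)
    (hf : ∀ x, f x < N) : flipRow ok tw N c acc f ≤ acc f + N := by
  have := hf c
  cases ok <;> cases tw <;> simp only [flipRow, if_true] <;> simp <;> omega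

theorem adjR_le (N i : ℕ) (bs : List Bd) (acc : Row) (f : ℕ → ℕ) (hf : ∀ x, f x < N) :
    adjR N i bs acc f ≤ acc f + 2 * bs.length * N := by
  induction bs generalizing acc with
  | nil => simp [adjR]
  | cons b bs ih =>
    rw [adjR]
    refine (ih _).trans ?_
    have h1 := flipRow_le N (Bool.and (Nat.ble 1 (dg i b.s2)) (Nat.ble (dg i b.s1) 1)) b.tw
      (i + b.p1 - b.p2) (flipRow (Bool.and (Nat.ble 1 (dg i b.s1)) (Nat.ble (dg i b.s2) 1)) b.tw N
          (i - b.p1 + b.p2) acc) f hf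
    have h2 := flipRow_le N (Bool.and (Nat.ble 1 (dg i b.s1)) (Nat.ble (dg i b.s2) 1)) b.tw
      (i - b.p1 + b.p2) acc f hf
    simp only [List.length_cons]
    nlinarith

theorem diagv_le (a b : ℕ) : diagv a b ≤ 2 := by
  unfold diagv
  cases Nat.beq a b <;> cases Nat.beq (Nat.add a b) 2 <;> cases Nat.beq a 1 <;> simp

theorem adjD_le (κ i : ℕ) (bs : List Bd) : adjD κ i bs ≤ 2 * κ * bs.length := by
  induction bs with
  | nil => simp [adjD]
  | cons b bs ih =>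
    unfold adjD at ih ⊢
    simp only [List.map_cons, List.sum_cons, List.length_cons]
    have := Nat.mul_le_mul_left κ (diagv_le (dg i b.s1) (dg i b.s2))
    nlinarith

theorem tbl_le (t0 t1 t2 a : ℕ) : tbl t0 t1 t2 a ≤ t0 + t1 + t2 := by
  unfold tbl
  rcases a with _ | _ | a <;> simp <;> omega

theorem fldD_le (i : ℕ) (fs : List Fd) : fldD i fs ≤ (fs.map fun b => b.t0 + b.t1 + b.t2).sum := by
  induction fs with
  | nil => simp [fldD]
  | cons b bs ih =>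
    unfold fldD at ih ⊢
    simp only [List.map_cons, List.sum_cons]
    have := tbl_le b.t0 b.t1 b.t2 (dg i b.s)
    omega

/-- cast of the value of one row. -/
theorem rowW_cast (κ ρ c1 Cn K : ℕ) (bs : List Bd) (fs : List Fd) (E : ℕ → ℕ) (i : ℕ)
    (f1 f2 : ℕ → ℕ) (u : ℕ) (h1 : ∀ x, f1 x < 2 ^ K) (h2 : ∀ x, f2 x < 2 ^ K)
    (hC : κ * (2 * bs.length) + (2 * κ * bs.length + (fs.map fun b => b.t0 + b.t1 + b.t2).sum)
      + ρ ≤ Cn) :
    (((rowW κ ρ c1 (2 ^ K) (Cn * 2 ^ K) (2 ^ K - 1) bs fs E i).run f1 f2 u : ℕ) :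
      ZMod (2 ^ K)) =
      u * E i + ((c1 : ZMod (2 ^ K)) - (fldD i fs + adjD κ i bs : ℕ)) * f1 i
        - κ * (bs.map fun b => flv (2 ^ K) i b f1).sum - ρ * f2 i := by
  rw [rowW_run]
  have hl : ∀ x : ℕ, Nat.land x (2 ^ K - 1) = x % 2 ^ K := fun x =>
    Nat.and_two_pow_sub_one_eq_mod x K
  rw [hl, ZMod.natCast_mod]
  set D := fldD i fs + adjD κ i bs with hD
  have hDle : D ≤ 2 * κ * bs.length + (fs.map fun b => b.t0 + b.t1 + b.t2).sum := by
    have := adjD_le κ i bs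
    have := fldD_le i fs
    omega
  have hR := adjR_le (2 ^ K) i bs (fun _ => 0) f1 h1
  rw [zero_add] at hR
  have hsub : κ * adjR (2 ^ K) i bs (fun _ => 0) f1 + (D - c1) * f1 i + ρ * f2 i ≤
      Cn * 2 ^ K := by
    have a1 : κ * adjR (2 ^ K) i bs (fun _ => 0) f1 ≤ κ * (2 * bs.length) * 2 ^ K := by
      calc _ ≤ κ * (2 * bs.length * 2 ^ K) := Nat.mul_le_mul_left _ hR
        _ = _ := by ring
    have a2 : (D - c1) * f1 i ≤
        (2 * κ * bs.length + (fs.map fun b => b.t0 + b.t1 + b.t2).sum) * 2 ^ K := by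
      refine Nat.mul_le_mul ?_ (h1 i).le
      omega
    have a3 : ρ * f2 i ≤ ρ * 2 ^ K := Nat.mul_le_mul_left _ (h2 i).le
    calc _ ≤ κ * (2 * bs.length) * 2 ^ K +
        (2 * κ * bs.length + (fs.map fun b => b.t0 + b.t1 + b.t2).sum) * 2 ^ K + ρ * 2 ^ K :=
          Nat.add_le_add (Nat.add_le_add a1 a2) a3
      _ = (κ * (2 * bs.length) + (2 * κ * bs.length +
        (fs.map fun b => b.t0 + b.t1 + b.t2).sum) + ρ) * 2 ^ K := by ring
      _ ≤ _ := Nat.mul_le_mul_right _ hC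
  have hz : ((2 ^ K : ℕ) : ZMod (2 ^ K)) = 0 := ZMod.natCast_self _
  have hR2 := adjR_cast (2 ^ K) i bs (fun _ => 0) f1 h1
  rw [Nat.cast_zero, add_zero] at hR2
  rw [Nat.cast_add, Nat.cast_sub hsub]
  simp only [Nat.cast_add, Nat.cast_mul, hR2]
  rw [hz, mul_zero]
  rcases le_total c1 D with h | h
  · rw [Nat.sub_eq_zero_of_le h, Nat.cast_sub h]
    push_cast
    ring
  · rw [Nat.sub_eq_zero_of_le h, Nat.cast_sub h]
    push_cast
    ring

theorem rowW_lt (κ ρ c1 B C K : ℕ) (bs : List Bd) (fs : List Fd) (E : ℕ → ℕ) (i : ℕ)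
    (f1 f2 : ℕ → ℕ) (u : ℕ) :
    (rowW κ ρ c1 B C (2 ^ K - 1) bs fs E i).run f1 f2 u < 2 ^ K := by
  rw [rowW_run]
  have hl : ∀ x : ℕ, Nat.land x (2 ^ K - 1) = x % 2 ^ K := fun x =>
    Nat.and_two_pow_sub_one_eq_mod x K
  rw [hl]
  exact Nat.mod_lt _ (by positivity)

end

end Crest.Agent.R347.Num
private theorem rz_633a21f592 : type_of% @_root_.Crest.Agent.R347.Num.adjR.eq_def := @_root_.Crest.Agent.R347.Num.adjR.eq_def -- L27
private theorem rz_b039bcd498 : type_of% @_root_.Crest.Agent.R347.Num.adjR.eq_1 := @_root_.Crest.Agent.R347.Num.adjR.eq_1 -- L27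
end

-- ▼ part R347/NumMat

/-! Correctness of the engine: the matrix recursion. -/

set_option autoImplicit false

namespace Crest.Agent.R347.Num

open Matrix

noncomputable section

structure Bond (L : ℕ) where
  j : Fin L
  k : Fin L
  tw : Bool

def Bond.toBd {L : ℕ} (b : Bond L) : Bd := ⟨2 * b.j, 2 * b.k, 4 ^ (b.j : ℕ), 4 ^ (b.k : ℕ), b.tw⟩

structure Fld (L : ℕ) where
  j : Fin L
  t0 : ℕ
  t1 : ℕ
  t2 : ℕ

def Fld.toFd {L : ℕ} (b : Fld L) : Fd := ⟨2 * b.j, b.t0, b.t1, b.t2⟩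

/-- bond matrix -/
def Hb {L : ℕ} (b : Bond L) : Matrix (Cfg L) (Cfg L) ℤ :=
  Matrix.of fun σ τ => ∑ a' : Fin 3, ∑ c' : Fin 3,
    hl b.tw (σ b.j) (σ b.k) a' c' * (if τ = upd2 σ b.j b.k a' c' then 1 else 0)

/-- field diagonal -/
def fD {L : ℕ} (fl : List (Fld L)) (σ : Cfg L) : ℕ :=
  (fl.map fun b => tbl b.t0 b.t1 b.t2 (σ b.j)).sum

/-- the matrix of the recursion -/
def Gmat {L : ℕ} (κ c1 : ℕ) (bl : List (Bond L)) (fl : List (Fld L)) :
    Matrix (Cfg L) (Cfg L) ℤ :=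
  ((c1 : ℤ) - κ * bl.length) • (1 : Matrix (Cfg L) (Cfg L) ℤ)
    - Matrix.diagonal (fun σ => (fD fl σ : ℤ)) - (κ : ℤ) • (bl.map Hb).sum

theorem sum_Hb_mul {L : ℕ} {R : Type*} [CommRing R] (b : Bond L) (σ : Cfg L) (v : Cfg L → R) :
    ∑ τ, ((Hb b σ τ : ℤ) : R) * v τ =
      ∑ a' : Fin 3, ∑ c' : Fin 3, ((hl b.tw (σ b.j) (σ b.k) a' c' : ℤ) : R) *
        v (upd2 σ b.j b.k a' c') := by
  simp only [Hb, Matrix.of_apply, Int.cast_sum, Int.cast_mul, Finset.sum_mul]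
  rw [Finset.sum_comm]
  refine Finset.sum_congr rfl fun a' _ => ?_
  rw [Finset.sum_comm]
  refine Finset.sum_congr rfl fun c' _ => ?_
  rw [Finset.sum_eq_single (upd2 σ b.j b.k a' c')]
  · simp
  · intro τ _ h
    simp [h]
  · simp

theorem upd_minus {L : ℕ} (σ : Cfg L) {j k : Fin L} (hjk : j ≠ k) (a c : Fin 3) :
    code (upd2 σ j k a c) = code σ + (a : ℕ) * 4 ^ (j : ℕ) + (c : ℕ) * 4 ^ (k : ℕ)
      - (σ j : ℕ) * 4 ^ (j : ℕ) - (σ k : ℕ) * 4 ^ (k : ℕ) := by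
  have := code_upd2 σ hjk a c
  omega

theorem diagv_eq (a c : Fin 3) : ((diagv a c : ℕ) : ℤ) = 1 + (1 - (a : ℤ)) * (1 - (c : ℤ)) := by
  fin_cases a <;> fin_cases c <;> rfl

theorem aux1 (C p1 p2 m y : ℕ) (h : p1 ≤ C) :
    C + m * p1 + (y + 1) * p2 - (m + 1) * p1 - y * p2 = C - p1 + p2 := by
  rw [Nat.add_mul, Nat.add_mul, one_mul, one_mul]
  generalize m * p1 = A
  generalize y * p2 = B
  omega

theorem aux2 (C p1 p2 m y : ℕ) :
    C + (y + 1) * p1 + m * p2 - y * p1 - (m + 1) * p2 = C + p1 - p2 := by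
  rw [Nat.add_mul, Nat.add_mul, one_mul, one_mul]
  generalize m * p2 = A
  generalize y * p1 = B
  omega

theorem bond_value {L N : ℕ} (b : Bond L) (hb : b.j ≠ b.k) (σ : Cfg L) (f : ℕ → ℕ) :
    ∑ τ, ((Hb b σ τ : ℤ) : ZMod N) * (f (code τ) : ZMod N) =
      (((diagv (σ b.j) (σ b.k) : ℕ) : ZMod N) - 1) * f (code σ) + flv N (code σ) b.toBd f := by
  rw [sum_Hb_mul]
  set p1 := 4 ^ (b.j : ℕ) with hp1
  set p2 := 4 ^ (b.k : ℕ) with hp2
  have h1 : ∀ a' c' : Fin 3, (f (code (upd2 σ b.j b.k a' c')) : ZMod N) =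
      (fun x y : ℕ => (f (code σ + x * p1 + y * p2 - (σ b.j : ℕ) * p1 - (σ b.k : ℕ) * p2) :
        ZMod N)) a' c' := by
    intro a' c'
    rw [upd_minus σ hb]
  simp only [h1]
  rw [sum_hl b.tw (σ b.j) (σ b.k) (fun x y : ℕ => (f (code σ + x * p1 + y * p2
    - (σ b.j : ℕ) * p1 - (σ b.k : ℕ) * p2) : ZMod N))]
  have e0 : code σ + (σ b.j : ℕ) * p1 + (σ b.k : ℕ) * p2 - (σ b.j : ℕ) * p1
    - (σ b.k : ℕ) * p2 = code σ := by omega
  have ed := diagv_eq (σ b.j) (σ b.k)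
  have ed' : ((diagv (σ b.j) (σ b.k) : ℕ) : ZMod N) =
      1 + (1 - (((σ b.j : ℕ)) : ZMod N)) * (1 - (((σ b.k : ℕ)) : ZMod N)) := by
    have := congrArg (Int.cast : ℤ → ZMod N) ed
    push_cast at this
    exact this
  unfold flv
  have d1 : dg (code σ) b.toBd.s1 = (σ b.j : ℕ) := dig_eq σ b.j
  have d2 : dg (code σ) b.toBd.s2 = (σ b.k : ℕ) := dig_eq σ b.k
  rw [d1, d2, ed']
  show _ = (1 + (1 - (((σ b.j : ℕ)) : ZMod N)) * (1 - (((σ b.k : ℕ)) : ZMod N)) - 1)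
    * (f (code σ) : ZMod N) + (if b.tw then -1 else 1) *
    ((if 1 ≤ (σ b.j : ℕ) ∧ (σ b.k : ℕ) ≤ 1 then (f (code σ - p1 + p2) : ZMod N) else 0) +
     (if 1 ≤ (σ b.k : ℕ) ∧ (σ b.j : ℕ) ≤ 1 then (f (code σ + p1 - p2) : ZMod N) else 0))
  have c1 : (if 1 ≤ (σ b.j : ℕ) ∧ (σ b.k : ℕ) ≤ 1 then
      (f (code σ + ((σ b.j : ℕ) - 1) * p1 + ((σ b.k : ℕ) + 1) * p2 - (σ b.j : ℕ) * p1
        - (σ b.k : ℕ) * p2) : ZMod N) else 0) =
      (if 1 ≤ (σ b.j : ℕ) ∧ (σ b.k : ℕ) ≤ 1 then (f (code σ - p1 + p2) : ZMod N) else 0) := by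
    split_ifs with h
    · have hle := pow_le_code σ b.j h.1
      rw [← hp1] at hle
      have e : code σ + ((σ b.j : ℕ) - 1) * p1 + ((σ b.k : ℕ) + 1) * p2 - (σ b.j : ℕ) * p1
        - (σ b.k : ℕ) * p2 = code σ - p1 + p2 := by
        obtain ⟨m, hm⟩ : ∃ m, (σ b.j : ℕ) = m + 1 := ⟨(σ b.j : ℕ) - 1, by omega⟩
        rw [hm, Nat.add_sub_cancel]
        exact aux1 _ _ _ _ _ hle
      rw [e]
    · rfl
  have c2 : (if 1 ≤ (σ b.k : ℕ) ∧ (σ b.j : ℕ) ≤ 1 then
      (f (code σ + ((σ b.j : ℕ) + 1) * p1 + ((σ b.k : ℕ) - 1) * p2 - (σ b.j : ℕ) * p1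
        - (σ b.k : ℕ) * p2) : ZMod N) else 0) =
      (if 1 ≤ (σ b.k : ℕ) ∧ (σ b.j : ℕ) ≤ 1 then (f (code σ + p1 - p2) : ZMod N) else 0) := by
    split_ifs with h
    · have hle := pow_le_code σ b.k h.1
      rw [← hp2] at hle
      have e : code σ + ((σ b.j : ℕ) + 1) * p1 + ((σ b.k : ℕ) - 1) * p2 - (σ b.j : ℕ) * p1
        - (σ b.k : ℕ) * p2 = code σ + p1 - p2 := by
        obtain ⟨m, hm⟩ : ∃ m, (σ b.k : ℕ) = m + 1 := ⟨(σ b.k : ℕ) - 1, by omega⟩
        rw [hm, Nat.add_sub_cancel]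
        exact aux2 _ _ _ _ _
      rw [e]
    · rfl
  simp only [c1, c2, e0]
  ring

theorem row_matrix {L : ℕ} (κ ρ c1 Cn K : ℕ) (bl : List (Bond L)) (fl : List (Fld L))
    (hbl : ∀ b ∈ bl, b.j ≠ b.k) (E : ℕ → ℕ) (σ : Cfg L)
    (f1 f2 : ℕ → ℕ) (u : ℕ) (h1 : ∀ x, f1 x < 2 ^ K) (h2 : ∀ x, f2 x < 2 ^ K)
    (hC : κ * (2 * bl.length) + (2 * κ * bl.length + (fl.map fun b => b.t0 + b.t1 + b.t2).sum)
      + ρ ≤ Cn) :
    (((rowW κ ρ c1 (2 ^ K) (Cn * 2 ^ K) (2 ^ K - 1) (bl.map Bond.toBd) (fl.map Fld.toFd) E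
      (code σ)).run f1 f2 u : ℕ) : ZMod (2 ^ K)) =
      u * E (code σ) + ∑ τ, ((Gmat κ c1 bl fl σ τ : ℤ) : ZMod (2 ^ K)) * f1 (code τ)
        - ρ * f2 (code σ) := by
  rw [rowW_cast κ ρ c1 Cn K _ _ E (code σ) f1 f2 u h1 h2 (by
    simpa [List.map_map, Function.comp_def, Fld.toFd] using hC)]
  have hf : fldD (code σ) (fl.map Fld.toFd) = fD fl σ := by
    unfold fldD fD
    rw [List.map_map]
    refine congrArg List.sum (List.map_congr_left fun b _ => ?_)
    show tbl b.t0 b.t1 b.t2 (dg (code σ) (2 * b.j)) = _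
    rw [show dg (code σ) (2 * b.j) = (σ b.j : ℕ) from dig_eq σ b.j]
  have hD : adjD κ (code σ) (bl.map Bond.toBd) =
      κ * (bl.map fun b => diagv (σ b.j) (σ b.k)).sum := by
    unfold adjD
    rw [List.map_map, ← List.sum_map_mul_left]
    refine congrArg List.sum (List.map_congr_left fun b _ => ?_)
    show κ * diagv (dg (code σ) (2 * b.j)) (dg (code σ) (2 * b.k)) = _
    rw [show dg (code σ) (2 * b.j) = (σ b.j : ℕ) from dig_eq σ b.j,
      show dg (code σ) (2 * b.k) = (σ b.k : ℕ) from dig_eq σ b.k]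
  rw [hf, hD]
  have key : ∑ τ, (((bl.map Hb).sum σ τ : ℤ) : ZMod (2 ^ K)) * (f1 (code τ) : ZMod (2 ^ K)) =
      (((bl.map fun b => diagv (σ b.j) (σ b.k)).sum : ℕ) : ZMod (2 ^ K)) * f1 (code σ)
        - bl.length * f1 (code σ)
        + (bl.map fun b => flv (2 ^ K) (code σ) b.toBd f1).sum := by
    clear hC hf hD
    induction bl with
    | nil => simp
    | cons b bl ih =>
      have ih' := ih (fun b hb => hbl b (List.mem_cons_of_mem _ hb))
      simp only [List.map_cons, List.sum_cons, Matrix.add_apply, Int.cast_add, add_mul,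
        Finset.sum_add_distrib, List.length_cons, Nat.cast_add, Nat.cast_one]
      rw [ih', bond_value b (hbl b List.mem_cons_self)]
      ring
  have key2 : ∑ τ, ((Gmat κ c1 bl fl σ τ : ℤ) : ZMod (2 ^ K)) * (f1 (code τ) : ZMod (2 ^ K)) =
      ((c1 : ZMod (2 ^ K)) - κ * bl.length) * f1 (code σ) - (fD fl σ : ZMod (2 ^ K)) * f1 (code σ)
      - κ * ∑ τ, (((bl.map Hb).sum σ τ : ℤ) : ZMod (2 ^ K)) * (f1 (code τ) : ZMod (2 ^ K)) := by
    unfold Gmat
    simp only [Matrix.sub_apply, Matrix.smul_apply, smul_eq_mul, Int.cast_sub, Int.cast_mul,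
      sub_mul, Finset.sum_sub_distrib, Matrix.one_apply, Matrix.diagonal_apply]
    rw [Finset.mul_sum]
    congr 1
    · congr 1
      · rw [← Finset.sum_sub_distrib, Finset.sum_eq_single σ]
        · simp
        · intro τ _ h
          simp [Ne.symm h]
        · simp
      · rw [Finset.sum_eq_single σ]
        · simp
        · intro τ _ h
          simp [Ne.symm h]
        · simp
    · refine Finset.sum_congr rfl fun τ _ => ?_
      push_cast
      ring
  rw [key2, key, List.map_map]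
  push_cast
  simp only [Function.comp_def]
  ring

/-! ### the Clenshaw recursion in a ring -/

/-- `P_{k} = u_k + x P_{k+1} - ρ P_{k+2}`, coefficients highest first. -/
def cl {A : Type*} [Ring A] (x : A) (ρ : ℕ) : List ℕ → A → A → A × A
  | [], a, b => (a, b)
  | u :: us, a, b => cl x ρ us ((u : A) + x * a - (ρ : A) * b) a

theorem cl_map {A B : Type*} [Ring A] [Ring B] (φ : A →+* B) (x : A) (ρ : ℕ) (us : List ℕ)
    (a b : A) : (φ (cl x ρ us a b).1, φ (cl x ρ us a b).2) = cl (φ x) ρ us (φ a) (φ b) := by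
  induction us generalizing a b with
  | nil => rfl
  | cons u us ih =>
    rw [cl, ih, cl]
    congr 1
    simp

/-- the polynomial value -/
def clv {A : Type*} [Ring A] (x : A) (ρ : ℕ) (us : List ℕ) : A := (cl x ρ us 0 0).1

theorem clv_map {A B : Type*} [Ring A] [Ring B] (φ : A →+* B) (x : A) (ρ : ℕ) (us : List ℕ) :
    φ (clv x ρ us) = clv (φ x) ρ us := by
  unfold clv
  have := cl_map φ x ρ us 0 0
  rw [map_zero] at this
  exact (Prod.ext_iff.mp this).1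

theorem go_spec {α : Type} {L : ℕ} (κ ρ c1 Cn K : ℕ) (bl : List (Bond L)) (fl : List (Fld L))
    (hbl : ∀ b ∈ bl, b.j ≠ b.k) (E : ℕ → ℕ)
    (hC : κ * (2 * bl.length) + (2 * κ * bl.length + (fl.map fun b => b.t0 + b.t1 + b.t2).sum)
      + ρ ≤ Cn) (fin : (ℕ → ℕ) → α) (us : List ℕ) :
    ∃ f : ℕ → ℕ, go (rowW κ ρ c1 (2 ^ K) (Cn * 2 ^ K) (2 ^ K - 1) (bl.map Bond.toBd)
        (fl.map Fld.toFd) E) fin us (fun _ => 0) (fun _ => 0) = fin f ∧ (∀ x, f x < 2 ^ K) ∧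
      ∀ σ : Cfg L, (f (code σ) : ZMod (2 ^ K)) =
        ∑ τ, ((clv (Gmat κ c1 bl fl) ρ us σ τ : ℤ) : ZMod (2 ^ K)) * E (code τ) := by
  have main : ∀ (us : List ℕ) (f1 f2 : ℕ → ℕ) (P1 P2 : Matrix (Cfg L) (Cfg L) ℤ),
      (∀ x, f1 x < 2 ^ K) → (∀ x, f2 x < 2 ^ K) →
      (∀ σ : Cfg L, (f1 (code σ) : ZMod (2 ^ K)) =
        ∑ τ, ((P1 σ τ : ℤ) : ZMod (2 ^ K)) * E (code τ)) →
      (∀ σ : Cfg L, (f2 (code σ) : ZMod (2 ^ K)) =
        ∑ τ, ((P2 σ τ : ℤ) : ZMod (2 ^ K)) * E (code τ)) →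
      ∃ f : ℕ → ℕ, go (rowW κ ρ c1 (2 ^ K) (Cn * 2 ^ K) (2 ^ K - 1) (bl.map Bond.toBd)
        (fl.map Fld.toFd) E) fin us f1 f2 = fin f ∧ (∀ x, f x < 2 ^ K) ∧
      ∀ σ : Cfg L, (f (code σ) : ZMod (2 ^ K)) =
        ∑ τ, (((cl (Gmat κ c1 bl fl) ρ us P1 P2).1 σ τ : ℤ) : ZMod (2 ^ K)) * E (code τ) := by
    intro us
    induction us with
    | nil => exact fun f1 f2 P1 P2 h1 h2 h3 h4 => ⟨f1, rfl, h1, h3⟩
    | cons u us ih =>
      intro f1 f2 P1 P2 h1 h2 h3 h4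
      have hstep : ∀ σ : Cfg L, (((fun i => W.run (rowW κ ρ c1 (2 ^ K) (Cn * 2 ^ K)
          (2 ^ K - 1) (bl.map Bond.toBd) (fl.map Fld.toFd) E i) f1 f2 u) (code σ) : ℕ) :
            ZMod (2 ^ K)) =
          ∑ τ, ((((u : Matrix (Cfg L) (Cfg L) ℤ) + Gmat κ c1 bl fl * P1 -
            (ρ : Matrix (Cfg L) (Cfg L) ℤ) * P2) σ τ : ℤ) : ZMod (2 ^ K)) * E (code τ) := by
        intro σ
        show (((rowW κ ρ c1 (2 ^ K) (Cn * 2 ^ K) (2 ^ K - 1) (bl.map Bond.toBd)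
          (fl.map Fld.toFd) E (code σ)).run f1 f2 u : ℕ) : ZMod (2 ^ K)) = _
        rw [row_matrix κ ρ c1 Cn K bl fl hbl E σ f1 f2 u h1 h2 hC]
        simp only [h3, h4]
        have e1 : ∀ τ, (((u : Matrix (Cfg L) (Cfg L) ℤ) + Gmat κ c1 bl fl * P1 -
            (ρ : Matrix (Cfg L) (Cfg L) ℤ) * P2) σ τ) =
            (if σ = τ then (u : ℤ) else 0) + ∑ ν, Gmat κ c1 bl fl σ ν * P1 ν τ - ρ * P2 σ τ := by
          intro τ
          have hu : ((u : Matrix (Cfg L) (Cfg L) ℤ)) σ τ = if σ = τ then (u : ℤ) else 0 := by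
            rw [← Matrix.diagonal_natCast, Matrix.diagonal_apply]
          have hρ : ((ρ : Matrix (Cfg L) (Cfg L) ℤ) * P2) σ τ = (ρ : ℤ) * P2 σ τ := by
            rw [← Matrix.diagonal_natCast, Matrix.diagonal_mul]
          rw [Matrix.sub_apply, Matrix.add_apply, Matrix.mul_apply, hu, hρ]
        simp only [e1]
        push_cast
        simp only [sub_mul, add_mul, Finset.sum_sub_distrib, Finset.sum_add_distrib]
        congr 1
        · congr 1
          · rw [Finset.sum_eq_single σ]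
            · simp
            · intro τ _ h
              simp [Ne.symm h]
            · simp
          · simp only [Finset.mul_sum, Finset.sum_mul]
            rw [Finset.sum_comm]
            refine Finset.sum_congr rfl fun ν _ => Finset.sum_congr rfl fun τ _ => ?_
            ring
        · rw [Finset.mul_sum]
          refine Finset.sum_congr rfl fun τ _ => ?_
          ring
      obtain ⟨f, hf1, hf2, hf3⟩ := ih (fun i => W.run (rowW κ ρ c1 (2 ^ K) (Cn * 2 ^ K)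
          (2 ^ K - 1) (bl.map Bond.toBd) (fl.map Fld.toFd) E i) f1 f2 u) f1
        ((u : Matrix (Cfg L) (Cfg L) ℤ) + Gmat κ c1 bl fl * P1 -
            (ρ : Matrix (Cfg L) (Cfg L) ℤ) * P2) P1
        (fun x => rowW_lt _ _ _ _ _ _ _ _ _ _ _ _ _) h1 hstep h3
      exact ⟨f, hf1, hf2, hf3⟩
  refine main us (fun _ => 0) (fun _ => 0) 0 0 (fun _ => by positivity) (fun _ => by positivity)
    ?_ ?_
  · intro σ; simp
  · intro σ; simp

end

end Crest.Agent.R347.Num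
private theorem rz_536ee1aa8d : type_of% @_root_.Crest.Agent.R347.Num.cl.eq_def := @_root_.Crest.Agent.R347.Num.cl.eq_def -- L211
private theorem rz_ea6ab9b4a3 : type_of% @_root_.Crest.Agent.R347.Num.cl.eq_1 := @_root_.Crest.Agent.R347.Num.cl.eq_1 -- L211
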