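import Crest.Agent.R347.NumMat
import Crest.Agent.R347.NumSpin
import Mathlib

-- ▼ part R347/NumOut
section

/-! Extraction of the weighted diagonal sum from the packed result. -/

set_option autoImplicit false

namespace Crest.Agent.R347.Num

open Matrix

noncomputable section

/-! ### lists -/

theorem outS_eq (q : ℕ) (h f : ℕ → ℕ) (J : List (ℕ × ℕ)) (acc : ℕ) :
    outS q h f J acc = acc * q ^ J.length +
      ∑ i : Fin J.length, (J.get i).2 * f (h (J.get i).1) * q ^ (J.length - 1 - i) := by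
  induction J generalizing acc with
  | nil => simp [outS]
  | cons j J ih =>
    have e : outS q h f (j :: J) acc = outS q h f J (acc * q + j.2 * f (h j.1)) := rfl
    have e2 := Fin.sum_univ_succ (n := J.length) (fun i : Fin (J.length + 1) =>
      ((j :: J).get i).2 * f (h ((j :: J).get i).1) * q ^ (J.length + 1 - 1 - (i : ℕ)))
    have e3 : (j :: J).get (0 : Fin (J.length + 1)) = j := rfl
    have e4 : ∀ i : Fin J.length, (j :: J).get (Fin.succ i : Fin (J.length + 1)) = J.get i :=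
      fun i => rfl
    simp only [e3, e4] at e2
    rw [e, ih]
    refine Eq.trans ?_ (congrArg (fun x => acc * q ^ (J.length + 1) + x) e2.symm)
    simp only [Fin.val_zero, Fin.val_succ, Nat.add_sub_cancel, Nat.sub_zero]
    rw [add_mul, pow_succ]
    have : ∀ i : Fin J.length, J.length - 1 - (i : ℕ) = J.length - ((i : ℕ) + 1) := by
      intro i; omega
    simp only [this]
    ring

/-- the selector with explicit start value -/
def eselP (q : ℕ) (J : List (ℕ × ℕ)) (i : ℕ) : ℕ → ℕ :=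
  List.rec (motive := fun _ => ℕ → ℕ) (fun _ => 0)
    (fun j _ ih p => Bool.rec (motive := fun _ => ℕ) (ih (Nat.mul p q)) p (Nat.beq i j.1)) J

theorem eselP_notMem (q : ℕ) (J : List (ℕ × ℕ)) (i p : ℕ) (h : ∀ j ∈ J, i ≠ j.1) :
    eselP q J i p = 0 := by
  induction J generalizing p with
  | nil => rfl
  | cons j J ih =>
    have e : eselP q (j :: J) i p =
      Bool.rec (motive := fun _ => ℕ) (eselP q J i (p * q)) p (Nat.beq i j.1) := rfl
    have hb : Nat.beq i j.1 = false := by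
      cases hh : Nat.beq i j.1 with
      | false => rfl
      | true => exact absurd (Nat.eq_of_beq_eq_true hh) (h j List.mem_cons_self)
    rw [e, hb]
    exact ih _ (fun j' hj' => h j' (List.mem_cons_of_mem _ hj'))

theorem eselP_get (q : ℕ) (J : List (ℕ × ℕ)) (hJ : (J.map Prod.fst).Nodup)
    (a : Fin J.length) (p : ℕ) : eselP q J (J.get a).1 p = p * q ^ (a : ℕ) := by
  induction J generalizing p with
  | nil => exact a.elim0
  | cons j J ih =>
    rw [List.map_cons, List.nodup_cons] at hJ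
    have e : ∀ i, eselP q (j :: J) i p =
      Bool.rec (motive := fun _ => ℕ) (eselP q J i (p * q)) p (Nat.beq i j.1) := fun _ => rfl
    rw [e]
    refine Fin.cases (motive := fun a : Fin (J.length + 1) =>
      Bool.rec (motive := fun _ => ℕ) (eselP q J ((j :: J).get a).1 (p * q)) p
        (Nat.beq ((j :: J).get a).1 j.1) = p * q ^ (a : ℕ)) ?_ (fun a => ?_) a
    · have e3 : (j :: J).get (0 : Fin (J.length + 1)) = j := rfl
      rw [e3]
      have : Nat.beq j.1 j.1 = true := Nat.beq_refl _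
      rw [this]
      simp
    · have e4 : (j :: J).get (Fin.succ a : Fin (J.length + 1)) = J.get a := rfl
      rw [e4]
      have hne : (J.get a).1 ≠ j.1 := by
        intro h
        apply hJ.1
        rw [← h]
        exact List.mem_map_of_mem (List.get_mem J a)
      have hb : Nat.beq (J.get a).1 j.1 = false := by
        cases hh : Nat.beq (J.get a).1 j.1 with
        | false => rfl
        | true => exact absurd (Nat.eq_of_beq_eq_true hh) hne
      rw [hb]
      show eselP q J (J.get a).1 (p * q) = _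
      rw [ih hJ.2, Fin.val_succ, pow_succ]
      ring

/-- the packed start vector as a sum over lanes -/
theorem sum_esel {L : ℕ} {R : Type*} [CommRing R] (q : ℕ) (J : List (Cfg L × ℕ))
    (hJ : (J.map Prod.fst).Nodup) (v : Cfg L → R) :
    ∑ τ, v τ * ((esel q (J.map fun x => (code x.1, x.2)) (code τ) : ℕ) : R) =
      ∑ a : Fin J.length, v (J.get a).1 * (q : R) ^ (a : ℕ) := by
  set J' := J.map fun x => (code x.1, x.2) with hJ'
  have hJ'n : (J'.map Prod.fst).Nodup := by
    rw [hJ', List.map_map]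
    have : (Prod.fst ∘ fun x : Cfg L × ℕ => (code x.1, x.2)) = code ∘ Prod.fst := rfl
    rw [this, ← List.map_map]
    exact hJ.map code_injective
  have hlen : J'.length = J.length := by rw [hJ', List.length_map]
  have hesel : ∀ i, esel q J' i = eselP q J' i 1 := fun _ => rfl
  -- injectivity of the lane map
  have hinj : Function.Injective fun a : Fin J.length => (J.get a).1 := by
    intro a b hab
    have h1 := List.nodup_iff_injective_get.mp hJ
    have : (J.map Prod.fst).get (Fin.cast (by simp) a) =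
        (J.map Prod.fst).get (Fin.cast (by simp) b) := by
      simpa using hab
    have h2 := h1 this
    exact Fin.ext (by simpa using congrArg Fin.val h2)
  have hget : ∀ a : Fin J.length, esel q J' (code (J.get a).1) = q ^ (a : ℕ) := by
    intro a
    have h := eselP_get q J' hJ'n (Fin.cast hlen.symm a) 1
    rw [one_mul] at h
    have h3 : (J'.get (Fin.cast hlen.symm a)).1 = code (J.get a).1 := by
      simp [hJ']
    rw [hesel, ← h3, h]
    rfl
  have hzero : ∀ τ, τ ∉ Set.range (fun a : Fin J.length => (J.get a).1) →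
      esel q J' (code τ) = 0 := by
    intro τ hτ
    rw [hesel]
    refine eselP_notMem q J' _ 1 fun j hj h => hτ ?_
    rw [hJ', List.mem_map] at hj
    obtain ⟨x, hx, rfl⟩ := hj
    have : τ = x.1 := code_injective h
    obtain ⟨a, ha⟩ := List.get_of_mem hx
    exact ⟨a, by simp only [ha]; exact this.symm⟩
  rw [← Finset.sum_subset (Finset.subset_univ
    (Finset.univ.image fun a : Fin J.length => (J.get a).1))]
  · rw [Finset.sum_image (fun a _ b _ h => hinj h)]
    refine Finset.sum_congr rfl fun a _ => ?_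
    rw [hget]
    push_cast
    rfl
  · intro τ _ hτ
    rw [hzero τ, Nat.cast_zero, mul_zero]
    intro ⟨a, ha⟩
    exact hτ (Finset.mem_image.mpr ⟨a, Finset.mem_univ _, ha⟩)

/-! ### arithmetic of the extraction -/

/-- signed reading of a lane -/
def sgnd (w R : ℕ) : ℤ := if R < 2 ^ (w - 1) then (R : ℤ) else (R : ℤ) - 2 ^ w

theorem geom_le (w m : ℕ) (hw : 1 ≤ w) :
    2 ^ w * ∑ e ∈ Finset.range m, 2 ^ (w * e) ≤ 2 * 2 ^ (w * m) := by
  induction m with
  | zero => simp
  | succ m ih =>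
    rw [Finset.sum_range_succ, mul_add]
    have h1 : 2 ^ w * 2 ^ (w * m) = 2 ^ (w * (m + 1)) := by rw [← pow_add]; congr 1; ring
    have h2 : 2 * 2 ^ (w * m) ≤ 2 ^ (w * (m + 1)) := by
      rw [← h1]
      refine Nat.mul_le_mul_right _ ?_
      calc 2 = 2 ^ 1 := rfl
        _ ≤ 2 ^ w := Nat.pow_le_pow_right (by norm_num) hw
    omega

/-- purely arithmetic extraction lemma -/
theorem extract (w m : ℕ) (hw : 1 ≤ w) (hm : 1 ≤ m) (X : ℕ) (T HI LO : ℤ)
    (hX : X < 2 ^ (w * m))
    (hmod : ∃ z : ℤ, (X : ℤ) = T * 2 ^ (w * (m - 1)) + 2 ^ (w * m) * HI + LO + 2 ^ (w * m) * z)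
    (hLO : |LO| < 2 ^ (w * (m - 1))) (hT : |T| < 2 ^ (w - 1)) :
    sgnd w (X / 2 ^ (w * (m - 1))) ≤ T ∧ T ≤ sgnd w (X / 2 ^ (w * (m - 1))) + 1 := by
  obtain ⟨z, hz⟩ := hmod
  set P : ℤ := 2 ^ (w * (m - 1)) with hP
  have hPpos : 0 < P := by positivity
  have hK : (2 : ℤ) ^ (w * m) = P * 2 ^ w := by
    rw [hP, ← pow_add]
    congr 1
    obtain ⟨m', rfl⟩ : ∃ m', m = m' + 1 := ⟨m - 1, by omega⟩
    simp
    ring
  set R : ℕ := X / 2 ^ (w * (m - 1)) with hR
  have hRlt : (R : ℤ) < 2 ^ w := by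
    have : R < 2 ^ w := by
      rw [hR]
      apply Nat.div_lt_of_lt_mul
      have h1 : 2 ^ (w * (m - 1)) * 2 ^ w = 2 ^ (w * m) := by
        rw [← pow_add]
        congr 1
        obtain ⟨m', rfl⟩ : ∃ m', m = m' + 1 := ⟨m - 1, by omega⟩
        simp
        ring
      rw [h1]
      exact hX
    exact_mod_cast this
  have hRnn : (0 : ℤ) ≤ R := Int.natCast_nonneg _
  have hRdiv : (R : ℤ) = (X : ℤ) / P := by
    rw [hR, hP]
    push_cast
    rfl
  -- X = P * (T + 2^w (HI + z)) + LO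
  have hX2 : (X : ℤ) = P * (T + 2 ^ w * (HI + z)) + LO := by
    rw [hz, hK]
    ring
  have hcase : (R : ℤ) = T + 2 ^ w * (HI + z) ∨ (R : ℤ) = T + 2 ^ w * (HI + z) - 1 := by
    rw [abs_lt] at hLO
    rcases le_or_gt 0 LO with h | h
    · left
      rw [hRdiv, hX2]
      rw [add_comm, Int.add_mul_ediv_left _ _ hPpos.ne', Int.ediv_eq_zero_of_lt h hLO.2, zero_add]
    · right
      have e : P * (T + 2 ^ w * (HI + z)) + LO = (LO + P) + P * (T + 2 ^ w * (HI + z) - 1) := by
        ring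
      rw [hRdiv, hX2, e, Int.add_mul_ediv_left _ _ hPpos.ne',
        Int.ediv_eq_zero_of_lt (by linarith) (by linarith), zero_add]
  have hw2 : (2 : ℤ) ^ w = 2 * 2 ^ (w - 1) := by
    obtain ⟨w', rfl⟩ : ∃ w', w = w' + 1 := ⟨w - 1, by omega⟩
    rw [pow_succ]
    simp
    ring
  have hV : (0 : ℤ) < 2 ^ (w - 1) := by positivity
  rw [abs_lt] at hT
  set V : ℤ := 2 ^ (w - 1) with hVdef
  set y : ℤ := HI + z with hy
  unfold sgnd
  have hcast : (R < 2 ^ (w - 1)) ↔ ((R : ℤ) < V) := by
    rw [hVdef]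
    exact_mod_cast Iff.rfl
  have hTle : T ≤ V - 1 := by omega
  have hTge : -V + 1 ≤ T := by omega
  have h2V : 0 < 2 * V := by linarith
  by_cases hc : R < 2 ^ (w - 1)
  · rw [if_pos hc]
    rw [hcast] at hc
    have hy0 : y = 0 := by
      rw [hw2] at hcase
      have h1 : -1 < y := by
        by_contra hcon
        push Not at hcon
        have : 2 * V * y ≤ 2 * V * (-1) := mul_le_mul_of_nonneg_left hcon h2V.le
        rcases hcase with h | h <;> linarith
      have h2 : y < 1 := by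
        by_contra hcon
        push Not at hcon
        have : 2 * V * 1 ≤ 2 * V * y := mul_le_mul_of_nonneg_left hcon h2V.le
        rcases hcase with h | h <;> linarith
      omega
    rw [hy0, mul_zero, add_zero] at hcase
    rcases hcase with h | h <;> constructor <;> linarith
  · rw [if_neg hc]
    rw [hcast] at hc
    push Not at hc
    have hy1 : y = 1 := by
      rw [hw2] at hcase hRlt
      have h1 : 0 < y := by
        by_contra hcon
        push Not at hcon
        have : 2 * V * y ≤ 2 * V * 0 := mul_le_mul_of_nonneg_left hcon h2V.le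
        rcases hcase with h | h <;> linarith
      have h2 : y < 2 := by
        by_contra hcon
        push Not at hcon
        have : 2 * V * 2 ≤ 2 * V * y := mul_le_mul_of_nonneg_left hcon h2V.le
        rcases hcase with h | h <;> linarith
      omega
    rw [hy1, mul_one] at hcase
    rcases hcase with h | h <;> constructor <;> linarith

theorem lane_term (w m : ℕ) (i j : Fin m) (x : ℤ) :
    x * 2 ^ (w * (j : ℕ)) * 2 ^ (w * (m - 1 - i)) =
      (if j = i then x * 2 ^ (w * (m - 1)) else 0) +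
      2 ^ (w * m) * (if i < j then x * 2 ^ (w * (j - i - 1)) else 0) +
      (if j < i then x * 2 ^ (w * (j + (m - 1 - i))) else 0) := by
  have hi := i.isLt
  have hj := j.isLt
  rcases lt_trichotomy i j with h | h | h
  · rw [if_neg h.ne', if_pos h, if_neg (not_lt.mpr h.le), zero_add, add_zero]
    have hv : (i : ℕ) < j := h
    have : w * (j : ℕ) + w * (m - 1 - i) = w * m + w * (j - i - 1) := by
      rw [← mul_add, ← mul_add]
      congr 1
      omega
    rw [mul_assoc, ← pow_add, this, pow_add]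
    ring
  · subst h
    rw [if_pos rfl, if_neg (lt_irrefl _), if_neg (lt_irrefl _), mul_zero, add_zero, add_zero]
    have : w * (i : ℕ) + w * (m - 1 - i) = w * (m - 1) := by
      rw [← mul_add]
      congr 1
      omega
    rw [mul_assoc, ← pow_add, this]
  · rw [if_neg h.ne, if_neg (not_lt.mpr h.le), if_pos h, mul_zero, zero_add, zero_add]
    rw [mul_assoc, ← pow_add, ← mul_add]

theorem lo_sum_le (w m : ℕ) (i : Fin m) :
    ∑ j : Fin m, (if j < i then 2 ^ (w * ((j : ℕ) + (m - 1 - i))) else 0) ≤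
      ∑ e ∈ Finset.range (m - 1), 2 ^ (w * e) := by
  rw [← Finset.sum_filter]
  have hinj : Set.InjOn (fun j : Fin m => (j : ℕ) + (m - 1 - i))
      (Finset.univ.filter fun j : Fin m => j < i) := by
    intro a _ b _ h
    exact Fin.ext (Nat.add_right_cancel h)
  rw [← Finset.sum_image (f := fun e => 2 ^ (w * e)) (g := fun j : Fin m => (j : ℕ) + (m - 1 - i))
    hinj]
  refine Finset.sum_le_sum_of_subset ?_
  intro e he
  rw [Finset.mem_image] at he
  obtain ⟨j, hj, rfl⟩ := he
  rw [Finset.mem_filter] at hj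
  have h1 : (j : ℕ) < i := hj.2
  have h2 := i.isLt
  rw [Finset.mem_range]
  omega

/-- the double sum splits into the top lane, multiples of the modulus, and a small part -/
theorem lane_split (w m : ℕ) (hw : 1 ≤ w) (wt : Fin m → ℕ) (a : Fin m → Fin m → ℤ) (Qb : ℕ)
    (ha : ∀ i j, |a i j| ≤ Qb) (hs : 2 * ((∑ i, wt i) * Qb) < 2 ^ w) :
    ∃ HI LO : ℤ, ∑ i : Fin m, (wt i : ℤ) * (∑ j : Fin m, a i j * 2 ^ (w * (j : ℕ))) *
        2 ^ (w * (m - 1 - i)) =
      (∑ i, (wt i : ℤ) * a i i) * 2 ^ (w * (m - 1)) + 2 ^ (w * m) * HI + LO ∧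
      |LO| < 2 ^ (w * (m - 1)) ∧ |∑ i, (wt i : ℤ) * a i i| < 2 ^ (w - 1) := by
  refine ⟨∑ i, (wt i : ℤ) * ∑ j, (if i < j then a i j * 2 ^ (w * ((j : ℕ) - i - 1)) else 0),
    ∑ i, (wt i : ℤ) * ∑ j, (if j < i then a i j * 2 ^ (w * ((j : ℕ) + (m - 1 - i))) else 0),
    ?_, ?_, ?_⟩
  · rw [Finset.sum_mul, Finset.mul_sum, ← Finset.sum_add_distrib, ← Finset.sum_add_distrib]
    refine Finset.sum_congr rfl fun i _ => ?_
    have h1 : (wt i : ℤ) * (∑ j : Fin m, a i j * 2 ^ (w * (j : ℕ))) * 2 ^ (w * (m - 1 - i)) =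
        (wt i : ℤ) * ∑ j : Fin m, (a i j * 2 ^ (w * (j : ℕ)) * 2 ^ (w * (m - 1 - i))) := by
      rw [mul_assoc, Finset.sum_mul]
    rw [h1]
    simp only [lane_term]
    rw [Finset.sum_add_distrib, Finset.sum_add_distrib, Finset.sum_ite_eq' Finset.univ i,
      if_pos (Finset.mem_univ i), ← Finset.mul_sum]
    ring
  · have hb : |∑ i, (wt i : ℤ) * ∑ j, (if j < i then a i j * 2 ^ (w * ((j : ℕ) + (m - 1 - i)))
        else 0)| ≤ ((∑ i, wt i) * Qb * ∑ e ∈ Finset.range (m - 1), 2 ^ (w * e) : ℕ) := by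
      refine (Finset.abs_sum_le_sum_abs _ _).trans ?_
      have : ∀ i : Fin m, |(wt i : ℤ) * ∑ j, (if j < i then
          a i j * 2 ^ (w * ((j : ℕ) + (m - 1 - i))) else 0)| ≤
          ((wt i * Qb * ∑ e ∈ Finset.range (m - 1), 2 ^ (w * e) : ℕ) : ℤ) := by
        intro i
        rw [abs_mul, Nat.abs_cast]
        have h2 : |∑ j, (if j < i then a i j * 2 ^ (w * ((j : ℕ) + (m - 1 - i))) else 0)| ≤
            ((Qb * ∑ e ∈ Finset.range (m - 1), 2 ^ (w * e) : ℕ) : ℤ) := by
          refine (Finset.abs_sum_le_sum_abs _ _).trans ?_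
          have h3 : ∑ j, |(if j < i then a i j * 2 ^ (w * ((j : ℕ) + (m - 1 - i))) else 0)| ≤
              ((Qb * ∑ j : Fin m, (if j < i then 2 ^ (w * ((j : ℕ) + (m - 1 - i))) else 0) : ℕ) :
                ℤ) := by
            rw [Finset.mul_sum]
            push_cast
            refine Finset.sum_le_sum fun j _ => ?_
            split_ifs with h
            · rw [abs_mul, abs_of_pos (by positivity : (0 : ℤ) < 2 ^ (w * ((j : ℕ) + (m - 1 - i))))]
              exact mul_le_mul_of_nonneg_right (ha i j) (by positivity)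
            · simp
          refine h3.trans ?_
          exact_mod_cast Nat.mul_le_mul_left _ (lo_sum_le w m i)
        calc (wt i : ℤ) * _ ≤ (wt i : ℤ) * ((Qb * ∑ e ∈ Finset.range (m - 1), 2 ^ (w * e) : ℕ) : ℤ) :=
              mul_le_mul_of_nonneg_left h2 (Int.natCast_nonneg _)
          _ = _ := by push_cast; ring
      calc _ ≤ ∑ i : Fin m, ((wt i * Qb * ∑ e ∈ Finset.range (m - 1), 2 ^ (w * e) : ℕ) : ℤ) :=
            Finset.sum_le_sum fun i _ => this i
        _ = _ := by
          rw [Finset.sum_mul, Finset.sum_mul]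
          push_cast
          rfl
    refine lt_of_le_of_lt hb ?_
    have h4 := geom_le w (m - 1) hw
    have h5 : (∑ i, wt i) * Qb * ∑ e ∈ Finset.range (m - 1), 2 ^ (w * e) < 2 ^ (w * (m - 1)) := by
      have hP : 0 < 2 ^ (w * (m - 1)) := by positivity
      have h6 : 2 ^ w * ((∑ i, wt i) * Qb * ∑ e ∈ Finset.range (m - 1), 2 ^ (w * e)) <
          2 ^ w * 2 ^ (w * (m - 1)) := by
        calc 2 ^ w * ((∑ i, wt i) * Qb * ∑ e ∈ Finset.range (m - 1), 2 ^ (w * e)) =
            ((∑ i, wt i) * Qb) * (2 ^ w * ∑ e ∈ Finset.range (m - 1), 2 ^ (w * e)) := by ring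
          _ ≤ ((∑ i, wt i) * Qb) * (2 * 2 ^ (w * (m - 1))) := Nat.mul_le_mul_left _ h4
          _ = (2 * ((∑ i, wt i) * Qb)) * 2 ^ (w * (m - 1)) := by ring
          _ < 2 ^ w * 2 ^ (w * (m - 1)) := Nat.mul_lt_mul_of_pos_right hs hP
      exact Nat.lt_of_mul_lt_mul_left h6
    exact_mod_cast h5
  · have hb : |∑ i, (wt i : ℤ) * a i i| ≤ (((∑ i, wt i) * Qb : ℕ) : ℤ) := by
      refine (Finset.abs_sum_le_sum_abs _ _).trans ?_
      rw [Finset.sum_mul]
      push_cast
      refine Finset.sum_le_sum fun i _ => ?_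
      rw [abs_mul, Nat.abs_cast]
      exact mul_le_mul_of_nonneg_left (ha i i) (Int.natCast_nonneg _)
    refine lt_of_le_of_lt hb ?_
    have hw2 : 2 ^ w = 2 * 2 ^ (w - 1) := by
      obtain ⟨w', rfl⟩ : ∃ w', w = w' + 1 := ⟨w - 1, by omega⟩
      rw [pow_succ]
      simp
      ring
    have : (∑ i, wt i) * Qb < 2 ^ (w - 1) := by omega
    exact_mod_cast this

/-- the weighted sum of matrix elements read off by a run -/
def wdiag {L : ℕ} (q : Matrix (Cfg L) (Cfg L) ℤ) (h : Cfg L → Cfg L) (J : List (Cfg L × ℕ)) : ℤ :=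
  (J.map fun x => (x.2 : ℤ) * q (h x.1) x.1).sum

theorem out_spec {L : ℕ} (w : ℕ) (hw : 1 ≤ w) (J : List (Cfg L × ℕ)) (hJ0 : J ≠ [])
    (hJ : (J.map Prod.fst).Nodup) (Q : Matrix (Cfg L) (Cfg L) ℤ) (Qb : ℕ)
    (hQ : ∀ σ τ, |Q σ τ| ≤ Qb) (hs : 2 * ((J.map Prod.snd).sum * Qb) < 2 ^ w)
    (h : Cfg L → Cfg L) (h' : ℕ → ℕ) (hh : ∀ σ, h' (code σ) = code (h σ)) (f : ℕ → ℕ)
    (hf : ∀ σ : Cfg L, (f (code σ) : ZMod (2 ^ (w * J.length))) =
        ∑ τ, ((Q σ τ : ℤ) : ZMod (2 ^ (w * J.length))) *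
          (esel (2 ^ w) (J.map fun x => (code x.1, x.2)) (code τ) : ℕ)) (K : ℕ) :
    sgnd w (outT (2 ^ w) K (w * (J.length - 1)) (2 ^ (w * J.length) - 1) h' f
      (J.map fun x => (code x.1, x.2))) ≤ wdiag Q h J ∧
    wdiag Q h J ≤ sgnd w (outT (2 ^ w) K (w * (J.length - 1)) (2 ^ (w * J.length) - 1) h' f
      (J.map fun x => (code x.1, x.2))) + 1 := by
  set m := J.length with hm
  have hm1 : 1 ≤ m := by
    rw [hm]
    exact List.length_pos_iff.mpr hJ0
  set J' := J.map fun x => (code x.1, x.2) with hJ'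
  have hlen : J'.length = m := by rw [hJ', List.length_map]
  -- the output as a natural number
  have hland : ∀ x : ℕ, Nat.land x (2 ^ (w * m) - 1) = x % 2 ^ (w * m) := fun x =>
    Nat.and_two_pow_sub_one_eq_mod x (w * m)
  have hshift : ∀ x : ℕ, Nat.shiftRight x (w * (m - 1)) = x / 2 ^ (w * (m - 1)) := fun x =>
    Nat.shiftRight_eq_div_pow x (w * (m - 1))
  have hT : outT (2 ^ w) K (w * (m - 1)) (2 ^ (w * m) - 1) h' f J' =
      (outS (2 ^ w) h' f J' 0 % 2 ^ (w * m)) / 2 ^ (w * (m - 1)) := by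
    unfold outT
    rw [hland, hshift]
  rw [hT]
  set S := outS (2 ^ w) h' f J' 0 with hS
  have hSsum : S = ∑ i : Fin m, (J.get i).2 * f (code (h (J.get i).1)) *
      2 ^ (w * (m - 1 - i)) := by
    rw [hS, outS_eq, zero_mul, zero_add]
    have hbij : ∑ i : Fin J'.length, (J'.get i).2 * f (h' (J'.get i).1) *
        (2 ^ w) ^ (J'.length - 1 - (i : ℕ)) =
        ∑ i : Fin m, (J'.get (Fin.cast hlen.symm i)).2 *
          f (h' (J'.get (Fin.cast hlen.symm i)).1) * (2 ^ w) ^ (J'.length - 1 - (i : ℕ)) := by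
      refine (Equiv.sum_comp (finCongr hlen.symm) (fun i : Fin J'.length =>
        (J'.get i).2 * f (h' (J'.get i).1) * (2 ^ w) ^ (J'.length - 1 - (i : ℕ)))).symm.trans ?_
      rfl
    rw [hbij]
    refine Finset.sum_congr rfl fun i _ => ?_
    have e1 : J'.get (Fin.cast hlen.symm i) = (code (J.get i).1, (J.get i).2) := by
      simp [hJ']
    rw [e1, hlen, ← pow_mul]
    simp only [hh]
  -- wdiag as a sum
  have hwd : wdiag Q h J = ∑ i : Fin m, (((J.get i).2 : ℕ) : ℤ) * Q (h (J.get i).1) (J.get i).1 := by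
    unfold wdiag
    rw [← List.sum_ofFn]
    congr 1
    apply List.ext_getElem
    · simp [hm]
    · intro n h1 h2
      simp
  have hwt : (J.map Prod.snd).sum = ∑ i : Fin m, (J.get i).2 := by
    rw [← List.sum_ofFn]
    congr 1
    apply List.ext_getElem
    · simp [hm]
    · intro n h1 h2
      simp
  obtain ⟨HI, LO, h1, h2, h3⟩ := lane_split w m hw (fun i => (J.get i).2)
    (fun i j => Q (h (J.get i).1) (J.get j).1) Qb (fun i j => hQ _ _) (by rw [← hwt]; exact hs)
  rw [hwd]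
  refine extract w m hw hm1 (S % 2 ^ (w * m)) _ HI LO (Nat.mod_lt _ (by positivity)) ?_ h2 h3
  rw [← h1]
  -- congruence
  have hcong : ((S % 2 ^ (w * m) : ℕ) : ZMod (2 ^ (w * m))) =
      ((∑ i : Fin m, (((J.get i).2 : ℕ) : ℤ) * (∑ j : Fin m, Q (h (J.get i).1) (J.get j).1 *
        2 ^ (w * (j : ℕ))) * 2 ^ (w * (m - 1 - i)) : ℤ) : ZMod (2 ^ (w * m))) := by
    rw [ZMod.natCast_mod, hSsum]
    push_cast
    refine Finset.sum_congr rfl fun i _ => ?_
    rw [hf, sum_esel (2 ^ w) J hJ (fun τ => ((Q (h (J.get i).1) τ : ℤ) : ZMod (2 ^ (w * m))))]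
    congr 2
    refine Finset.sum_congr rfl fun j _ => ?_
    push_cast
    rw [← pow_mul]
  have hz : (((S % 2 ^ (w * m) : ℕ) : ℤ) - (∑ i : Fin m, (((J.get i).2 : ℕ) : ℤ) *
      (∑ j : Fin m, Q (h (J.get i).1) (J.get j).1 *
        2 ^ (w * (j : ℕ))) * 2 ^ (w * (m - 1 - i))) : ℤ) % ((2 ^ (w * m) : ℕ) : ℤ) = 0 := by
    have hz0 : ((((S % 2 ^ (w * m) : ℕ) : ℤ) - (∑ i : Fin m, (((J.get i).2 : ℕ) : ℤ) *
      (∑ j : Fin m, Q (h (J.get i).1) (J.get j).1 *
        2 ^ (w * (j : ℕ))) * 2 ^ (w * (m - 1 - i))) : ℤ) : ZMod (2 ^ (w * m))) = 0 := by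
      rw [Int.cast_sub, ← hcong, Int.cast_natCast, sub_self]
    exact Int.emod_eq_zero_of_dvd ((ZMod.intCast_zmod_eq_zero_iff_dvd _ _).mp hz0)
  obtain ⟨z, hz'⟩ := Int.dvd_of_emod_eq_zero hz
  refine ⟨z, ?_⟩
  push_cast at hz'
  push_cast
  linarith

end

end Crest.Agent.R347.Num
end

-- ▼ part R347/NumSym
section

/-! Reduction of traces to necklace representatives: translations and spin flip. -/

set_option autoImplicit false

namespace Crest.Agent.R347.Num

open Matrix

noncomputable section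

/-! ### translations -/

variable {L : ℕ}

/-- translation by `k` -/
def tr [NeZero L] (k : Fin L) (σ : Cfg L) : Cfg L := fun j => σ (j + k)

theorem tr_zero [NeZero L] (σ : Cfg L) : tr 0 σ = σ := by
  funext j; simp [tr]

theorem tr_tr [NeZero L] (k l : Fin L) (σ : Cfg L) : tr k (tr l σ) = tr (k + l) σ := by
  funext j; simp [tr, add_assoc]

def trE [NeZero L] (k : Fin L) : Equiv.Perm (Cfg L) where
  toFun := tr k
  invFun := tr (-k)
  left_inv σ := by rw [tr_tr, neg_add_cancel, tr_zero]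
  right_inv σ := by rw [tr_tr, add_neg_cancel, tr_zero]

/-- number of translations fixing `σ` -/
def stab [NeZero L] (σ : Cfg L) : ℕ := (Finset.univ.filter fun k : Fin L => tr k σ = σ).card

/-- canonical representative of the translation orbit -/
def canon [NeZero L] (σ : Cfg L) : Prop := ∀ k : Fin L, code σ ≤ code (tr k σ)

instance [NeZero L] (σ : Cfg L) : Decidable (canon σ) := by unfold canon; infer_instance

def wgt [NeZero L] (σ : Cfg L) : ℚ := if canon σ then (L : ℚ) / stab σ else 0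

theorem stab_pos [NeZero L] (σ : Cfg L) : 0 < stab σ := by
  unfold stab
  rw [Finset.card_pos]
  exact ⟨0, by simp [tr_zero]⟩

theorem sum_wgt_tr [NeZero L] (σ : Cfg L) : ∑ k : Fin L, wgt (tr k σ) = L := by
  obtain ⟨k0, _, hk0⟩ := Finset.exists_min_image (Finset.univ : Finset (Fin L))
    (fun k => code (tr k σ)) ⟨0, Finset.mem_univ _⟩
  set c := tr k0 σ with hc
  have hcanon : ∀ k : Fin L, canon (tr k σ) ↔ tr k σ = c := by
    intro k
    constructor
    · intro h
      apply code_injective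
      apply le_antisymm
      · have := h (k0 - k)
        rw [tr_tr, sub_add_cancel] at this
        exact this
      · exact hk0 k (Finset.mem_univ _)
    · intro h k'
      rw [h, hc, tr_tr]
      exact hk0 _ (Finset.mem_univ _)
  have hcard : (Finset.univ.filter fun k : Fin L => tr k σ = c).card = stab c := by
    unfold stab
    refine Finset.card_bij (fun k _ => k - k0) ?_ ?_ ?_
    · intro k hk
      rw [Finset.mem_filter] at hk ⊢
      refine ⟨Finset.mem_univ _, ?_⟩
      rw [hc, tr_tr, sub_add_cancel, ← hc]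
      exact hk.2
    · intro a _ b _ h
      exact sub_left_injective h
    · intro b hb
      rw [Finset.mem_filter] at hb
      refine ⟨b + k0, ?_, add_sub_cancel_right b k0⟩
      rw [Finset.mem_filter]
      refine ⟨Finset.mem_univ _, ?_⟩
      rw [← tr_tr]
      exact hb.2
  have h1 : ∀ k : Fin L, wgt (tr k σ) = if tr k σ = c then (L : ℚ) / stab c else 0 := by
    intro k
    unfold wgt
    by_cases h : tr k σ = c
    · rw [if_pos ((hcanon k).mpr h), if_pos h, h]
    · rw [if_neg (fun hh => h ((hcanon k).mp hh)), if_neg h]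
  simp only [h1]
  rw [← Finset.sum_filter, Finset.sum_const, hcard, nsmul_eq_mul]
  have : (stab c : ℚ) ≠ 0 := by exact_mod_cast (stab_pos c).ne'
  field_simp

/-- averaging over translations -/
theorem sum_eq_wgt [NeZero L] (f : Cfg L → ℚ) (hf : ∀ k σ, f (tr k σ) = f σ) :
    ∑ σ, f σ = ∑ σ, wgt σ * f σ := by
  have hL : (L : ℚ) ≠ 0 := by exact_mod_cast NeZero.ne L
  have h1 : (L : ℚ) * ∑ σ, f σ = ∑ σ, ∑ k : Fin L, wgt (tr k σ) * f σ := by
    rw [Finset.mul_sum]
    refine Finset.sum_congr rfl fun σ _ => ?_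
    rw [← Finset.sum_mul, sum_wgt_tr]
  have h2 : ∑ σ, ∑ k : Fin L, wgt (tr k σ) * f σ = (L : ℚ) * ∑ σ, wgt σ * f σ := by
    rw [Finset.sum_comm]
    have : ∀ k : Fin L, ∑ σ, wgt (tr k σ) * f σ = ∑ σ, wgt σ * f σ := by
      intro k
      rw [← Equiv.sum_comp (trE k) (fun σ => wgt σ * f σ)]
      refine Finset.sum_congr rfl fun σ _ => ?_
      show _ = wgt (tr k σ) * f (tr k σ)
      rw [hf]
    simp only [this]
    rw [Finset.sum_const, Finset.card_univ, Fintype.card_fin, nsmul_eq_mul]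
  rw [h2] at h1
  exact mul_left_cancel₀ hL h1

/-! ### spin flip -/

def fl (σ : Cfg L) : Cfg L := fun j => (σ j).rev

theorem fl_fl (σ : Cfg L) : fl (fl σ) = σ := by
  funext j; simp [fl]

def flE : Equiv.Perm (Cfg L) where
  toFun := fl
  invFun := fl
  left_inv := fl_fl
  right_inv := fl_fl

/-- digit sum: `L - M` -/
def dsum (σ : Cfg L) : ℕ := ∑ j, (σ j : ℕ)

theorem dsum_fl (σ : Cfg L) : dsum (fl σ) + dsum σ = 2 * L := by
  unfold dsum fl
  rw [← Finset.sum_add_distrib]
  have : ∀ j, (((σ j).rev : Fin 3) : ℕ) + (σ j : ℕ) = 2 := by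
    intro j
    have := (σ j).isLt
    rw [Fin.val_rev]
    omega
  rw [Finset.sum_congr rfl (fun j _ => this j)]
  simp [mul_comm]

theorem dsum_tr [NeZero L] (k : Fin L) (σ : Cfg L) : dsum (tr k σ) = dsum σ := by
  unfold dsum tr
  exact Equiv.sum_comp (Equiv.addRight k) (fun j => (σ j : ℕ))

/-- multiplicity: keep `M ≥ 0` -/
def mul0 (σ : Cfg L) : ℚ := if dsum σ < L then 2 else if dsum σ = L then 1 else 0

theorem sum_eq_mul0 (f : Cfg L → ℚ) (hf : ∀ σ, f (fl σ) = f σ) :
    ∑ σ, f σ = ∑ σ, mul0 σ * f σ := by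
  have h1 : ∑ σ, mul0 σ * f σ = ∑ σ, mul0 (fl σ) * f σ := by
    rw [← Equiv.sum_comp (flE (L := L)) (fun σ => mul0 σ * f σ)]
    refine Finset.sum_congr rfl fun σ _ => ?_
    show mul0 (fl σ) * f (fl σ) = _
    rw [hf]
  have h2 : ∀ σ : Cfg L, mul0 σ + mul0 (fl σ) = 2 := by
    intro σ
    have := dsum_fl σ
    unfold mul0
    rcases lt_trichotomy (dsum σ) L with h | h | h
    · rw [if_pos h, if_neg (by omega), if_neg (by omega)]; norm_num
    · rw [if_neg (by omega), if_pos h, if_neg (by omega), if_pos (by omega)]; norm_num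
    · rw [if_neg (by omega), if_neg (by omega), if_pos (by omega)]; norm_num
  have h3 : ∑ σ, mul0 σ * f σ + ∑ σ, mul0 (fl σ) * f σ = 2 * ∑ σ, f σ := by
    rw [← Finset.sum_add_distrib, Finset.mul_sum]
    refine Finset.sum_congr rfl fun σ _ => ?_
    rw [← add_mul, h2]
  rw [← h1] at h3
  linarith

/-! ### representatives -/

/-- total weight -/
def wt0 [NeZero L] (σ : Cfg L) : ℚ := wgt σ * mul0 σ

theorem sum_reps [NeZero L] (J : List (Cfg L × ℕ)) (hJ : (J.map Prod.fst).Nodup)
    (hw : ∀ x ∈ J, (x.2 : ℚ) = wt0 x.1) (hs : (J.map Prod.snd).sum = 3 ^ L)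
    (f : Cfg L → ℚ) (hf : ∀ k σ, f (tr k σ) = f σ) (hf' : ∀ σ, f (fl σ) = f σ) :
    ∑ σ, f σ = (J.map fun x => (x.2 : ℚ) * f x.1).sum := by
  have key : ∀ g : Cfg L → ℚ, (∀ k σ, g (tr k σ) = g σ) → (∀ σ, g (fl σ) = g σ) →
      ∑ σ, g σ = ∑ σ, wt0 σ * g σ := by
    intro g hg hg'
    rw [sum_eq_mul0 g hg', sum_eq_wgt (fun σ => mul0 σ * g σ)]
    · refine Finset.sum_congr rfl fun σ _ => ?_
      unfold wt0
      ring
    · intro k σ
      show mul0 (tr k σ) * g (tr k σ) = _
      rw [hg]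
      unfold mul0
      rw [dsum_tr]
  have hnn : ∀ σ : Cfg L, 0 ≤ wt0 σ := by
    intro σ
    unfold wt0 wgt mul0
    split_ifs <;> positivity
  have htot : ∑ σ : Cfg L, wt0 σ = 3 ^ L := by
    have := key (fun _ => 1) (fun _ _ => rfl) (fun _ => rfl)
    simp only [mul_one] at this
    rw [← this]
    simp
  set A : Finset (Cfg L) := (J.map Prod.fst).toFinset with hA
  have hsumA : ∀ g : Cfg L → ℚ, ∑ σ ∈ A, wt0 σ * g σ = (J.map fun x => (x.2 : ℚ) * g x.1).sum := by
    intro g
    rw [hA, List.sum_toFinset _ hJ, List.map_map]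
    refine congrArg List.sum (List.map_congr_left fun x hx => ?_)
    show wt0 x.1 * g x.1 = _
    rw [hw x hx]
  have hA1 : ∑ σ ∈ A, wt0 σ = 3 ^ L := by
    have := hsumA (fun _ => 1)
    simp only [mul_one] at this
    rw [this]
    have h2 : (J.map fun x => (x.2 : ℚ)).sum = (((J.map Prod.snd).sum : ℕ) : ℚ) := by
      rw [Nat.cast_list_sum, List.map_map]
      rfl
    rw [h2, hs]
    norm_num
  have hzero : ∀ σ, σ ∉ A → wt0 σ = 0 := by
    have h3 : ∑ σ ∈ Finset.univ \ A, wt0 σ = 0 := by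
      have := Finset.sum_sdiff (Finset.subset_univ A) (f := fun σ => wt0 σ)
      rw [htot, hA1] at this
      linarith
    intro σ hσ
    exact (Finset.sum_eq_zero_iff_of_nonneg (fun σ _ => hnn σ)).mp h3 σ (by simp [hσ])
  rw [key f hf hf', ← hsumA f, ← Finset.sum_subset (Finset.subset_univ A)]
  intro σ _ hσ
  rw [hzero σ hσ, zero_mul]

theorem sum_reps_int [NeZero L] (J : List (Cfg L × ℕ)) (hJ : (J.map Prod.fst).Nodup)
    (hw : ∀ x ∈ J, (x.2 : ℚ) = wt0 x.1) (hs : (J.map Prod.snd).sum = 3 ^ L)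
    (f : Cfg L → ℤ) (hf : ∀ k σ, f (tr k σ) = f σ) (hf' : ∀ σ, f (fl σ) = f σ) :
    ∑ σ, f σ = (J.map fun x => (x.2 : ℤ) * f x.1).sum := by
  have h := sum_reps J hJ hw hs (fun σ => (f σ : ℚ)) (fun k σ => by rw [hf]) (fun σ => by rw [hf'])
  have h2 : (J.map fun x => (x.2 : ℚ) * (f x.1 : ℚ)).sum =
      (((J.map fun x => (x.2 : ℤ) * f x.1).sum : ℤ) : ℚ) := by
    rw [Int.cast_list_sum, List.map_map]
    refine congrArg List.sum (List.map_congr_left fun x _ => ?_)
    simp
  rw [h2] at h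
  exact_mod_cast h

end

end Crest.Agent.R347.Num
end

-- ▼ part R347/NumInv
section

/-! Symmetries of the ring matrix and of polynomials in it. -/

set_option autoImplicit false

namespace Crest.Agent.R347.Num

open Matrix

noncomputable section

/-! ### conjugation by signed permutations -/

section conj
variable {κ : Type*} [Fintype κ] [DecidableEq κ]

def conjE (e : Equiv.Perm κ) (s : κ → ℤ) (hs : ∀ σ, s σ * s σ = 1) :
    Matrix κ κ ℤ →+* Matrix κ κ ℤ where
  toFun X := Matrix.of fun σ τ => s σ * s τ * X (e σ) (e τ)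
  map_one' := by
    ext σ τ
    simp only [Matrix.of_apply, Matrix.one_apply]
    by_cases h : σ = τ
    · subst h; simp [hs]
    · rw [if_neg h, if_neg (fun h' => h (e.injective h')), mul_zero]
  map_mul' X Y := by
    ext σ τ
    simp only [Matrix.of_apply, Matrix.mul_apply]
    rw [← Equiv.sum_comp e, Finset.mul_sum]
    refine Finset.sum_congr rfl fun ν _ => ?_
    have : s σ * s τ * (X (e σ) (e ν) * Y (e ν) (e τ)) =
      (s ν * s ν) * (s σ * s τ * (X (e σ) (e ν) * Y (e ν) (e τ))) := by rw [hs]; ring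
    rw [this]
    ring
  map_zero' := by ext σ τ; simp
  map_add' X Y := by ext σ τ; simp [mul_add]

theorem clv_conj (e : Equiv.Perm κ) (s : κ → ℤ) (hs : ∀ σ, s σ * s σ = 1) (G : Matrix κ κ ℤ)
    (hG : ∀ σ τ, s σ * s τ * G (e σ) (e τ) = G σ τ) (ρ : ℕ) (us : List ℕ) (σ τ : κ) :
    s σ * s τ * clv G ρ us (e σ) (e τ) = clv G ρ us σ τ := by
  have h := clv_map (conjE e s hs) G ρ us
  have hG' : conjE e s hs G = G := by
    ext σ τ
    exact hG σ τ
  rw [hG'] at h
  have := congrFun (congrFun h σ) τ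
  exact this

theorem cl_commute {A : Type*} [Ring A] (N G : A) (h : Commute N G) (ρ : ℕ) (us : List ℕ)
    (a b : A) (ha : Commute N a) (hb : Commute N b) :
    Commute N (cl G ρ us a b).1 ∧ Commute N (cl G ρ us a b).2 := by
  induction us generalizing a b with
  | nil => exact ⟨ha, hb⟩
  | cons u us ih =>
    rw [cl]
    refine ih _ _ ?_ ha
    exact ((Nat.cast_commute u N).symm.add_right (h.mul_right ha)).sub_right
      ((Nat.cast_commute ρ N).symm.mul_right hb)

theorem clv_commute {A : Type*} [Ring A] (N G : A) (h : Commute N G) (ρ : ℕ) (us : List ℕ) :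
    Commute N (clv G ρ us) :=
  (cl_commute N G h ρ us 0 0 (Commute.zero_right _) (Commute.zero_right _)).1

theorem clv_zero_of_label (G : Matrix κ κ ℤ) (c : κ → ℤ) (hG : ∀ σ τ, c σ ≠ c τ → G σ τ = 0)
    (ρ : ℕ) (us : List ℕ) (σ τ : κ) (h : c σ ≠ c τ) : clv G ρ us σ τ = 0 := by
  have hc : Commute (Matrix.diagonal c) G := by
    show Matrix.diagonal c * G = G * Matrix.diagonal c
    ext a b
    rw [Matrix.diagonal_mul, Matrix.mul_diagonal]
    by_cases hab : c a = c b
    · rw [hab, mul_comm]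
    · rw [hG a b hab, mul_zero, zero_mul]
  have h2 := clv_commute _ _ hc ρ us
  have h3 := congrFun (congrFun (show Matrix.diagonal c * clv G ρ us =
    clv G ρ us * Matrix.diagonal c from h2) σ) τ
  rw [Matrix.diagonal_mul, Matrix.mul_diagonal, mul_comm] at h3
  by_contra hne
  exact h (mul_left_cancel₀ hne h3)

end conj

variable {L : ℕ}

/-! ### bond matrices under translations, signs, flip -/

theorem tr_injective [NeZero L] (k : Fin L) : Function.Injective (tr k : Cfg L → Cfg L) :=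
  (trE k).injective

theorem tr_upd2 [NeZero L] (m : Fin L) (σ : Cfg L) (j k : Fin L) (a c : Fin 3) :
    tr m (upd2 σ (j + m) (k + m) a c) = upd2 (tr m σ) j k a c := by
  funext i
  unfold tr upd2
  by_cases h1 : i = k
  · subst h1; simp
  · have h1' : i + m ≠ k + m := fun h => h1 (add_right_cancel h)
    rw [Function.update_of_ne h1', Function.update_of_ne h1]
    by_cases h2 : i = j
    · subst h2; simp
    · have h2' : i + m ≠ j + m := fun h => h2 (add_right_cancel h)
      rw [Function.update_of_ne h2', Function.update_of_ne h2]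

theorem Hb_tr [NeZero L] (m : Fin L) (j k : Fin L) (tw : Bool) (σ τ : Cfg L) :
    Hb ⟨j, k, tw⟩ (tr m σ) (tr m τ) = Hb ⟨j + m, k + m, tw⟩ σ τ := by
  simp only [Hb, Matrix.of_apply]
  refine Finset.sum_congr rfl fun a _ => Finset.sum_congr rfl fun c _ => ?_
  have : (tr m τ = upd2 (tr m σ) j k a c) ↔ (τ = upd2 σ (j + m) (k + m) a c) := by
    rw [← tr_upd2]
    exact (tr_injective m).eq_iff
  simp only [this]
  rfl

/-- the local sign of a π-rotation about z -/
def es (x : Fin 3) : ℤ := if x = 1 then 1 else -1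

theorem es_mul_self (x : Fin 3) : es x * es x = 1 := by
  unfold es; split_ifs <;> norm_num

theorem es_hl_left : ∀ (b : Bool) (a c a' c' : Fin 3),
    es a * es a' * hl b a c a' c' = hl (!b) a c a' c' := by decide

theorem es_hl_right : ∀ (b : Bool) (a c a' c' : Fin 3),
    es c * es c' * hl b a c a' c' = hl (!b) a c a' c' := by decide

theorem Hb_sign (i k z : Fin L) (hik : i ≠ k) (b : Bool) (σ τ : Cfg L) :
    es (σ z) * es (τ z) * Hb ⟨i, k, b⟩ σ τ =
      Hb ⟨i, k, xor b (xor (decide (i = z)) (decide (k = z)))⟩ σ τ := by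
  simp only [Hb, Matrix.of_apply]
  rw [Finset.mul_sum]
  refine Finset.sum_congr rfl fun a _ => ?_
  rw [Finset.mul_sum]
  refine Finset.sum_congr rfl fun c _ => ?_
  by_cases h : τ = upd2 σ i k a c
  · rw [if_pos h, mul_one, mul_one]
    have hz : τ z = if z = k then c else if z = i then a else σ z := by
      rw [h]
      unfold upd2
      by_cases h1 : z = k
      · subst h1; simp
      · rw [Function.update_of_ne h1, if_neg h1]
        by_cases h2 : z = i
        · subst h2; simp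
        · rw [Function.update_of_ne h2, if_neg h2]
    by_cases h1 : z = k
    · subst h1
      rw [if_pos rfl] at hz
      rw [hz, es_hl_right]
      have : decide (i = z) = false := decide_eq_false hik
      simp [this]
    · rw [if_neg h1] at hz
      by_cases h2 : z = i
      · subst h2
        rw [if_pos rfl] at hz
        rw [hz, es_hl_left]
        have : decide (k = z) = false := decide_eq_false (fun h => h1 h.symm)
        simp [this]
      · rw [if_neg h2] at hz
        have e1 : decide (k = z) = false := decide_eq_false (fun h => h1 h.symm)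
        have e2 : decide (i = z) = false := decide_eq_false (fun h => h2 h.symm)
        rw [hz, es_mul_self, one_mul]
        simp [e1, e2]
  · rw [if_neg h, mul_zero, mul_zero, mul_zero]

theorem hl_rev : ∀ (b : Bool) (a c a' c' : Fin 3),
    hl b a.rev c.rev a'.rev c'.rev = hl b a c a' c' := by decide

theorem fl_upd2 (σ : Cfg L) (j k : Fin L) (a c : Fin 3) :
    fl (upd2 σ j k a c) = upd2 (fl σ) j k a.rev c.rev := by
  funext i
  unfold fl upd2
  by_cases h1 : i = k
  · subst h1; simp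
  · rw [Function.update_of_ne h1, Function.update_of_ne h1]
    by_cases h2 : i = j
    · subst h2; simp
    · rw [Function.update_of_ne h2, Function.update_of_ne h2]

theorem Hb_fl (b : Bond L) (σ τ : Cfg L) : Hb b (fl σ) (fl τ) = Hb b σ τ := by
  simp only [Hb, Matrix.of_apply]
  rw [← Equiv.sum_comp Fin.revPerm]
  refine Finset.sum_congr rfl fun a _ => ?_
  rw [← Equiv.sum_comp Fin.revPerm]
  refine Finset.sum_congr rfl fun c _ => ?_
  simp only [Fin.revPerm_apply]
  have h1 : (fl τ = upd2 (fl σ) b.j b.k a.rev c.rev) ↔ (τ = upd2 σ b.j b.k a c) := by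
    rw [← fl_upd2]
    exact (flE (L := L)).injective.eq_iff
  simp only [h1]
  rw [show (fl σ) b.j = (σ b.j).rev from rfl, show (fl σ) b.k = (σ b.k).rev from rfl, hl_rev]

theorem hl_sum : ∀ (b : Bool) (a c a' c' : Fin 3), hl b a c a' c' ≠ 0 →
    (a' : ℕ) + c' = a + c := by decide

theorem dsum_update (σ : Cfg L) (j : Fin L) (a : Fin 3) :
    dsum (Function.update σ j a) + (σ j : ℕ) = dsum σ + (a : ℕ) := by
  unfold dsum
  rw [← Finset.add_sum_erase _ _ (Finset.mem_univ j),
    ← Finset.add_sum_erase (a := j) _ _ (Finset.mem_univ j)]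
  rw [Function.update_self]
  have : ∑ x ∈ Finset.univ.erase j, ((Function.update σ j a x : Fin 3) : ℕ) =
      ∑ x ∈ Finset.univ.erase j, ((σ x : Fin 3) : ℕ) := by
    refine Finset.sum_congr rfl fun x hx => ?_
    rw [Function.update_of_ne (Finset.ne_of_mem_erase hx)]
  rw [this]
  ring

theorem dsum_upd2 (σ : Cfg L) {j k : Fin L} (hjk : j ≠ k) (a c : Fin 3) :
    dsum (upd2 σ j k a c) + (σ j : ℕ) + (σ k : ℕ) = dsum σ + (a : ℕ) + (c : ℕ) := by
  have h1 := dsum_update σ j a
  have h2 := dsum_update (Function.update σ j a) k c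
  rw [Function.update_of_ne hjk.symm] at h2
  unfold upd2
  omega

theorem Hb_label (b : Bond L) (hb : b.j ≠ b.k) (σ τ : Cfg L) (h : dsum σ ≠ dsum τ) :
    Hb b σ τ = 0 := by
  simp only [Hb, Matrix.of_apply]
  refine Finset.sum_eq_zero fun a _ => Finset.sum_eq_zero fun c _ => ?_
  by_cases h1 : τ = upd2 σ b.j b.k a c
  · rw [if_pos h1, mul_one]
    by_contra hne
    have h2 := hl_sum _ _ _ _ _ hne
    have h3 := dsum_upd2 σ hb a c
    rw [← h1] at h3
    omega
  · rw [if_neg h1, mul_zero]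

/-! ### the ring matrix -/

theorem ring_sum {n : ℕ} (tw : Bool) (σ τ : Cfg (n + 1)) :
    ((ringBonds (n + 1) tw).map Hb).sum σ τ =
      ∑ j : Fin (n + 1), Hb ⟨j, j + 1, tw && decide (j = Fin.last n)⟩ σ τ := by
  unfold ringBonds
  rw [List.map_map, ← Fin.sum_univ_def, Matrix.sum_apply]
  refine Finset.sum_congr rfl fun j _ => ?_
  have : decide (j.val + 1 = n + 1) = decide (j = Fin.last n) := by
    congr 1
    rw [Fin.ext_iff, Fin.val_last]
    simp
  simp only [Function.comp_def, finRotate_succ_apply, this]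

theorem Gmat_apply (κ c1 : ℕ) (bl : List (Bond L)) (σ τ : Cfg L) :
    Gmat κ c1 bl [] σ τ = ((c1 : ℤ) - κ * bl.length) * (if σ = τ then 1 else 0)
      - κ * (bl.map Hb).sum σ τ := by
  unfold Gmat
  have : (Matrix.diagonal (fun σ : Cfg L => (fD [] σ : ℤ))) = 0 := by
    ext σ τ
    simp [Matrix.diagonal_apply, fD]
  rw [this, sub_zero]
  simp only [Matrix.sub_apply, Matrix.smul_apply, smul_eq_mul, Matrix.one_apply]

/-- translation sign -/
def ts {n : ℕ} (tw : Bool) (σ : Cfg (n + 1)) : ℤ := if tw then es (σ 0) else 1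

theorem ts_mul_self {n : ℕ} (tw : Bool) (σ : Cfg (n + 1)) : ts tw σ * ts tw σ = 1 := by
  unfold ts; split_ifs
  · exact es_mul_self _
  · norm_num

theorem last_add_one_iff {n : ℕ} (j : Fin (n + 1)) : (j + 1 = 0) ↔ (j = Fin.last n) := by
  constructor
  · intro h
    have : j = -1 := eq_neg_of_add_eq_zero_left h
    rw [this]
    apply Fin.ext
    simp [Fin.neg_def, Fin.val_one']
    rcases n with _ | n
    · simp
    · simp
  · rintro rfl
    exact Fin.last_add_one n

theorem ring_sum_tr {n : ℕ} (hn : 1 ≤ n) (tw : Bool) (σ τ : Cfg (n + 1)) :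
    ts tw σ * ts tw τ * ((ringBonds (n + 1) tw).map Hb).sum (tr 1 σ) (tr 1 τ) =
      ((ringBonds (n + 1) tw).map Hb).sum σ τ := by
  rw [ring_sum, ring_sum]
  simp only [Hb_tr]
  have h1 : ∑ j : Fin (n + 1), Hb ⟨j + 1, j + 1 + 1, tw && decide (j = Fin.last n)⟩ σ τ =
      ∑ i : Fin (n + 1), Hb ⟨i, i + 1, tw && decide (i = 0)⟩ σ τ := by
    rw [← Equiv.sum_comp (Equiv.addRight (1 : Fin (n + 1)))
      (fun i => Hb ⟨i, i + 1, tw && decide (i = 0)⟩ σ τ)]
    refine Finset.sum_congr rfl fun j _ => ?_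
    simp only [Equiv.coe_addRight, last_add_one_iff]
  rw [h1, Finset.mul_sum]
  refine Finset.sum_congr rfl fun i _ => ?_
  have hne : i ≠ i + 1 := by
    intro h
    have h1 : (1 : Fin (n + 1)) = 0 := by
      have : i + 0 = i + 1 := by rw [add_zero]; exact h
      exact (add_left_cancel this).symm
    have h2 := congrArg Fin.val h1
    rw [Fin.val_one', Fin.val_zero, Nat.mod_eq_of_lt (by omega)] at h2
    omega
  cases tw
  · simp [ts]
  · simp only [ts, if_true, Bool.true_and]
    rw [Hb_sign i (i + 1) 0 hne]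
    congr 2
    simp only [last_add_one_iff]
    cases decide (i = 0) <;> cases decide (i = Fin.last n) <;> rfl

theorem G_tr {n : ℕ} (hn : 1 ≤ n) (tw : Bool) (c1 : ℕ) (σ τ : Cfg (n + 1)) :
    ts tw σ * ts tw τ * Gmat 1 c1 (ringBonds (n + 1) tw) [] (trE 1 σ) (trE 1 τ) =
      Gmat 1 c1 (ringBonds (n + 1) tw) [] σ τ := by
  show ts tw σ * ts tw τ * Gmat 1 c1 (ringBonds (n + 1) tw) [] (tr 1 σ) (tr 1 τ) = _
  rw [Gmat_apply, Gmat_apply, mul_sub, mul_left_comm _ ((1 : ℕ) : ℤ), ring_sum_tr hn]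
  congr 1
  by_cases h : σ = τ
  · subst h
    rw [ts_mul_self, one_mul]
    simp
  · rw [if_neg (fun h' => h (tr_injective 1 h')), if_neg h, mul_zero, mul_zero]

theorem G_fl {n : ℕ} (tw : Bool) (c1 : ℕ) (σ τ : Cfg (n + 1)) :
    (1 : ℤ) * 1 * Gmat 1 c1 (ringBonds (n + 1) tw) [] (flE σ) (flE τ) =
      Gmat 1 c1 (ringBonds (n + 1) tw) [] σ τ := by
  show (1 : ℤ) * 1 * Gmat 1 c1 (ringBonds (n + 1) tw) [] (fl σ) (fl τ) = _
  rw [Gmat_apply, Gmat_apply, one_mul, one_mul]
  congr 1
  · have : (fl σ = fl τ) ↔ σ = τ := (flE (L := n + 1)).injective.eq_iff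
    simp only [this]
  · rw [ring_sum, ring_sum]
    simp only [Hb_fl]

/-! ### the invariant sums -/

section inv
variable {n : ℕ} (tw : Bool) (c1 ρ : ℕ) (us : List ℕ)

/-- the polynomial of the ring matrix -/
def Qm (n : ℕ) (tw : Bool) (c1 ρ : ℕ) (us : List ℕ) : Matrix (Cfg (n + 1)) (Cfg (n + 1)) ℤ :=
  clv (Gmat 1 c1 (ringBonds (n + 1) tw) []) ρ us

theorem Qm_tr_one (hn : 1 ≤ n) (σ τ : Cfg (n + 1)) :
    ts tw σ * ts tw τ * Qm n tw c1 ρ us (tr 1 σ) (tr 1 τ) = Qm n tw c1 ρ us σ τ :=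
  clv_conj (trE 1) (ts tw) (ts_mul_self tw) _ (G_tr hn tw c1) ρ us σ τ

theorem Qm_fl (σ τ : Cfg (n + 1)) :
    Qm n tw c1 ρ us (fl σ) (fl τ) = Qm n tw c1 ρ us σ τ := by
  have := clv_conj (flE (L := n + 1)) (fun _ => 1) (fun _ => by norm_num) _
    (G_fl tw c1) ρ us σ τ
  rw [one_mul, one_mul] at this
  exact this

theorem inv_of_one {f : Cfg (n + 1) → ℤ} (h : ∀ σ, f (tr 1 σ) = f σ) (k : Fin (n + 1))
    (σ : Cfg (n + 1)) : f (tr k σ) = f σ := by
  induction k using Fin.induction with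
  | zero => rw [tr_zero]
  | succ i ih =>
    have : i.succ = 1 + i.castSucc := (Fin.coeSucc_eq_succ (a := i)).symm.trans (add_comm _ _)
    rw [this, ← tr_tr, h, ih]

theorem Qm_diag_tr (hn : 1 ≤ n) (k : Fin (n + 1)) (σ : Cfg (n + 1)) :
    Qm n tw c1 ρ us (tr k σ) (tr k σ) = Qm n tw c1 ρ us σ σ := by
  refine inv_of_one (f := fun σ => Qm n tw c1 ρ us σ σ) (fun σ => ?_) k σ
  have := Qm_tr_one tw c1 ρ us hn σ σ
  rw [ts_mul_self, one_mul] at this
  exact this


theorem ts_fl (σ : Cfg (n + 1)) : ts tw (fl σ) = ts tw σ := by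
  unfold ts fl
  have : ∀ x : Fin 3, es x.rev = es x := by decide
  rw [this]

theorem Qm_flip_tr (hn : 1 ≤ n) (k : Fin (n + 1)) (σ : Cfg (n + 1)) :
    Qm n tw c1 ρ us (fl (tr k σ)) (tr k σ) = Qm n tw c1 ρ us (fl σ) σ := by
  refine inv_of_one (f := fun σ => Qm n tw c1 ρ us (fl σ) σ) (fun σ => ?_) k σ
  have := Qm_tr_one tw c1 ρ us hn (fl σ) σ
  rw [ts_fl, ts_mul_self, one_mul] at this
  exact this

theorem Qm_flip_fl (σ : Cfg (n + 1)) :
    Qm n tw c1 ρ us (fl (fl σ)) (fl σ) = Qm n tw c1 ρ us (fl σ) σ :=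
  Qm_fl tw c1 ρ us (fl σ) σ

theorem Qm_label (hn : 1 ≤ n) (σ τ : Cfg (n + 1)) (h : dsum σ ≠ dsum τ) :
    Qm n tw c1 ρ us σ τ = 0 := by
  refine clv_zero_of_label _ (fun σ => (dsum σ : ℤ)) ?_ ρ us σ τ (by exact_mod_cast h)
  intro a b hab
  have hab' : dsum a ≠ dsum b := by exact_mod_cast hab
  rw [Gmat_apply]
  have h1 : a ≠ b := fun h => hab' (by rw [h])
  rw [if_neg h1, mul_zero]
  have h2 : ((ringBonds (n + 1) tw).map Hb).sum a b = 0 := by
    rw [ring_sum]
    refine Finset.sum_eq_zero fun j _ => Hb_label _ ?_ a b hab'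
    show j ≠ j + 1
    intro h
    have h1 : (1 : Fin (n + 1)) = 0 := by
      have : j + 0 = j + 1 := by rw [add_zero]; exact h
      exact (add_left_cancel this).symm
    have h2 := congrArg Fin.val h1
    rw [Fin.val_one', Fin.val_zero, Nat.mod_eq_of_lt (by omega)] at h2
    omega
  rw [h2]
  simp

/-- global sign of the π-rotation about z -/
def sg (σ : Cfg L) : ℤ := (-1) ^ (dsum σ)

theorem sg_tr [NeZero L] (k : Fin L) (σ : Cfg L) : sg (tr k σ) = sg σ := by
  unfold sg; rw [dsum_tr]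

theorem sg_fl (σ : Cfg L) : sg (fl σ) = sg σ := by
  unfold sg
  have h := dsum_fl σ
  have h2 : ((-1 : ℤ)) ^ (dsum (fl σ) + dsum σ) = 1 := by
    rw [h, pow_mul]; simp
  rw [pow_add] at h2
  rcases neg_one_pow_eq_or ℤ (dsum (fl σ)) with h3 | h3 <;>
    rcases neg_one_pow_eq_or ℤ (dsum σ) with h4 | h4 <;> rw [h3, h4] at h2 ⊢ <;>
    norm_num at h2

end inv

end

end Crest.Agent.R347.Num
end

-- ▼ part R347/ExpApprox
section

/-!
Certified polynomial approximation of the exponential on `[-1,1]` in the basis of Chebyshev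
polynomials of the second kind.
-/

set_option autoImplicit false

namespace Crest.Agent.R347.ExpApprox

open Polynomial Polynomial.Chebyshev

/-- `|U_k(x)| ≤ k + 1` on `[-1,1]`. -/
theorem abs_U_le (k : ℕ) {x : ℝ} (hx : |x| ≤ 1) : |(U ℝ (k : ℤ)).eval x| ≤ k + 1 := by
  induction k with
  | zero => simp
  | succ k ih =>
    have h := U_eq_X_mul_U_add_T ℝ (k : ℤ)
    have h2 := abs_eval_T_real_le_one ((k : ℤ) + 1) hx
    have h3 : (U ℝ ((k : ℤ) + 1)).eval x = x * (U ℝ (k : ℤ)).eval x + (T ℝ ((k : ℤ) + 1)).eval x := by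
      rw [h]; simp
    push_cast
    rw [h3]
    calc |x * (U ℝ (k : ℤ)).eval x + (T ℝ ((k : ℤ) + 1)).eval x|
        ≤ |x * (U ℝ (k : ℤ)).eval x| + |(T ℝ ((k : ℤ) + 1)).eval x| := abs_add_le _ _
      _ = |x| * |(U ℝ (k : ℤ)).eval x| + |(T ℝ ((k : ℤ) + 1)).eval x| := by rw [abs_mul]
      _ ≤ 1 * (k + 1) + 1 := by
          gcongr
      _ = k + 1 + 1 := by ring

/-- `U_{k+2}' = U_k' + 2 (k+2) U_{k+1}`. -/
theorem derivative_U_add_two (k : ℤ) :
    derivative (U ℝ (k + 2)) = derivative (U ℝ k) + C (2 * ((k : ℝ) + 2)) * U ℝ (k + 1) := by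
  have h := two_mul_T_eq_U_sub_U ℝ k
  have h2 := congrArg derivative h
  have h3 : derivative (2 * T ℝ (k + 2)) = 2 * derivative (T ℝ (k + 2)) := by
    rw [derivative_mul]
    simp
  rw [h3, derivative_sub, T_derivative_eq_U] at h2
  have e : k + 2 - 1 = k + 1 := by ring
  rw [e] at h2
  have h4 : derivative (U ℝ (k + 2)) =
      derivative (U ℝ k) + 2 * (((k + 2 : ℤ) : ℝ[X]) * U ℝ (k + 1)) := by
    rw [h2]; ring
  rw [h4]
  simp only [map_mul, map_add, map_ofNat, map_intCast]
  push_cast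
  ring

/-- Partial summation for the derivative of `∑ (s_k - s_{k+2}) U_k`. -/
theorem derivative_sum_aux (s : ℕ → ℝ) (K : ℕ) :
    derivative (∑ k ∈ Finset.range (K + 1), C (s k - s (k + 2)) * U ℝ (k : ℤ)) =
      (∑ k ∈ Finset.range K, C (2 * ((k : ℝ) + 1) * s (k + 1)) * U ℝ (k : ℤ))
        - C (s (K + 1)) * derivative (U ℝ ((K : ℤ) - 1)) - C (s (K + 2)) * derivative (U ℝ (K : ℤ)) := by
  induction K with
  | zero => simp
  | succ K ih =>
    rw [Finset.sum_range_succ, derivative_add, ih, Finset.sum_range_succ]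
    have h := derivative_U_add_two ((K : ℤ) - 1)
    have e1 : (K : ℤ) - 1 + 2 = ((K + 1 : ℕ) : ℤ) := by push_cast; ring
    have e2 : (K : ℤ) - 1 + 1 = (K : ℤ) := by ring
    rw [e1, e2] at h
    rw [derivative_mul, derivative_C, zero_mul, zero_add, h]
    have e3 : ((K + 1 : ℕ) : ℤ) - 1 = (K : ℤ) := by push_cast; ring
    rw [e3]
    push_cast
    simp only [map_mul, map_add, map_sub, map_ofNat, map_natCast, map_one]
    ring

theorem derivative_sum (s : ℕ → ℝ) (K : ℕ) (h1 : s (K + 1) = 0) (h2 : s (K + 2) = 0) :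
    derivative (∑ k ∈ Finset.range (K + 1), C (s k - s (k + 2)) * U ℝ (k : ℤ)) =
      ∑ k ∈ Finset.range K, C (2 * ((k : ℝ) + 1) * s (k + 1)) * U ℝ (k : ℤ) := by
  rw [derivative_sum_aux, h1, h2]
  simp

/-- ODE comparison: if `|P' + a P| ≤ B` on `[-1,1]` then `P` is `P(-1) e^{-a(x+1)}` up to `B/a`. -/
theorem ode_compare (P : ℝ[X]) {a B : ℝ} (ha : 0 < a)
    (hB : ∀ x : ℝ, |x| ≤ 1 → |(derivative P).eval x + a * P.eval x| ≤ B)
    {x : ℝ} (hx : |x| ≤ 1) :
    |P.eval x - P.eval (-1) * Real.exp (-(a * (x + 1)))| ≤ B / a := by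
  have hx1 : -1 ≤ x := (abs_le.mp hx).1
  have hx2 : x ≤ 1 := (abs_le.mp hx).2
  have hB0 : 0 ≤ B := (abs_nonneg _).trans (hB 0 (by simp))
  -- comparison functions
  have key : ∀ s : ℝ, s = 1 ∨ s = -1 →
      MonotoneOn (fun t : ℝ => (B / a + s * P.eval t) * Real.exp (a * (t + 1))) (Set.Icc (-1) 1) := by
    intro s hs
    have hd : ∀ t : ℝ, HasDerivAt (fun t : ℝ => (B / a + s * P.eval t) * Real.exp (a * (t + 1)))
        ((s * (derivative P).eval t) * Real.exp (a * (t + 1)) +
          (B / a + s * P.eval t) * (Real.exp (a * (t + 1)) * a)) t := by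
      intro t
      have h1 : HasDerivAt (fun t : ℝ => B / a + s * P.eval t) (s * (derivative P).eval t) t := by
        simpa using ((P.hasDerivAt t).const_mul s).const_add (B / a)
      have h2 : HasDerivAt (fun t : ℝ => Real.exp (a * (t + 1))) (Real.exp (a * (t + 1)) * a) t := by
        have : HasDerivAt (fun t : ℝ => a * (t + 1)) a t := by
          simpa using ((hasDerivAt_id t).add_const (1 : ℝ)).const_mul a
        exact this.exp
      exact h1.mul h2
    refine monotoneOn_of_deriv_nonneg (convex_Icc _ _) ?_ ?_ ?_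
    · exact fun t _ => (hd t).continuousAt.continuousWithinAt
    · exact fun t _ => (hd t).differentiableAt.differentiableWithinAt
    · intro t ht
      rw [interior_Icc] at ht
      rw [(hd t).deriv]
      have habs : |t| ≤ 1 := abs_le.mpr ⟨ht.1.le, ht.2.le⟩
      have hb := abs_le.mp (hB t habs)
      have he : 0 < Real.exp (a * (t + 1)) := Real.exp_pos _
      have h3 : (s * (derivative P).eval t) * Real.exp (a * (t + 1)) +
          (B / a + s * P.eval t) * (Real.exp (a * (t + 1)) * a) =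
          (B + s * ((derivative P).eval t + a * P.eval t)) * Real.exp (a * (t + 1)) := by
        field_simp
        ring
      rw [h3]
      apply mul_nonneg _ he.le
      rcases hs with rfl | rfl <;> linarith [hb.1, hb.2]
  have hE : Real.exp (-(a * (x + 1))) * Real.exp (a * (x + 1)) = 1 := by
    rw [← Real.exp_add]; simp
  have he : 0 < Real.exp (a * (x + 1)) := Real.exp_pos _
  have he' : 0 < Real.exp (-(a * (x + 1))) := Real.exp_pos _
  have m1 := key 1 (Or.inl rfl) (show (-1 : ℝ) ∈ Set.Icc (-1) 1 by simp) (show x ∈ Set.Icc (-1) 1 from ⟨hx1, hx2⟩) hx1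
  have m2 := key (-1) (Or.inr rfl) (show (-1 : ℝ) ∈ Set.Icc (-1) 1 by simp) (show x ∈ Set.Icc (-1) 1 from ⟨hx1, hx2⟩) hx1
  simp only [neg_add_cancel, mul_zero, Real.exp_zero, mul_one] at m1 m2
  have hBa : 0 ≤ B / a := by positivity
  -- multiply by exp(-a(x+1))
  have n1 : (B / a + 1 * P.eval (-1)) * Real.exp (-(a * (x + 1))) ≤ B / a + 1 * P.eval x := by
    calc (B / a + 1 * P.eval (-1)) * Real.exp (-(a * (x + 1)))
        ≤ ((B / a + 1 * P.eval x) * Real.exp (a * (x + 1))) * Real.exp (-(a * (x + 1))) :=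
          mul_le_mul_of_nonneg_right m1 he'.le
      _ = (B / a + 1 * P.eval x) * (Real.exp (-(a * (x + 1))) * Real.exp (a * (x + 1))) := by ring
      _ = _ := by rw [hE, mul_one]
  have n2 : (B / a + -1 * P.eval (-1)) * Real.exp (-(a * (x + 1))) ≤ B / a + -1 * P.eval x := by
    calc (B / a + -1 * P.eval (-1)) * Real.exp (-(a * (x + 1)))
        ≤ ((B / a + -1 * P.eval x) * Real.exp (a * (x + 1))) * Real.exp (-(a * (x + 1))) :=
          mul_le_mul_of_nonneg_right m2 he'.le
      _ = (B / a + -1 * P.eval x) * (Real.exp (-(a * (x + 1))) * Real.exp (a * (x + 1))) := by ring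
      _ = _ := by rw [hE, mul_one]
  have n3 : 0 ≤ B / a * Real.exp (-(a * (x + 1))) := by positivity
  rw [abs_le]
  constructor <;> nlinarith

/-- Main statement with a real coefficient function. -/
theorem exp_approx (s : ℕ → ℝ) (K : ℕ) (h1 : s (K + 1) = 0) (h2 : s (K + 2) = 0)
    {a B : ℝ} (ha : 0 < a)
    (hB : ∑ k ∈ Finset.range (K + 1),
      |2 * ((k : ℝ) + 1) * s (k + 1) + a * (s k - s (k + 2))| * (k + 1) ≤ B)
    {x : ℝ} (hx : |x| ≤ 1) :
    |(∑ k ∈ Finset.range (K + 1), (s k - s (k + 2)) * (U ℝ (k : ℤ)).eval x) -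
      (∑ k ∈ Finset.range (K + 1), (s k - s (k + 2)) * ((-1) ^ k * ((k : ℝ) + 1))) *
        Real.exp (-(a * (x + 1)))| ≤ B / a := by
  set P : ℝ[X] := ∑ k ∈ Finset.range (K + 1), C (s k - s (k + 2)) * U ℝ (k : ℤ) with hP
  have hPx : ∀ y : ℝ, P.eval y =
      ∑ k ∈ Finset.range (K + 1), (s k - s (k + 2)) * (U ℝ (k : ℤ)).eval y := by
    intro y
    rw [hP, eval_finsetSum]
    simp
  have hPm : P.eval (-1) =
      ∑ k ∈ Finset.range (K + 1), (s k - s (k + 2)) * ((-1) ^ k * ((k : ℝ) + 1)) := by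
    rw [hPx]
    refine Finset.sum_congr rfl fun k _ => ?_
    rw [U_eval_neg_one]
    congr 2
    · rw [Int.cast_negOnePow_natCast]
  have hD : derivative P =
      ∑ k ∈ Finset.range (K + 1), C (2 * ((k : ℝ) + 1) * s (k + 1)) * U ℝ (k : ℤ) := by
    rw [Finset.sum_range_succ, h1, mul_zero, map_zero, zero_mul, add_zero]
    exact derivative_sum s K h1 h2
  have := ode_compare P ha (B := B) (fun y hy => ?_) hx
  · rw [← hPx, ← hPm]
    exact this
  · refine le_trans ?_ hB
    rw [hD, eval_finsetSum, hPx, Finset.mul_sum, ← Finset.sum_add_distrib]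
    refine (Finset.abs_sum_le_sum_abs _ _).trans (Finset.sum_le_sum fun k _ => ?_)
    have e : eval y (C (2 * ((k : ℝ) + 1) * s (k + 1)) * U ℝ (k : ℤ)) +
        a * ((s k - s (k + 2)) * eval y (U ℝ (k : ℤ))) =
        (2 * ((k : ℝ) + 1) * s (k + 1) + a * (s k - s (k + 2))) * eval y (U ℝ (k : ℤ)) := by
      simp only [eval_mul, eval_C]
      ring
    rw [e, abs_mul]
    exact mul_le_mul_of_nonneg_left (abs_U_le k hy) (abs_nonneg _)

/-! ### List version (kernel checkable) -/

/-- For the list `u = [u_k, u_{k+1}, …]` and `rk = r^k` returns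
`(S_k, S_{k+1}, acc_k, pm_k)` with `v_j = u_j r^j`, `S_k = v_k + v_{k+2} + …`,
`acc_k = ∑_{j ≥ k} |2 den (j+1) S_{j+1} + num v_j| (j+1)`,
`pm_k = ∑_{j ≥ k} (-1)^(j-k) v_j (j+1)`. -/
def go (r num den : ℤ) : ℕ → ℤ → List ℤ → ℤ × ℤ × ℤ × ℤ
  | _, _, [] => (0, 0, 0, 0)
  | k, rk, (u :: l) =>
    match go r num den (k + 1) (rk * r) l with
    | (s1, s2, acc, pm) =>
      (u * rk + s2, s1, acc + |2 * den * ((k : ℤ) + 1) * s1 + num * (u * rk)| * ((k : ℤ) + 1),
        u * rk * ((k : ℤ) + 1) - pm)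

theorem go_nil (r num den : ℤ) (k : ℕ) (rk : ℤ) : go r num den k rk [] = (0, 0, 0, 0) := rfl

theorem go_cons (r num den : ℤ) (k : ℕ) (rk u : ℤ) (l : List ℤ) :
    go r num den k rk (u :: l) =
      (u * rk + (go r num den (k + 1) (rk * r) l).2.1, (go r num den (k + 1) (rk * r) l).1,
        (go r num den (k + 1) (rk * r) l).2.2.1 +
          |2 * den * ((k : ℤ) + 1) * (go r num den (k + 1) (rk * r) l).1 + num * (u * rk)| *
            ((k : ℤ) + 1),
        u * rk * ((k : ℤ) + 1) - (go r num den (k + 1) (rk * r) l).2.2.2) := rfl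

theorem go_snd (r num den : ℤ) (k : ℕ) (rk : ℤ) (l : List ℤ) :
    (go r num den k rk l).2.1 = (go r num den (k + 1) (rk * r) l.tail).1 := by
  cases l with
  | nil => simp [go_nil]
  | cons u l => simp [go_cons]

/-- the coefficient sequence `S_j` attached to a list. -/
def sq (r num den : ℤ) (u : List ℤ) (j : ℕ) : ℤ := (go r num den j (r ^ j) (u.drop j)).1

theorem sq_rec (r num den : ℤ) (u : List ℤ) (j : ℕ) (hj : j < u.length) :
    sq r num den u j = u.getD j 0 * r ^ j + sq r num den u (j + 2) := by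
  unfold sq
  rw [List.drop_eq_getElem_cons hj, go_cons, go_snd]
  simp only [List.tail_drop]
  rw [List.getD_eq_getElem _ _ hj]
  congr 3
  ring

theorem sq_zero (r num den : ℤ) (u : List ℤ) (j : ℕ) (hj : u.length ≤ j) :
    sq r num den u j = 0 := by
  unfold sq
  rw [List.drop_eq_nil_of_le hj, go_nil]

theorem go_acc (r num den : ℤ) (l : List ℤ) : ∀ (u : List ℤ) (k : ℕ), l = u.drop k →
    k ≤ u.length →
    (go r num den k (r ^ k) l).2.2.1 = ∑ j ∈ Finset.Ico k u.length,
      |2 * den * ((j : ℤ) + 1) * sq r num den u (j + 1) + num * (u.getD j 0 * r ^ j)| *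
        ((j : ℤ) + 1) := by
  induction l with
  | nil =>
    intro u k hl hk
    have : u.length ≤ k := by
      by_contra h
      push Not at h
      rw [List.drop_eq_getElem_cons h] at hl
      exact List.cons_ne_nil _ _ hl.symm
    rw [Finset.Ico_eq_empty (by omega), go_nil]
    simp
  | cons a l ih =>
    intro u k hl hk
    have hlt : k < u.length := by
      by_contra h
      push Not at h
      rw [List.drop_eq_nil_of_le h] at hl
      exact absurd hl (by simp)
    rw [List.drop_eq_getElem_cons hlt] at hl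
    obtain ⟨h1, h2⟩ := List.cons.inj hl
    rw [go_cons, Finset.sum_eq_sum_Ico_succ_bot hlt, ← pow_succ, ih u (k + 1) h2 hlt]
    have h3 : (go r num den (k + 1) (r ^ (k + 1)) l).1 = sq r num den u (k + 1) := by
      unfold sq
      rw [h2]
    have h4 : a = u.getD k 0 := by rw [List.getD_eq_getElem _ _ hlt, h1]
    simp only [h3, h4]
    ring

theorem go_pm (r num den : ℤ) (l : List ℤ) : ∀ (u : List ℤ) (k : ℕ), l = u.drop k →
    k ≤ u.length →
    (go r num den k (r ^ k) l).2.2.2 = ∑ j ∈ Finset.Ico k u.length,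
      (-1) ^ (j - k) * (u.getD j 0 * r ^ j * ((j : ℤ) + 1)) := by
  induction l with
  | nil =>
    intro u k hl hk
    have : u.length ≤ k := by
      by_contra h
      push Not at h
      rw [List.drop_eq_getElem_cons h] at hl
      exact List.cons_ne_nil _ _ hl.symm
    rw [Finset.Ico_eq_empty (by omega), go_nil]
    simp
  | cons a l ih =>
    intro u k hl hk
    have hlt : k < u.length := by
      by_contra h
      push Not at h
      rw [List.drop_eq_nil_of_le h] at hl
      exact absurd hl (by simp)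
    rw [List.drop_eq_getElem_cons hlt] at hl
    obtain ⟨h1, h2⟩ := List.cons.inj hl
    rw [go_cons, Finset.sum_eq_sum_Ico_succ_bot hlt, ← pow_succ, ih u (k + 1) h2 hlt]
    have h4 : a = u.getD k 0 := by rw [List.getD_eq_getElem _ _ hlt, h1]
    simp only [h4, Nat.sub_self, pow_zero, one_mul]
    rw [sub_eq_add_neg, ← Finset.sum_neg_distrib]
    congr 1
    refine Finset.sum_congr rfl fun j hj => ?_
    rw [Finset.mem_Ico] at hj
    have : j - k = j - (k + 1) + 1 := by omega
    rw [this, pow_succ]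
    ring

/-- **Certified approximation.**  With `P(x) = ∑ u_k r^k U_k(x)` (real `x ∈ [-1,1]`),
`|P(x) - pm * exp (-(num/den) (x+1))| ≤ acc / num`. -/
theorem exp_approx_list (r num den : ℤ) (hnum : 0 < num) (hden : 0 < den) (u : List ℤ)
    (hne : u ≠ []) {acc pm : ℤ}
    (h : (go r num den 0 1 u).2.2 = (acc, pm)) {x : ℝ} (hx : |x| ≤ 1) :
    |(∑ k ∈ Finset.range u.length, ((u.getD k 0 : ℤ) : ℝ) * (r : ℝ) ^ k * (U ℝ (k : ℤ)).eval x) -
      (pm : ℝ) * Real.exp (-((num : ℝ) / den * (x + 1)))| ≤ (acc : ℝ) / num := by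
  obtain ⟨K, hK⟩ : ∃ K, u.length = K + 1 := by
    cases u with
    | nil => exact absurd rfl hne
    | cons a l => exact ⟨l.length, rfl⟩
  have hnumR : (0 : ℝ) < num := by exact_mod_cast hnum
  have hdenR : (0 : ℝ) < den := by exact_mod_cast hden
  have hacc : acc = (go r num den 0 (r ^ 0) u).2.2.1 := by rw [pow_zero, h]
  have hpm : pm = (go r num den 0 (r ^ 0) u).2.2.2 := by rw [pow_zero, h]
  rw [go_acc r num den u u 0 (by simp) (by omega)] at hacc
  rw [go_pm r num den u u 0 (by simp) (by omega)] at hpm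
  set s : ℕ → ℝ := fun j => ((sq r num den u j : ℤ) : ℝ) with hs
  have hsub : ∀ k ∈ Finset.range (K + 1),
      s k - s (k + 2) = ((u.getD k 0 : ℤ) : ℝ) * (r : ℝ) ^ k := by
    intro k hk
    rw [Finset.mem_range] at hk
    simp only [hs]
    rw [sq_rec r num den u k (by omega)]
    push_cast
    ring
  have key := exp_approx s K (by simp only [hs]; rw [sq_zero _ _ _ _ _ (by omega)]; simp)
    (by simp only [hs]; rw [sq_zero _ _ _ _ _ (by omega)]; simp)
    (a := (num : ℝ) / den) (B := (acc : ℝ) / den) (by positivity) ?_ hx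
  · have e1 : (∑ k ∈ Finset.range (K + 1), (s k - s (k + 2)) * (U ℝ (k : ℤ)).eval x) =
        ∑ k ∈ Finset.range u.length,
          ((u.getD k 0 : ℤ) : ℝ) * (r : ℝ) ^ k * (U ℝ (k : ℤ)).eval x := by
      rw [hK]
      exact Finset.sum_congr rfl fun k hk => by rw [hsub k hk]
    have e2 : (∑ k ∈ Finset.range (K + 1), (s k - s (k + 2)) * ((-1) ^ k * ((k : ℝ) + 1))) =
        (pm : ℝ) := by
      rw [hpm, hK, ← Finset.range_eq_Ico]
      push_cast
      refine Finset.sum_congr rfl fun k hk => ?_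
      rw [hsub k hk, Nat.sub_zero]
      ring
    rw [e1, e2] at key
    have e3 : (acc : ℝ) / den / ((num : ℝ) / den) = (acc : ℝ) / num := by
      field_simp
    rw [e3] at key
    exact key
  · rw [le_div_iff₀ hdenR, Finset.sum_mul, hacc, hK, ← Finset.range_eq_Ico]
    push_cast
    refine Finset.sum_le_sum fun k hk => ?_
    rw [hsub k hk]
    simp only [hs]
    have e4 : |2 * ((k : ℝ) + 1) * ((sq r num den u (k + 1) : ℤ) : ℝ) +
        (num : ℝ) / den * (((u.getD k 0 : ℤ) : ℝ) * (r : ℝ) ^ k)| * (k + 1) * den =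
        |2 * (den : ℝ) * ((k : ℝ) + 1) * ((sq r num den u (k + 1) : ℤ) : ℝ) +
        num * (((u.getD k 0 : ℤ) : ℝ) * (r : ℝ) ^ k)| * (k + 1) := by
      have : 2 * (den : ℝ) * ((k : ℝ) + 1) * ((sq r num den u (k + 1) : ℤ) : ℝ) +
        num * (((u.getD k 0 : ℤ) : ℝ) * (r : ℝ) ^ k) =
        (2 * ((k : ℝ) + 1) * ((sq r num den u (k + 1) : ℤ) : ℝ) +
        (num : ℝ) / den * (((u.getD k 0 : ℤ) : ℝ) * (r : ℝ) ^ k)) * den := by
        field_simp
      rw [this, abs_mul, abs_of_pos hdenR]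
      ring
    rw [e4]

end Crest.Agent.R347.ExpApprox
end

-- ▼ part R347/NumScalar

/-! The scalar Clenshaw recursion `clv g (r^2) us` is a Chebyshev sum; crude bound and
comparison with the exponential. -/

set_option autoImplicit false

namespace Crest.Agent.R347.Num

open Polynomial Polynomial.Chebyshev

/-- `r^(n+1) U_{n+1}(g/2r) = g r^n U_n(g/2r) - r^(n+1) U_{n-1}(g/2r)`. -/
theorem rU_rec (r : ℕ) (hr : 0 < r) (g : ℝ) (n : ℕ) :
    (r : ℝ) ^ (n + 1) * (U ℝ ((n + 1 : ℕ) : ℤ)).eval (g / (2 * r)) =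
      g * ((r : ℝ) ^ n * (U ℝ (n : ℤ)).eval (g / (2 * r))) -
        (r : ℝ) ^ (n + 1) * (U ℝ ((n : ℤ) - 1)).eval (g / (2 * r)) := by
  have hr' : (r : ℝ) ≠ 0 := by exact_mod_cast hr.ne'
  have h := U_add_two ℝ ((n : ℤ) - 1)
  have e1 : (n : ℤ) - 1 + 2 = ((n + 1 : ℕ) : ℤ) := by push_cast; ring
  have e2 : (n : ℤ) - 1 + 1 = (n : ℤ) := by ring
  rw [e1, e2] at h
  rw [h]
  simp only [eval_sub, eval_mul, eval_X, eval_ofNat]
  rw [pow_succ]
  field_simp

theorem cl_eq_cheb (r : ℕ) (hr : 0 < r) (g : ℝ) (us : List ℕ) : ∀ a b : ℝ,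
    (cl g (r ^ 2) us a b).1 = (∑ k ∈ Finset.range us.length,
      (us.reverse.getD k 0 : ℝ) * (r : ℝ) ^ k * (U ℝ (k : ℤ)).eval (g / (2 * r))) +
      (r : ℝ) ^ us.length * (U ℝ (us.length : ℤ)).eval (g / (2 * r)) * a -
      (r : ℝ) ^ (us.length + 1) * (U ℝ ((us.length : ℤ) - 1)).eval (g / (2 * r)) * b := by
  induction us with
  | nil => intro a b; simp [cl]
  | cons u us ih =>
    intro a b
    rw [cl, ih, List.length_cons, Finset.sum_range_succ, rU_rec r hr g us.length]
    have h1 : ∀ k ∈ Finset.range us.length,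
        (((u :: us).reverse.getD k 0 : ℕ) : ℝ) * (r : ℝ) ^ k *
          (U ℝ (k : ℤ)).eval (g / (2 * r)) =
        ((us.reverse.getD k 0 : ℕ) : ℝ) * (r : ℝ) ^ k *
          (U ℝ (k : ℤ)).eval (g / (2 * r)) := by
      intro k hk
      rw [Finset.mem_range] at hk
      rw [List.reverse_cons, List.getD_append _ _ _ _ (by simpa using hk)]
    have h2 : ((u :: us).reverse.getD us.length 0 : ℕ) = u := by
      rw [List.reverse_cons, List.getD_append_right _ _ _ _ (by simp)]
      simp
    rw [Finset.sum_congr rfl h1, h2]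
    have e2 : ((us.length + 1 : ℕ) : ℤ) - 1 = (us.length : ℤ) := by push_cast; ring
    rw [e2]
    push_cast
    ring

/-- (S1) the scalar recursion is the Chebyshev sum (coefficients `us` are listed
highest first, `us.reverse[k]` is the coefficient of `r^k U_k(g/(2r))`). -/
theorem clv_eq_cheb (r : ℕ) (hr : 0 < r) (us : List ℕ) (g : ℝ) :
    clv g (r ^ 2) us = ∑ k ∈ Finset.range us.length,
      (us.reverse.getD k 0 : ℝ) * (r : ℝ) ^ k *
        (Polynomial.Chebyshev.U ℝ k).eval (g / (2 * r)) := by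
  unfold clv
  rw [cl_eq_cheb r hr g us 0 0]
  simp

/-- (S2) crude bound -/
theorem clv_abs_le (r : ℕ) (hr : 0 < r) (us : List ℕ) (g : ℝ) (hg : |g| ≤ 2 * r) :
    |clv g (r ^ 2) us| ≤ ∑ k ∈ Finset.range us.length,
      (us.reverse.getD k 0 : ℝ) * (r : ℝ) ^ k * (k + 1) := by
  have hr' : (0 : ℝ) < r := by exact_mod_cast hr
  have hx : |g / (2 * r)| ≤ 1 := by
    rw [abs_div, abs_of_pos (by positivity : (0 : ℝ) < 2 * r)]
    exact (div_le_one (by positivity)).mpr hg
  rw [clv_eq_cheb r hr]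
  refine (Finset.abs_sum_le_sum_abs _ _).trans (Finset.sum_le_sum fun k _ => ?_)
  rw [abs_mul, abs_of_nonneg (by positivity :
    (0 : ℝ) ≤ (us.reverse.getD k 0 : ℝ) * (r : ℝ) ^ k)]
  exact mul_le_mul_of_nonneg_left (ExpApprox.abs_U_le k hx) (by positivity)

/-- alternating signs, starting with `-` iff `s`. -/
def alt : Bool → List ℕ → List ℤ
  | _, [] => []
  | s, u :: l => (bif s then -(u : ℤ) else (u : ℤ)) :: alt (!s) l

theorem alt_length (l : List ℕ) : ∀ s, (alt s l).length = l.length := by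
  induction l with
  | nil => intro s; rfl
  | cons u l ih => intro s; simp [alt, ih]

theorem alt_getD (l : List ℕ) : ∀ (s : Bool) (k : ℕ),
    (alt s l).getD k 0 = (bif s then (-1 : ℤ) else 1) * (-1) ^ k * (l.getD k 0 : ℤ) := by
  induction l with
  | nil => intro s k; simp [alt]
  | cons u l ih =>
    intro s k
    cases k with
    | zero => cases s <;> simp [alt]
    | succ k =>
      simp only [alt, List.getD_cons_succ]
      rw [ih, pow_succ]
      cases s <;> simp

theorem eval_U_neg_nat (k : ℕ) (x : ℝ) :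
    (U ℝ (k : ℤ)).eval (-x) = (-1) ^ k * (U ℝ (k : ℤ)).eval x := by
  rw [U_eval_neg, Int.cast_negOnePow_natCast]

/-- (S3) comparison with the exponential: the integer check `go` on the sign-alternated
reversed list gives `|pm e^{-num/den} e^{β g} - clv g (r^2) us| ≤ acc / num` on `|g| ≤ 2 r`,
`β = num / (den * 2 r)`. -/
theorem exp_clv_approx (r : ℕ) (hr : 0 < r) (num den : ℤ) (hnum : 0 < num) (hden : 0 < den)
    (us : List ℕ) (hne : us ≠ []) {acc pm : ℤ}
    (h : (ExpApprox.go r num den 0 1 (alt false us.reverse)).2.2 = (acc, pm))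
    (β : ℝ) (hβ : β * (2 * r) * den = num) (g : ℝ) (hg : |g| ≤ 2 * r) :
    |((pm : ℝ) * Real.exp (-((num : ℝ) / den))) * Real.exp (β * g) - clv g (r ^ 2) us| ≤
      (acc : ℝ) / num := by
  have hr' : (0 : ℝ) < r := by exact_mod_cast hr
  have hd' : (0 : ℝ) < den := by exact_mod_cast hden
  have hx : |-(g / (2 * r))| ≤ 1 := by
    rw [abs_neg, abs_div, abs_of_pos (by positivity : (0 : ℝ) < 2 * r)]
    exact (div_le_one (by positivity)).mpr hg
  have hne' : alt false us.reverse ≠ [] := by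
    intro h0
    have := congrArg List.length h0
    rw [alt_length, List.length_reverse, List.length_nil] at this
    exact hne (List.length_eq_zero_iff.mp this)
  have key := ExpApprox.exp_approx_list r num den hnum hden (alt false us.reverse) hne' h hx
  rw [abs_sub_comm] at key
  have e1 : (∑ k ∈ Finset.range (alt false us.reverse).length,
      (((alt false us.reverse).getD k 0 : ℤ) : ℝ) * (((r : ℕ) : ℤ) : ℝ) ^ k *
        (U ℝ (k : ℤ)).eval (-(g / (2 * r)))) = clv g (r ^ 2) us := by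
    rw [clv_eq_cheb r hr, alt_length, List.length_reverse]
    refine Finset.sum_congr rfl fun k _ => ?_
    rw [alt_getD, eval_U_neg_nat]
    push_cast
    simp only [cond_false]
    have : ((-1 : ℝ) ^ k) * (-1) ^ k = 1 := by rw [← mul_pow]; simp
    linear_combination ((us.reverse.getD k 0 : ℕ) : ℝ) * (r : ℝ) ^ k *
      (U ℝ (k : ℤ)).eval (g / (2 * r)) * this
  have e2 : (pm : ℝ) * Real.exp (-((num : ℝ) / den * (-(g / (2 * r)) + 1))) =
      ((pm : ℝ) * Real.exp (-((num : ℝ) / den))) * Real.exp (β * g) := by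
    rw [mul_assoc, ← Real.exp_add]
    congr 2
    have : (num : ℝ) / den = β * (2 * r) := by
      rw [← hβ]; field_simp
    rw [this]
    field_simp
    ring
  rw [e1, e2] at key
  exact key

end Crest.Agent.R347.Num
private theorem rz_e2b607d2da : type_of% @_root_.Crest.Agent.R347.Num.alt.eq_def := @_root_.Crest.Agent.R347.Num.alt.eq_def -- L80
private theorem rz_c02225f6e9 : type_of% @_root_.Crest.Agent.R347.Num.alt.eq_1 := @_root_.Crest.Agent.R347.Num.alt.eq_1 -- L80
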