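import Mathlib

/-! Kernel-friendly engine for the Gram matrices of the extended left vectors of an open half
chain.  All functions are evaluated by the kernel; closed applications to literals are memoised
by its cache. -/

set_option autoImplicit false

namespace Crest.Agent.R347.OChain

noncomputable section

/-- `force e F = F e`, with `e` evaluated to a literal first. -/
def force (e : ℕ) (F : ℕ → ℕ) : ℕ :=
  Nat.rec (motive := fun _ => ℕ) (F 0) (fun m _ => F m) (Nat.add e 1)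

/-- `∑ l < d, f l`. -/
def S (d : ℕ) (f : ℕ → ℕ) : ℕ :=
  Nat.rec (motive := fun _ => ℕ) 0 (fun l ih => Nat.add ih (f l)) d

/-- `c * x`, lazy when `c = 0`. -/
def sel (c x : ℕ) : ℕ := Nat.rec (motive := fun _ => ℕ) 0 (fun _ _ => Nat.mul c x) c

/-- Digit `l` of `R` in base `2 ^ b`. -/
def dig (b R l : ℕ) : ℕ :=
  Nat.land (Nat.shiftRight R (Nat.mul b l)) (Nat.sub (Nat.pow 2 b) 1)

/-- Entry `n` of a list. -/
def nth (l : List ℕ) : ℕ → ℕ :=
  List.rec (motive := fun _ => ℕ → ℕ) (fun _ => 0)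
    (fun a _ ih n => Nat.rec (motive := fun _ => ℕ) a (fun m _ => ih m) n) l

theorem force_eq (e : ℕ) (F : ℕ → ℕ) : force e F = F e := rfl


theorem S_succ (d : ℕ) (f : ℕ → ℕ) : S (d + 1) f = S d f + f d := rfl

theorem S_eq (d : ℕ) (f : ℕ → ℕ) : S d f = ∑ l ∈ Finset.range d, f l := by
  induction d with
  | zero => rfl
  | succ n ih => rw [S_succ, Finset.sum_range_succ, ih]

theorem sel_eq (c x : ℕ) : sel c x = c * x := by
  cases c with
  | zero => show (0 : ℕ) = 0 * x; simp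
  | succ n => rfl

theorem dig_eq (b R l : ℕ) : dig b R l = R / 2 ^ (b * l) % 2 ^ b := by
  show (R >>> (b * l)) &&& (2 ^ b - 1) = _
  rw [Nat.and_two_pow_sub_one_eq_mod, Nat.shiftRight_eq_div_pow]

/-- `mu w` for the kernel. -/
def emu (w : ℕ) : ℕ := dig 4 0x10211 w

/-- Tables of the positive and negative parts of the transition coefficients. -/
def pT (k : ℕ) : ℕ :=
  Nat.rec (motive := fun _ => ℕ)
    0x100000000050000000003100110000500005000000000011011000050000000005000000111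
    (fun _ _ => 0x100000000050000000000100110000500005000000000011011000050000000005000000111) k
def nT (k : ℕ) : ℕ :=
  Nat.rec (motive := fun _ => ℕ)
    0x500000001000000000000000000000000000000000000000000000030000
    (fun _ _ => 0x500000001000000000000000000000000000000000000000000000000000) k

/-- position in the tables -/
def tpos (s w w1 : ℕ) : ℕ := Nat.add (Nat.mul (Nat.add (Nat.mul s 5) w) 5) w1

section
variable (lS : ℕ)

def wd (k : ℕ) : ℕ := Nat.add (Nat.mul (Nat.mul 2 lS) k) 20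
def MM (k : ℕ) : ℕ := Nat.pow 2 (Nat.mul 9 (wd lS k))
def mkM (k : ℕ) : ℕ := Nat.sub (MM lS k) 1
def OO (k : ℕ) : ℕ := Nat.pow 2 (Nat.sub (wd lS k) 1)
def mkw (k : ℕ) : ℕ := Nat.sub (Nat.pow 2 (wd lS k)) 1
def ones (k : ℕ) : ℕ := S 9 (fun j => Nat.pow 2 (Nat.mul (wd lS k) j))
def Kp (k : ℕ) : ℕ := Nat.mul (OO lS k) (ones lS k)

/-- Transition coefficient as a residue modulo `MM (k + 1)`. -/
def coef (k s w w1 : ℕ) : ℕ :=
  Nat.add (dig 4 (pT k) (tpos s w w1))
    ((fun n => Nat.rec (motive := fun _ => ℕ) 0 (fun _ _ => Nat.sub (MM lS (Nat.succ k)) n) n)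
      (dig 4 (nT k) (tpos s w w1)))

variable (A D : ℕ → ℕ)

/-- number of states -/
def dd (k q : ℕ) : ℕ := dig 4 (D k) q
/-- packed row of the tensor -/
def arow (k e q i : ℕ) : ℕ := dig 144 (A k) (Nat.add (Nat.mul (Nat.add (Nat.mul e 9) q) 9) i)
/-- entry with offset `32768` -/
def ent (k e q i j : ℕ) : ℕ := dig 16 (arow A k e q i) j
/-- residue of the entry -/
def asc (k e q i j : ℕ) : ℕ := Nat.add (ent A k e q i j) (Nat.sub (MM lS (Nat.succ k)) 32768)
/-- residue of the packed row -/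
def At (k e q i : ℕ) : ℕ :=
  Nat.add (S 9 (fun j => Nat.mul (ent A k e q i j) (Nat.pow 2 (Nat.mul (wd lS (Nat.succ k)) j))))
    (Nat.sub (MM lS (Nat.succ k)) (Nat.mul 32768 (ones lS (Nat.succ k))))
def Corr (k e q : ℕ) : ℕ :=
  Nat.mul (OO lS k) (S (dd D k q)
    (fun l => Nat.sub (Nat.mul 2 (MM lS (Nat.succ k))) (At lS A k e q l)))

/-- Gram matrices of the empty chain. -/
def G0 (w1 w2 q i : ℕ) : ℕ :=
  Nat.rec (motive := fun _ => ℕ) 1 (fun _ _ => 0)
    (Nat.add (Nat.add w1 w2) (Nat.add (Nat.add (Nat.sub q 4) (Nat.sub 4 q)) i))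

variable (k : ℕ) (Gk : ℕ → ℕ → ℕ → ℕ → ℕ)

/-- packed row with offset digits -/
def Ghat (w w2 q i : ℕ) : ℕ := Nat.land (Nat.add (Gk w w2 q i) (Kp lS k)) (mkM lS k)

/-- packed row times matrix -/
def RP (R e q : ℕ) : ℕ :=
  Nat.add (S (dd D k q) (fun l =>
    Nat.mul (Nat.land (Nat.shiftRight R (Nat.mul (wd lS k) l)) (mkw lS k)) (At lS A k e q l)))
    (Corr lS A D k e q)

def X (s w w2 q i : ℕ) : ℕ :=
  Nat.land (S 5 (fun w' => sel (coef lS k s w' w2)
    (force (Nat.sub (Nat.add s (emu w2)) (emu w')) fun e =>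
      force (Nat.sub (Nat.add q (emu w)) (emu w')) fun ql =>
      RP lS A D k (Ghat lS k Gk w w' q i) e ql))) (mkM lS (Nat.succ k))

def Gstep (w1 w2 q' i : ℕ) : ℕ :=
  Nat.land (S 3 (fun s => S 5 (fun w => sel (coef lS k s w w1)
    (force (Nat.sub (Nat.add s (emu w1)) (emu w)) fun e =>
      force (Nat.sub (Nat.add q' e) 1) fun q =>
      S (dd D k q) (fun kk => Nat.mul (asc lS A k e q kk i)
        (X lS A D k Gk s w w2 q kk)))))) (mkM lS (Nat.succ k))

end

section
variable (lS : ℕ) (A D : ℕ → ℕ)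

/-- The packed Gram matrices after `k` sites. -/
def G (k : ℕ) : ℕ → ℕ → ℕ → ℕ → ℕ :=
  Nat.rec (motive := fun _ => ℕ → ℕ → ℕ → ℕ → ℕ) G0 (fun k Gk => Gstep lS A D k Gk) k

theorem G_zero : G lS A D 0 = G0 := rfl
theorem G_succ (k : ℕ) : G lS A D (k + 1) = Gstep lS A D k (G lS A D k) := rfl

/-- Modulus of the final evaluation. -/
def WW : ℕ := Nat.pow 2 4096

/-- Residue of a Gram matrix entry modulo `WW`. -/
def gres (m w1 w2 q i j : ℕ) : ℕ :=
  Nat.add (dig (wd lS m) (Ghat lS m (G lS A D m) w1 w2 q i) j) (Nat.sub WW (OO lS m))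

/-- `ε` as a residue: `E` has binary digit `0` for `-1`, `1` for `1` at position `9 q + i`. -/
def eres (E q i : ℕ) : ℕ :=
  Nat.rec (motive := fun _ => ℕ) (Nat.sub WW 1) (fun _ _ => 1)
    (dig 1 E (Nat.add (Nat.mul 9 q) i))

/-- coefficients of the pairs -/
def cres (w : ℕ) : ℕ := Nat.sub (Nat.add (dig 4 0x15501 w) WW) (dig 4 0x00050 w)

/-- partner type -/
def est (w : ℕ) : ℕ := dig 4 0x03214 w

def term (m E : ℕ) (u v u' v' q i j q2 : ℕ) : ℕ :=
  Nat.mul (Nat.mul (eres E q i) (eres E q2 j))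
    (Nat.mul (gres lS A D m u v q i j) (gres lS A D m u' v' q i j))

def eN0 (m E : ℕ) : ℕ :=
  S 9 fun q => S (dd D m q) fun i => S (dd D m q) fun j =>
    term lS A D m E 0 0 0 0 q i j q

def eN1 (m E : ℕ) : ℕ :=
  S 5 fun v => force (est v) fun v' => Nat.mul (cres v) (
    S 9 fun q => force (Nat.sub (Nat.add q 1) (emu v)) fun q2 =>
      S (dd D m q) fun i => S (dd D m q2) fun j =>
        term lS A D m E 0 v 0 v' q i j q2)

def eN2 (m E : ℕ) : ℕ :=
  S 5 fun u => S 5 fun v => force (est u) fun u' => force (est v) fun v' =>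
    Nat.mul (Nat.mul (cres u) (cres v)) (
    S 9 fun q => force (Nat.sub (Nat.add q (emu u)) (emu v)) fun q2 =>
      S (dd D m q) fun i => S (dd D m q2) fun j =>
        term lS A D m E u v u' v' q i j q2)

/-- absolute value of an entry -/
def eab (k e q i j : ℕ) : ℕ :=
  Nat.add (Nat.sub (ent A k e q i j) 32768) (Nat.sub 32768 (ent A k e q i j))

/-- This is `0` iff the data are consistent. -/
def bad (m : ℕ) : ℕ :=
  Nat.add
    (S (Nat.succ m) fun k => Nat.add (Nat.add (dd D k 0) (Nat.add (dd D k 9) (dd D k 10)))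
      (S 9 fun q => Nat.sub (dd D k q) 9))
    (S m fun k => Nat.add
      (S 3 fun e => S 9 fun q => S 9 fun i => S 9 fun j =>
        sel (Nat.sub (Nat.succ j) (dd D (Nat.succ k) (Nat.sub (Nat.succ q) e)))
          (eab A k e q i j))
      (S 9 fun q' => S 9 fun j =>
        Nat.sub (S 3 fun e => force (Nat.sub (Nat.add q' e) 1) fun q =>
          S (dd D k q) fun i => eab A k e q i j) (Nat.pow 2 lS)))

end

end

end Crest.Agent.R347.OChain
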