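import Crest.Agent.R347.OSize_Mg
import Crest.Agent.R347.OData40
import Crest.Agent.R347.OData80

/-! The exact integers. -/

set_option autoImplicit false

namespace Crest.Agent.R347.OChain

open Finset

theorem land_gen (n W b : ℕ) (hW : W = 2 ^ b) : Nat.land n (Nat.sub W 1) = n % W := by
  subst hW
  exact land_mask n b

theorem W_ge {W b c : ℕ} (hW : W = 2 ^ c) (hb : b + 1 ≤ c) :
    ((2 ^ b + 2 ^ b : ℕ) : ℤ) ≤ ((W : ℕ) : ℤ) := by
  subst hW
  have h : (2 ^ b + 2 ^ b : ℕ) = 2 ^ (b + 1) := by ring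
  rw [h]
  exact_mod_cast Nat.pow_le_pow_right (by norm_num) hb

attribute [local irreducible] WW

theorem eq_of_land {n c : ℕ} {x y : ℤ} (b : ℕ) (hb : b + 1 ≤ 4096)
    (hx : ∀ M : ℕ, M = WW → ((n : ℕ) : ZMod M) = (x : ZMod M))
    (hn : Nat.land n (Nat.sub WW 1) = c) (hy : (c : ℤ) = y ∨ (c : ℤ) = y + (WW : ℕ))
    (hxb : |x| ≤ 2 ^ b) (hyb : |y| < 2 ^ b) : x = y := by
  rw [land_gen n WW 4096 WW_eq] at hn
  have hge := W_ge WW_eq hb
  obtain ⟨W, hW⟩ : ∃ W, W = WW := ⟨_, rfl⟩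
  have h1 := hx W hW
  rw [← hW] at hn hy hge
  have h3 : ((c : ℕ) : ZMod W) = (x : ZMod W) := by
    rw [← h1, ← hn]
    exact ZMod.natCast_mod n _
  have h4 : ((y : ℤ) : ZMod W) = (x : ZMod W) := by
    rw [← h3]
    rcases hy with hy | hy
    · rw [← hy]; simp
    · have h5 : (y : ℤ) = (c : ℤ) - ((W : ℕ) : ℤ) := by rw [hy]; ring
      rw [h5, Int.cast_sub, Int.cast_natCast, Int.cast_natCast, ZMod.natCast_self, sub_zero]
  rw [ZMod.intCast_eq_intCast_iff] at h4
  have h6 := Int.modEq_iff_dvd.mp h4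
  have h7 : |x - y| < ((W : ℕ) : ℤ) := by
    push_cast at hge
    calc |x - y| ≤ |x| + |y| := abs_sub x y
      _ < 2 ^ b + 2 ^ b := by linarith
      _ ≤ _ := hge
  have h8 := Int.eq_zero_of_abs_lt_dvd h6 h7
  linarith

theorem bnd (lS : ℕ) (A D : ℕ → ℕ) (m E : ℕ) (h : bad lS A D m = 0) (hm : m ≤ 40) :
    |cN0 (HD A D m) m (epsE E)| ≤ 2 ^ (20 + (wd lS m - 1) * 2) ∧
    |cN1 (HD A D m) m (epsE E)| ≤ 2 ^ (20 + (wd lS m - 1) * 2) ∧
    |cN2 (HD A D m) m (epsE E)| ≤ 2 ^ (20 + (wd lS m - 1) * 2) := by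
  have := cN_bounds (HD A D m) m (epsE E) (2 ^ (wd lS m - 1)) (fun q => dH_le h m q)
    (epsE_abs E) (fun u hu v hv q i j => (gram_lt h hm le_rfl hu hv q i j).le)
  rwa [← pow_mul, ← pow_add] at this

theorem exact40_0 : cN0 (HD A40 D40 20) 20 (epsE E40) =
    0xfff37508b46baccb269ec201c74fccda10d1d6829a95d348697874835a935ab8a8aedd2c25cedd2a3178011b0117b288be7814360547b3b98402f4056570b64f5a85d9c65c5b7dce6b59d676613634d87bf1b7a7fc340602423b9d15069343e5ea19b99a46d4ac573849907a4e1dd9d7589d6258c6f7744c0e7bebad3fdaf4cbd2d0 := by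
  refine eq_of_land 1258 (by norm_num) (fun M hM => eN0_cast bad40 (by norm_num) (by decide) hM E40)
    (vals40.1) ?_ ?_ (by decide +kernel)
  · exact Or.inl (by decide +kernel)
  · exact (bnd 15 A40 D40 20 E40 bad40 (by norm_num)).1

theorem exact40_1 : cN1 (HD A40 D40 20) 20 (epsE E40) =
    -0x1163b85d105248c3a4edfa90d0a9f68e04ec562cb0353ac14179cf7c3a4edfe6f9d66b6195efcc1e605a07e298c669ff19ad6e2319bcb460432158db20a19078dce441c4ef1f458500a4e72f12a5d44b1c277429c079793a1230db142a5869fe5c5f94cc640df4981ce986ecfc6b3c0380cf95d69871969fe44d0eba21ba82d2eb103e0 := by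
  refine eq_of_land 1258 (by norm_num) (fun M hM => eN1_cast bad40 (by norm_num) (by decide) hM E40)
    (vals40.2.1) ?_ ?_ (by decide +kernel)
  · exact Or.inr (by decide +kernel)
  · exact (bnd 15 A40 D40 20 E40 bad40 (by norm_num)).2.1

theorem exact40_2 : cN2 (HD A40 D40 20) 20 (epsE E40) =
    0x12e74268e3c73edef066669d905c2fef67bc946c3f476178f7a5991f11b6657b31edb32d216ddf04eae1986d967f2043b9d6adc051b6aa82dfc90eac3222f7aa3fc4128dc2b1479aab15f5e73713cdc34b21f35175398b3f2cc7720ca1a98cfb8eb556f400a20667c62813b6cd331d08cab143ab55ebcdf7de4446425cba403511f318f80 := by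
  refine eq_of_land 1258 (by norm_num) (fun M hM => eN2_cast bad40 (by norm_num) (by decide) hM E40)
    (vals40.2.2) ?_ ?_ (by decide +kernel)
  · exact Or.inl (by decide +kernel)
  · exact (bnd 15 A40 D40 20 E40 bad40 (by norm_num)).2.2

theorem exact80_0 : cN0 (HD A80 D80 40) 40 (epsE E80) =
    0xffdd85000f9060e24fb17fc23880258f425dead9b55a042780830137250d2798ebbb5bc37a47853dc9a513a3dce68495d17ced789ef93c0a9024120629998cb9152111c649551efe9985015fbc2edb3afa00eae4af5495be4e85074b5838b94b21dc75a35c0c72d6926c0ebca28a8cada3f90a43d794e29365cdbb229667ae64209160db46478cf2d0e6a0c5afb0b952dc56641ba5e652f73eff41e1dbc9a86ce947b98c931111d4394f36c12c96f90f50d04f7b0026770c8147c1078f42e4b7fa5f3915746c4537d80c305d1e552474bde08e31a9298b626ec26ddadd3b2e49ff6c481175f1aef5aac9f74c1bb7e380 := by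
  refine eq_of_land 2298 (by norm_num) (fun M hM => eN0_cast bad80 (by norm_num) (by decide) hM E80)
    (vals80.1) ?_ ?_ (by decide +kernel)
  · exact Or.inl (by decide +kernel)
  · exact (bnd 14 A80 D80 40 E80 bad80 (by norm_num)).1

theorem exact80_1 : cN1 (HD A80 D80 40) 40 (epsE E80) =
    -0x22e49390b2e266e877c65d22fdf57078ff7c249398303e445a8f27a351f4a0d74416fafbace1243715ffe8549fc33cf6e3df170428b10f8bb5a5a4f7595e4636c1b66005b92feda67af131419eb908b6a592978dedbfd806995a4182e16e6d9ccd53b76376c0aa3a622db1868fee4e2ce9bb3065e24e009dc52c2563be5ec7799f062ed37ef9826183057ff67c2d31637c06dd2af4ad07ad9270b2266435ac54747a85bc0d019c06f89671792feff51a39ec84edffadf1e4cf32d9055a9208bbdf5b0e3f723d77fb174c99c0ca5819a9113f50ee99485f4fbfab3edbf709ab30576f5a1f35c4e1dd988ad4e5e22c2ddeba0 := by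
  refine eq_of_land 2298 (by norm_num) (fun M hM => eN1_cast bad80 (by norm_num) (by decide) hM E80)
    (vals80.2) ?_ ?_ (by decide +kernel)
  · exact Or.inr (by decide +kernel)
  · exact (bnd 14 A80 D80 40 E80 bad80 (by norm_num)).2.1

end Crest.Agent.R347.OChain
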