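import Crest.Agent.R347.Open

/-! Half-chain extended left vectors for the open chain (mirror construction): interface. -/

set_option autoImplicit false

namespace Crest.Agent.R347.OChain

open Matrix Crest.MathPhysics.SpinChain Finset

/-- `m(w) + 1` for the types `0` (state), `1` (`S^z` at the last site), `2` (`T₊`), `3` (`T₋`),
`4` (Hamiltonian `K`). -/
def mu (w : ℕ) : ℕ := if w = 2 then 2 else if w = 3 then 0 else 1

/-- Transition coefficients `κ_k(s, w → w₁)`; `k = 0` is the first site, carrying the field. -/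
def kap (k s w w1 : ℕ) : ℤ :=
  if w = 0 then
    if w1 = 0 then 1
    else if w1 = 1 then 1 - (s : ℤ)
    else if w1 = 2 then (if s + 1 ≤ 2 then 1 else 0)
    else if w1 = 3 then (if 1 ≤ s then 1 else 0)
    else if w1 = 4 then (if k = 0 then -3 * (1 - (s : ℤ)) else 0)
    else 0
  else if w1 = 4 then
    if w = 1 then 5 * (1 - (s : ℤ))
    else if w = 2 then (if 1 ≤ s then 5 else 0)
    else if w = 3 then (if s + 1 ≤ 2 then 5 else 0)
    else if w = 4 then 1
    else 0
  else 0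

/-- A half chain of integer site tensors with `U(1)` charges. `d k q`: number of states with
charge label `q` (magnetisation `q - 4`) after `k` sites; `a k e q i j`: entry `(i, j)` of the
tensor of site `k` (starting at `0`) with spin index `e` (`0, 1, 2` = `m = 1, 0, -1`), from the
charge label `q` to the charge label `q + 1 - e`. -/
structure Half where
  d : ℕ → ℕ → ℕ
  a : ℕ → ℕ → ℕ → ℕ → ℕ → ℤ

/-- Consistency of the index ranges: the charge labels with states are `1, …, 8`, and the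
tensors vanish outside the target range. -/
structure Half.Ok (H : Half) : Prop where
  d_zero : ∀ k, H.d k 0 = 0
  d_large : ∀ k q, 9 ≤ q → H.d k q = 0
  a_zero : ∀ k e q i j, H.d (k + 1) (q + 1 - e) ≤ j → H.a k e q i j = 0

/-- Extended left vectors. `V k 0 q i` is the left part of the MPS after `k` sites. -/
def V (H : Half) : (k : ℕ) → (w q i : ℕ) → (Fin k → Fin 3) → ℤ
  | 0, w, q, i, _ => if w = 0 ∧ q = 4 ∧ i = 0 then 1 else 0
  | k + 1, w1, q', j, σ =>
      ∑ w ∈ range 5, kap k (σ (Fin.last k)) w w1 *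
        ∑ i ∈ range (H.d k (q' + ((σ (Fin.last k) : ℕ) + mu w1 - mu w) - 1)),
          V H k w (q' + ((σ (Fin.last k) : ℕ) + mu w1 - mu w) - 1) i (fun j => σ (Fin.castSucc j)) *
          H.a k ((σ (Fin.last k) : ℕ) + mu w1 - mu w)
            (q' + ((σ (Fin.last k) : ℕ) + mu w1 - mu w) - 1) i j

/-- Gram matrices of the extended left vectors (pairs with equal total charge
`q + mu w₁ = q₂ + mu w₂`). -/
def gram (H : Half) (k w1 w2 q i j : ℕ) : ℤ :=
  ∑ σ : Fin k → Fin 3, V H k w1 q i σ * V H k w2 (q + mu w1 - mu w2) j σ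

/-- Partner type in the mirror image. -/
def wst (w : ℕ) : ℕ := if w = 0 then 4 else if w = 4 then 0 else w

/-- Coefficient of the pair `(w, wst w)` in `5 H ψ`. -/
def cst (w : ℕ) : ℤ := if w = 0 then 1 else if w = 4 then 1 else if w = 1 then -5 else 5

/-- Left half of a configuration of `m + m` sites. -/
def lft {m : ℕ} (σ : Fin (m + m) → Fin 3) : Fin m → Fin 3 := fun i => σ (Fin.castAdd m i)

/-- Mirror image (reversed and spin flipped) of the right half. -/
def rgt {m : ℕ} (σ : Fin (m + m) → Fin 3) : Fin m → Fin 3 :=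
  fun i => Fin.rev (σ (Fin.natAdd m (Fin.rev i)))

/-- The trial state. -/
def psi (H : Half) (m : ℕ) (ε : ℕ → ℕ → ℤ) (σ : Fin (m + m) → Fin 3) : ℤ :=
  ∑ q ∈ range 9, ∑ i ∈ range (H.d m q), ε q i * (V H m 0 q i (lft σ) * V H m 0 q i (rgt σ))

/-- `5 H ψ`. -/
def phi (H : Half) (m : ℕ) (ε : ℕ → ℕ → ℤ) (σ : Fin (m + m) → Fin 3) : ℤ :=
  ∑ q ∈ range 9, ∑ i ∈ range (H.d m q), ε q i *
    ∑ w ∈ range 5, cst w * (V H m w q i (lft σ) * V H m (wst w) q i (rgt σ))

/-- Exact value of `⟨ψ, ψ⟩`. -/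
def cN0 (H : Half) (m : ℕ) (ε : ℕ → ℕ → ℤ) : ℤ :=
  ∑ q ∈ range 9, ∑ i ∈ range (H.d m q), ∑ j ∈ range (H.d m q),
    ε q i * ε q j * (gram H m 0 0 q i j * gram H m 0 0 q i j)

/-- Exact value of `⟨ψ, 5 H ψ⟩`. -/
def cN1 (H : Half) (m : ℕ) (ε : ℕ → ℕ → ℤ) : ℤ :=
  ∑ v ∈ range 5, ∑ q ∈ range 9, ∑ i ∈ range (H.d m q),
    ∑ j ∈ range (H.d m (q + 1 - mu v)),
      ε q i * ε (q + 1 - mu v) j * cst v * (gram H m 0 v q i j * gram H m 0 (wst v) q i j)

/-- Exact value of `⟨5 H ψ, 5 H ψ⟩`. -/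
def cN2 (H : Half) (m : ℕ) (ε : ℕ → ℕ → ℤ) : ℤ :=
  ∑ u ∈ range 5, ∑ v ∈ range 5, ∑ q ∈ range 9, ∑ i ∈ range (H.d m q),
    ∑ j ∈ range (H.d m (q + mu u - mu v)),
      ε q i * ε (q + mu u - mu v) j * (cst u * cst v) *
        (gram H m u v q i j * gram H m (wst u) (wst v) q i j)

end Crest.Agent.R347.OChain
private theorem rz_ad9b01a328 : type_of% @_root_.Crest.Agent.R347.OChain.V.eq_def := @_root_.Crest.Agent.R347.OChain.V.eq_def -- L48
private theorem rz_611e86e807 : type_of% @_root_.Crest.Agent.R347.OChain.V.eq_1 := @_root_.Crest.Agent.R347.OChain.V.eq_1 -- L48
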