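import Crest.Agent.R347.OCorrect
import Crest.Agent.R347.OBound

-- ▼ part R347/OCorrect2
section

/-! Correctness of the kernel engine, part 2. -/

set_option autoImplicit false

namespace Crest.Agent.R347.OChain

open Finset

attribute [local irreducible] wd MM

section
variable {lS : ℕ} {A D : ℕ → ℕ} {m : ℕ}

theorem beta_le (k w : ℕ) : beta (2 ^ lS) k w ≤ (18 * k + 1) * 2 ^ (lS * k) := by
  unfold beta
  rw [pow_mul]
  have : (0 : ℤ) ≤ ((2 : ℤ) ^ lS) ^ k := by positivity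
  have h0 : (0 : ℤ) ≤ k := by positivity
  split_ifs
  · nlinarith
  · nlinarith

theorem gram_lt (h : bad lS A D m = 0) (hm : m ≤ 40) {k : ℕ} (hk : k ≤ m) {w1 w2 : ℕ}
    (hw1 : w1 < 5) (hw2 : w2 < 5) (q i j : ℕ) :
    |gram (HD A D m) k w1 w2 q i j| < 2 ^ (wd lS k - 1) := by
  have h1 := gram_bound (HD A D m) m (2 ^ lS) (by positivity)
    (fun k hk q' j => Tc_bound h hk q' j) hk hw1 hw2 q i j
  have hb0 := beta_nonneg (Sb := 2 ^ lS) (by positivity) k w2
  have h2 : beta (2 ^ lS) k w1 * beta (2 ^ lS) k w2 ≤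
      ((18 * k + 1) * 2 ^ (lS * k)) * ((18 * k + 1) * 2 ^ (lS * k)) :=
    mul_le_mul (beta_le k w1) (beta_le k w2) hb0 (by positivity)
  have hk40 : (k : ℤ) ≤ 40 := by exact_mod_cast hk.trans hm
  have h3 : ((18 * k + 1) * 2 ^ (lS * k)) * ((18 * k + 1) * 2 ^ (lS * k)) <
      (2 : ℤ) ^ (wd lS k - 1) := by
    have e : wd lS k - 1 = 19 + (lS * k + lS * k) := by rw [wd_eq]; ring_nf; omega
    rw [e, pow_add, pow_add]
    have hp : (0 : ℤ) < 2 ^ (lS * k) := by positivity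
    have hk0 : (0 : ℤ) ≤ k := by positivity
    have : ((18 * k + 1) * (18 * k + 1) : ℤ) < 2 ^ 19 := by nlinarith
    nlinarith [mul_pos hp hp]
  exact lt_of_le_of_lt (h1.trans h2) h3

theorem Ghat_def (k w w' q i : ℕ) (Gk : ℕ → ℕ → ℕ → ℕ → ℕ) :
    Ghat lS k Gk w w' q i = (Gk w w' q i +
      2 ^ (wd lS k - 1) * ∑ j ∈ range 9, 2 ^ (wd lS k * j)) % 2 ^ (9 * wd lS k) := by
  show Nat.land (Gk w w' q i + Kp lS k) (mkM lS k) = _
  rw [mkM_eq, land_mask, Kp_eq]

theorem Ghat_dig (h : bad lS A D m = 0) (hm : m ≤ 40) {k : ℕ} (hk : k ≤ m) {w w' q i : ℕ}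
    (hw : w < 5) (hw' : w' < 5) {M : ℕ} (hM : M = MM lS k)
    (hG : ((G lS A D k w w' q i : ℕ) : ZMod M) =
      ((PK (wd lS k) (fun j => gram (HD A D m) k w w' q i j) : ℤ) : ZMod M)) {l : ℕ} (hl : l < 9) :
    ((Ghat lS k (G lS A D k) w w' q i / 2 ^ (wd lS k * l) % 2 ^ wd lS k : ℕ) : ℤ) =
      gram (HD A D m) k w w' q i l + 2 ^ (wd lS k - 1) := by
  rw [Ghat_def]
  rw [MM_eq] at hM
  subst hM
  exact digits_of_cast (by have := wd_ge lS k; omega) _
    (fun j _ => gram_lt h hm hk hw hw' q i j) _ hG l hl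

theorem G0_def (w1 w2 q i : ℕ) :
    G0 w1 w2 q i = if w1 = 0 ∧ w2 = 0 ∧ q = 4 ∧ i = 0 then 1 else 0 := by
  show Nat.rec (motive := fun _ => ℕ) 1 (fun _ _ => 0) (w1 + w2 + (q - 4 + (4 - q) + i)) = _
  split_ifs with hc
  · obtain ⟨rfl, rfl, rfl, rfl⟩ := hc
    rfl
  · obtain ⟨n, hn⟩ : ∃ n, w1 + w2 + (q - 4 + (4 - q) + i) = n + 1 :=
      ⟨w1 + w2 + (q - 4 + (4 - q) + i) - 1, by omega⟩
    rw [hn]

theorem G_zero_cast (w1 w2 q i : ℕ) (M : ℕ) :
    ((G lS A D 0 w1 w2 q i : ℕ) : ZMod M) =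
      ((PK (wd lS 0) (fun j => gram (HD A D m) 0 w1 w2 q i j) : ℤ) : ZMod M) := by
  rw [G_zero, G0_def, PK]
  simp only [gram_zero]
  split_ifs with hc
  · obtain ⟨rfl, rfl, rfl, rfl⟩ := hc
    simp
  · have : ∀ j, (if w1 = 0 ∧ w2 = 0 ∧ q = 4 ∧ i = 0 ∧ j = 0 then (1 : ℤ) else 0) = 0 := by
      intro j
      rw [if_neg]
      rintro ⟨a, b, c, d, _⟩
      exact hc ⟨a, b, c, d⟩
    simp [this]

theorem X_def (k : ℕ) (Gk : ℕ → ℕ → ℕ → ℕ → ℕ) (s w w2 q i : ℕ) :
    X lS A D k Gk s w w2 q i = (∑ w' ∈ range 5, coef lS k s w' w2 *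
      RP lS A D k (Ghat lS k Gk w w' q i) (s + emu w2 - emu w') (q + emu w - emu w')) %
        2 ^ (9 * wd lS (k + 1)) := by
  have e1 : X lS A D k Gk s w w2 q i = Nat.land (S 5 (fun w' => sel (coef lS k s w' w2)
      (RP lS A D k (Ghat lS k Gk w w' q i) (s + emu w2 - emu w') (q + emu w - emu w'))))
        (mkM lS (k + 1)) := rfl
  rw [e1, mkM_eq, land_mask, S_eq]
  simp only [sel_eq]

theorem Gstep_def (k : ℕ) (Gk : ℕ → ℕ → ℕ → ℕ → ℕ) (w1 w2 q' i : ℕ) :
    Gstep lS A D k Gk w1 w2 q' i = (∑ s ∈ range 3, ∑ w ∈ range 5, coef lS k s w w1 *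
      ∑ kk ∈ range (dd D k (q' + (s + emu w1 - emu w) - 1)),
        asc lS A k (s + emu w1 - emu w) (q' + (s + emu w1 - emu w) - 1) kk i *
        X lS A D k Gk s w w2 (q' + (s + emu w1 - emu w) - 1) kk) %
        2 ^ (9 * wd lS (k + 1)) := by
  have e1 : Gstep lS A D k Gk w1 w2 q' i = Nat.land (S 3 (fun s => S 5 (fun w =>
      sel (coef lS k s w w1) (S (dd D k (q' + (s + emu w1 - emu w) - 1)) (fun kk =>
        asc lS A k (s + emu w1 - emu w) (q' + (s + emu w1 - emu w) - 1) kk i *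
        X lS A D k Gk s w w2 (q' + (s + emu w1 - emu w) - 1) kk))))) (mkM lS (k + 1)) := rfl
  rw [e1, mkM_eq, land_mask, S_eq]
  simp only [sel_eq, S_eq]

/-- The statement to be propagated. -/
def GOK (lS : ℕ) (A D : ℕ → ℕ) (m k : ℕ) : Prop :=
  ∀ M, M = MM lS k → ∀ w1 < 5, ∀ w2 < 5, ∀ q i, i < (HD A D m).d k q →
    ((G lS A D k w1 w2 q i : ℕ) : ZMod M) =
      ((PK (wd lS k) (fun j => gram (HD A D m) k w1 w2 q i j) : ℤ) : ZMod M)

theorem d_pos_lt {k q i : ℕ} (hi : i < (HD A D m).d k q) : 1 ≤ q ∧ q < 9 := by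
  constructor
  · by_contra hc
    have : q = 0 := by omega
    rw [this, (HD_ok A D m).d_zero] at hi
    omega
  · by_contra hc
    rw [(HD_ok A D m).d_large k q (by omega)] at hi
    omega

theorem cast_mod (M x y : ℕ) (h : M = y) : ((x % y : ℕ) : ZMod M) = (x : ZMod M) := by
  subst h
  exact ZMod.natCast_mod x M

theorem X_cast (h : bad lS A D m = 0) (hm : m ≤ 40) {k : ℕ} (hk : k < m) {M : ℕ}
    (hM : M = MM lS (k + 1)) (hG : GOK lS A D m k) {s w w2 q i : ℕ} (hs : s < 3) (hw : w < 5)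
    (hw2 : w2 < 5) (hi : i < (HD A D m).d k q) :
    ((X lS A D k (G lS A D k) s w w2 q i : ℕ) : ZMod M) =
      ((∑ w' ∈ range 5, kap k s w' w2 * ∑ l ∈ range ((HD A D m).d k (q + mu w - mu w')),
        gram (HD A D m) k w w' q i l * PK (wd lS (k + 1)) (fun j =>
          (HD A D m).a k (s + mu w2 - mu w') (q + mu w - mu w') l j) : ℤ) : ZMod M) := by
  rw [X_def, cast_mod M _ _ (by rw [hM, MM_eq])]
  push_cast
  refine Finset.sum_congr rfl fun w' hw' => ?_
  have hw'5 := Finset.mem_range.mp hw'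
  rw [coef_cast lS k hM hs hw'5 hw2]
  by_cases hk0 : kap k s w' w2 = 0
  · rw [hk0, Int.cast_zero, zero_mul, zero_mul]
  obtain ⟨h1, h2⟩ := kap_ne hs hk0
  congr 1
  rw [emu_eq w' hw'5, emu_eq w hw, emu_eq w2 hw2]
  obtain ⟨hq1, hq2⟩ := d_pos_lt hi
  have hmw : mu w ≤ 2 := by unfold mu; split_ifs <;> omega
  rw [RP_cast hM _ _ _ (fun l => gram (HD A D m) k w w' q i l)]
  · rw [dH_eq h hk.le (by omega)]
    refine Finset.sum_congr rfl fun l hl => ?_
    have hl' := Finset.mem_range.mp hl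
    obtain ⟨hq3, hq4⟩ := d_pos_lt hl'
    congr 1
    rw [At_cast hM]
    congr 1
    unfold PK
    refine Finset.sum_congr rfl fun j hj => ?_
    beta_reduce
    rw [a_eq h hk h2 hq4 (lt_of_lt_of_le hl' (dH_le h _ _)) (Finset.mem_range.mp hj)]
  · intro l hl
    rw [dH_eq h hk.le (by omega)] at hl
    exact Ghat_dig h hm hk.le hw hw'5 rfl (hG _ rfl w hw w' hw'5 q i hi)
      (lt_of_lt_of_le hl (dH_le h _ _))

theorem PK_sum {ι : Type*} (s : Finset ι) (b : ℕ) (f : ι → ℕ → ℤ) :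
    PK b (fun j => ∑ x ∈ s, f x j) = ∑ x ∈ s, PK b (f x) := by
  unfold PK
  rw [Finset.sum_comm]
  exact Finset.sum_congr rfl fun j _ => Finset.sum_mul _ _ _

theorem PK_mul (b : ℕ) (c : ℤ) (f : ℕ → ℤ) : PK b (fun j => c * f j) = c * PK b f := by
  unfold PK
  rw [Finset.mul_sum]
  exact Finset.sum_congr rfl fun j _ => by ring

theorem G_step (h : bad lS A D m = 0) (hm : m ≤ 40) {k : ℕ} (hk : k < m)
    (hG : GOK lS A D m k) : GOK lS A D m (k + 1) := by
  intro M hM w1 hw1 w2 hw2 q' i hi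
  obtain ⟨hq1, hq2⟩ := d_pos_lt hi
  have hi9 : i < 9 := lt_of_lt_of_le hi (dH_le h _ _)
  rw [G_succ, Gstep_def, cast_mod M _ _ (by rw [hM, MM_eq])]
  have e1 : (fun j => gram (HD A D m) (k + 1) w1 w2 q' i j) = fun j =>
      ∑ s ∈ range 3, ∑ w ∈ range 5, kap k s w w1 *
        ∑ i' ∈ range ((HD A D m).d k (q' + (s + mu w1 - mu w) - 1)),
          (HD A D m).a k (s + mu w1 - mu w) (q' + (s + mu w1 - mu w) - 1) i' i *
          ∑ w' ∈ range 5, kap k s w' w2 *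
            ∑ l ∈ range ((HD A D m).d k (q' + (s + mu w1 - mu w) - 1 + mu w - mu w')),
              gram (HD A D m) k w w' (q' + (s + mu w1 - mu w) - 1) i' l *
              (HD A D m).a k (s + mu w2 - mu w')
                (q' + (s + mu w1 - mu w) - 1 + mu w - mu w') l j := by
    funext j
    exact gram_succ (HD A D m) (HD_ok A D m) k w1 w2 q' i j
  rw [e1]
  simp only [PK_sum, PK_mul]
  push_cast
  refine Finset.sum_congr rfl fun s hs => Finset.sum_congr rfl fun w hw => ?_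
  have hs3 := Finset.mem_range.mp hs
  have hw5 := Finset.mem_range.mp hw
  rw [coef_cast lS k hM hs3 hw5 hw1]
  by_cases hk0 : kap k s w w1 = 0
  · rw [hk0, Int.cast_zero, zero_mul, zero_mul]
  obtain ⟨h1, h2⟩ := kap_ne hs3 hk0
  congr 1
  rw [emu_eq w hw5, emu_eq w1 hw1, dH_eq h hk.le (by omega)]
  refine Finset.sum_congr rfl fun kk hkk => ?_
  have hkk' := Finset.mem_range.mp hkk
  obtain ⟨hq3, hq4⟩ := d_pos_lt hkk'
  rw [asc_cast hM, X_cast h hm hk hM hG hs3 hw5 hw2 hkk',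
    ← a_eq h hk h2 hq4 (lt_of_lt_of_le hkk' (dH_le h _ _)) hi9]
  push_cast
  rfl

theorem G_correct (h : bad lS A D m = 0) (hm : m ≤ 40) : ∀ k ≤ m, GOK lS A D m k
  | 0, _ => fun M _ w1 _ w2 _ q i _ => G_zero_cast w1 w2 q i M
  | k + 1, hk => G_step h hm hk (G_correct h hm k (by omega))

end

end Crest.Agent.R347.OChain
end

-- ▼ part R347/OFinal
section

/-! Correctness of the final evaluation. -/

set_option autoImplicit false

namespace Crest.Agent.R347.OChain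

open Finset

theorem WW_eq : WW = 2 ^ 4096 := rfl

attribute [local irreducible] wd MM WW

/-- The signs encoded by `E`. -/
def epsE (E q i : ℕ) : ℤ := if dig 1 E (9 * q + i) = 0 then -1 else 1

theorem epsE_abs (E q i : ℕ) : |epsE E q i| ≤ 1 := by
  unfold epsE; split_ifs <;> simp

section
variable {lS : ℕ} {A D : ℕ → ℕ} {m : ℕ}

theorem eres_cast {M : ℕ} (hM : M = WW) (E q i : ℕ) :
    ((eres E q i : ℕ) : ZMod M) = ((epsE E q i : ℤ) : ZMod M) := by
  have e1 : eres E q i = if dig 1 E (9 * q + i) = 0 then WW - 1 else 1 := by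
    show Nat.rec (motive := fun _ => ℕ) (Nat.sub WW 1) (fun _ _ => 1) (dig 1 E (9 * q + i)) = _
    rcases dig 1 E (9 * q + i) with _ | n
    · rfl
    · rfl
  rw [e1, epsE]
  split_ifs with h
  · have h1 : 1 ≤ WW := by rw [WW_eq]; exact Nat.one_le_two_pow
    rw [← hM] at h1 ⊢
    push_cast [Nat.cast_sub h1]
    rw [ZMod.natCast_self]; ring
  · simp

theorem cres_table : ∀ w < 5, ((dig 4 0x15501 w : ℕ) : ℤ) - (dig 4 0x00050 w : ℕ) = cst w := by
  decide

theorem cres_cast {M : ℕ} (hM : M = WW) {w : ℕ} (hw : w < 5) :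
    ((cres w : ℕ) : ZMod M) = ((cst w : ℤ) : ZMod M) := by
  rw [← cres_table w hw]
  show ((dig 4 0x15501 w + WW - dig 4 0x00050 w : ℕ) : ZMod M) = _
  have h1 : dig 4 0x00050 w ≤ dig 4 0x15501 w + WW := by
    refine (dig_lt _ _ _).le.trans ?_
    rw [WW_eq]
    exact (Nat.pow_le_pow_right (by norm_num) (by norm_num : 4 ≤ 4096)).trans (Nat.le_add_left _ _)
  rw [← hM] at h1 ⊢
  push_cast [Nat.cast_sub h1]
  rw [ZMod.natCast_self]; ring

theorem est_eq : ∀ w < 5, est w = wst w := by decide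

theorem gres_cast (h : bad lS A D m = 0) (hm : m ≤ 40) (hW : wd lS m ≤ 4096) {M : ℕ}
    (hM : M = WW) {u v q i j : ℕ} (hu : u < 5) (hv : v < 5) (hi : i < (HD A D m).d m q)
    (hj : j < 9) :
    ((gres lS A D m u v q i j : ℕ) : ZMod M) =
      ((gram (HD A D m) m u v q i j : ℤ) : ZMod M) := by
  have h1 := Ghat_dig h hm le_rfl hu hv rfl
    (G_correct h hm m le_rfl _ rfl u hu v hv q i hi) hj
  show ((dig (wd lS m) (Ghat lS m (G lS A D m) u v q i) j + (WW - OO lS m) : ℕ) : ZMod M) = _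
  rw [dig_eq, OO_eq]
  have h2 : 2 ^ (wd lS m - 1) ≤ WW := by
    rw [WW_eq]
    exact Nat.pow_le_pow_right (by norm_num) (by omega)
  have h3 : (((Ghat lS m (G lS A D m) u v q i / 2 ^ (wd lS m * j) % 2 ^ wd lS m : ℕ) : ℤ) :
      ZMod M) = ((gram (HD A D m) m u v q i j + 2 ^ (wd lS m - 1) : ℤ) : ZMod M) := by rw [h1]
  rw [Int.cast_natCast] at h3
  rw [← hM] at h2 ⊢
  push_cast [Nat.cast_sub h2]
  push_cast at h3
  rw [h3, ZMod.natCast_self]
  ring

theorem term_cast (h : bad lS A D m = 0) (hm : m ≤ 40) (hW : wd lS m ≤ 4096) {M : ℕ}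
    (hM : M = WW) (E : ℕ) {u v u' v' q i j q2 : ℕ} (hu : u < 5) (hv : v < 5) (hu' : u' < 5)
    (hv' : v' < 5) (hi : i < (HD A D m).d m q) (hj : j < 9) :
    ((term lS A D m E u v u' v' q i j q2 : ℕ) : ZMod M) =
      ((epsE E q i * epsE E q2 j * (gram (HD A D m) m u v q i j *
        gram (HD A D m) m u' v' q i j) : ℤ) : ZMod M) := by
  show (((eres E q i * eres E q2 j) * (gres lS A D m u v q i j * gres lS A D m u' v' q i j) : ℕ) :
    ZMod M) = _
  push_cast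
  rw [eres_cast hM, eres_cast hM, gres_cast h hm hW hM hu hv hi hj,
    gres_cast h hm hW hM hu' hv' hi hj]

theorem eN0_cast (h : bad lS A D m = 0) (hm : m ≤ 40) (hW : wd lS m ≤ 4096) {M : ℕ}
    (hM : M = WW) (E : ℕ) :
    ((eN0 lS A D m E : ℕ) : ZMod M) = ((cN0 (HD A D m) m (epsE E) : ℤ) : ZMod M) := by
  have e1 : eN0 lS A D m E = ∑ q ∈ range 9, ∑ i ∈ range (dd D m q), ∑ j ∈ range (dd D m q),
      term lS A D m E 0 0 0 0 q i j q := by
    unfold eN0
    simp only [S_eq]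
  rw [e1, cN0]
  push_cast
  refine Finset.sum_congr rfl fun q hq => ?_
  have hq9 := Finset.mem_range.mp hq
  rw [dH_eq h le_rfl (by omega)]
  refine Finset.sum_congr rfl fun i hi => Finset.sum_congr rfl fun j hj => ?_
  rw [term_cast h hm hW hM E (by norm_num) (by norm_num) (by norm_num) (by norm_num)
    (Finset.mem_range.mp hi) (lt_of_lt_of_le (Finset.mem_range.mp hj) (dH_le h _ _))]
  push_cast
  rfl

theorem wst_lt {w : ℕ} (hw : w < 5) : wst w < 5 := by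
  unfold wst; split_ifs <;> omega

theorem mu_le (w : ℕ) : mu w ≤ 2 := by unfold mu; split_ifs <;> omega

theorem eN1_cast (h : bad lS A D m = 0) (hm : m ≤ 40) (hW : wd lS m ≤ 4096) {M : ℕ}
    (hM : M = WW) (E : ℕ) :
    ((eN1 lS A D m E : ℕ) : ZMod M) = ((cN1 (HD A D m) m (epsE E) : ℤ) : ZMod M) := by
  have e1 : eN1 lS A D m E = ∑ v ∈ range 5, cres v * ∑ q ∈ range 9,
      ∑ i ∈ range (dd D m q), ∑ j ∈ range (dd D m (q + 1 - emu v)),
      term lS A D m E 0 v 0 (est v) q i j (q + 1 - emu v) := by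
    unfold eN1
    simp only [S_eq, force_eq]
    rfl
  rw [e1, cN1]
  push_cast
  refine Finset.sum_congr rfl fun v hv => ?_
  have hv5 := Finset.mem_range.mp hv
  rw [emu_eq v hv5, est_eq v hv5, cres_cast hM hv5, Finset.mul_sum]
  refine Finset.sum_congr rfl fun q hq => ?_
  have hq9 := Finset.mem_range.mp hq
  rw [dH_eq h le_rfl (by omega : q ≤ 10), dH_eq h le_rfl (by omega : q + 1 - mu v ≤ 10),
    Finset.mul_sum]
  refine Finset.sum_congr rfl fun i hi => ?_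
  rw [Finset.mul_sum]
  refine Finset.sum_congr rfl fun j hj => ?_
  rw [term_cast h hm hW hM E (by norm_num) hv5 (by norm_num) (wst_lt hv5)
    (Finset.mem_range.mp hi) (lt_of_lt_of_le (Finset.mem_range.mp hj) (dH_le h _ _))]
  push_cast
  ring

theorem eN2_cast (h : bad lS A D m = 0) (hm : m ≤ 40) (hW : wd lS m ≤ 4096) {M : ℕ}
    (hM : M = WW) (E : ℕ) :
    ((eN2 lS A D m E : ℕ) : ZMod M) = ((cN2 (HD A D m) m (epsE E) : ℤ) : ZMod M) := by
  have e1 : eN2 lS A D m E = ∑ u ∈ range 5, ∑ v ∈ range 5, (cres u * cres v) * ∑ q ∈ range 9,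
      ∑ i ∈ range (dd D m q), ∑ j ∈ range (dd D m (q + emu u - emu v)),
      term lS A D m E u v (est u) (est v) q i j (q + emu u - emu v) := by
    unfold eN2
    simp only [S_eq, force_eq]
    rfl
  rw [e1, cN2]
  push_cast
  refine Finset.sum_congr rfl fun u hu => Finset.sum_congr rfl fun v hv => ?_
  have hu5 := Finset.mem_range.mp hu
  have hv5 := Finset.mem_range.mp hv
  rw [emu_eq v hv5, emu_eq u hu5, est_eq v hv5, est_eq u hu5, cres_cast hM hv5,
    cres_cast hM hu5, Finset.mul_sum]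
  refine Finset.sum_congr rfl fun q hq => ?_
  have hq9 := Finset.mem_range.mp hq
  have := mu_le u
  rw [dH_eq h le_rfl (by omega : q ≤ 10), dH_eq h le_rfl (by omega : q + mu u - mu v ≤ 10),
    Finset.mul_sum]
  refine Finset.sum_congr rfl fun i hi => ?_
  rw [Finset.mul_sum]
  refine Finset.sum_congr rfl fun j hj => ?_
  rw [term_cast h hm hW hM E hu5 hv5 (wst_lt hu5) (wst_lt hv5)
    (Finset.mem_range.mp hi) (lt_of_lt_of_le (Finset.mem_range.mp hj) (dH_le h _ _))]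
  push_cast
  ring

end

end Crest.Agent.R347.OChain
end

-- ▼ part R347/OSize

/-! Size of the exact integers. -/

set_option autoImplicit false

namespace Crest.Agent.R347.OChain

open Finset

theorem abs_sum_range_le (n : ℕ) (f : ℕ → ℤ) (c : ℤ) (hf : ∀ i < n, |f i| ≤ c) :
    |∑ i ∈ range n, f i| ≤ n * c := by
  refine (Finset.abs_sum_le_sum_abs _ _).trans ?_
  refine (Finset.sum_le_sum fun i hi => hf i (Finset.mem_range.mp hi)).trans ?_
  simp

theorem abs_cst (w : ℕ) : |cst w| ≤ 5 := by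
  unfold cst; split_ifs <;> simp

theorem wst_lt' {w : ℕ} (hw : w < 5) : wst w < 5 := by
  unfold wst; split_ifs <;> omega

theorem term_bd {e1 e2 c g1 g2 C Bd : ℤ} (h1 : |e1| ≤ 1) (h2 : |e2| ≤ 1) (hc : |c| ≤ C)
    (hg1 : |g1| ≤ Bd) (hg2 : |g2| ≤ Bd) : |e1 * e2 * c * (g1 * g2)| ≤ C * (Bd * Bd) := by
  have hB : 0 ≤ Bd := (abs_nonneg _).trans hg1
  have hC : 0 ≤ C := (abs_nonneg _).trans hc
  rw [abs_mul, abs_mul, abs_mul, abs_mul]
  have a1 : |e1| * |e2| ≤ 1 := by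
    calc |e1| * |e2| ≤ 1 * 1 := mul_le_mul h1 h2 (abs_nonneg _) (by norm_num)
      _ = 1 := by norm_num
  have a2 : |e1| * |e2| * |c| ≤ C := by
    calc |e1| * |e2| * |c| ≤ 1 * C := mul_le_mul a1 hc (abs_nonneg _) (by norm_num)
      _ = C := one_mul _
  exact mul_le_mul a2 (mul_le_mul hg1 hg2 (abs_nonneg _) hB) (by positivity) hC

theorem sum3_bd (d1 d2 : ℕ → ℕ) (h1 : ∀ q, d1 q ≤ 9) (h2 : ∀ q, d2 q ≤ 9) (f : ℕ → ℕ → ℕ → ℤ)
    {c : ℤ} (hc : 0 ≤ c) (hf : ∀ q i j, |f q i j| ≤ c) :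
    |∑ q ∈ range 9, ∑ i ∈ range (d1 q), ∑ j ∈ range (d2 q), f q i j| ≤ 729 * c := by
  have a1 : ∀ q i, |∑ j ∈ range (d2 q), f q i j| ≤ 9 * c := by
    intro q i
    refine (abs_sum_range_le _ _ c fun j _ => hf q i j).trans ?_
    have : ((d2 q : ℕ) : ℤ) ≤ 9 := by exact_mod_cast h2 q
    nlinarith
  have a2 : ∀ q, |∑ i ∈ range (d1 q), ∑ j ∈ range (d2 q), f q i j| ≤ 9 * (9 * c) := by
    intro q
    refine (abs_sum_range_le _ _ (9 * c) fun i _ => a1 q i).trans ?_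
    have : ((d1 q : ℕ) : ℤ) ≤ 9 := by exact_mod_cast h1 q
    nlinarith
  refine (abs_sum_range_le 9 _ (9 * (9 * c)) fun q _ => a2 q).trans ?_
  push_cast
  linarith

theorem cN_bounds (H : Half) (m : ℕ) (ε : ℕ → ℕ → ℤ) (Bd : ℤ) (hd : ∀ q, H.d m q ≤ 9)
    (hε : ∀ q i, |ε q i| ≤ 1)
    (hg : ∀ u < 5, ∀ v < 5, ∀ q i j, |gram H m u v q i j| ≤ Bd) :
    |cN0 H m ε| ≤ 2 ^ 20 * Bd ^ 2 ∧ |cN1 H m ε| ≤ 2 ^ 20 * Bd ^ 2 ∧
      |cN2 H m ε| ≤ 2 ^ 20 * Bd ^ 2 := by
  have hB : 0 ≤ Bd := (abs_nonneg _).trans (hg 0 (by norm_num) 0 (by norm_num) 0 0 0)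
  have hBB : 0 ≤ Bd * Bd := mul_nonneg hB hB
  refine ⟨?_, ?_, ?_⟩
  · have := sum3_bd (fun q => H.d m q) (fun q => H.d m q) hd hd
      (fun q i j => ε q i * ε q j * (gram H m 0 0 q i j * gram H m 0 0 q i j)) hBB
      (fun q i j => by
        have := term_bd (c := 1) (C := 1) (hε q i) (hε q j) (by norm_num)
          (hg 0 (by norm_num) 0 (by norm_num) q i j) (hg 0 (by norm_num) 0 (by norm_num) q i j)
        simpa using this)
    unfold cN0
    nlinarith
  · unfold cN1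
    have h5 : ∀ v < 5, |∑ q ∈ range 9, ∑ i ∈ range (H.d m q),
        ∑ j ∈ range (H.d m (q + 1 - mu v)),
        ε q i * ε (q + 1 - mu v) j * cst v * (gram H m 0 v q i j * gram H m 0 (wst v) q i j)| ≤
        729 * (5 * (Bd * Bd)) := by
      intro v hv
      exact sum3_bd (fun q => H.d m q) (fun q => H.d m (q + 1 - mu v)) hd (fun q => hd _)
        (fun q i j => ε q i * ε (q + 1 - mu v) j * cst v *
          (gram H m 0 v q i j * gram H m 0 (wst v) q i j)) (by positivity)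
        (fun q i j => term_bd (hε _ _) (hε _ _) (abs_cst v) (hg 0 (by norm_num) v hv q i j)
          (hg 0 (by norm_num) (wst v) (wst_lt' hv) q i j))
    refine (abs_sum_range_le 5 _ _ h5).trans ?_
    push_cast
    nlinarith
  · unfold cN2
    have h5 : ∀ u < 5, |∑ v ∈ range 5, ∑ q ∈ range 9, ∑ i ∈ range (H.d m q),
        ∑ j ∈ range (H.d m (q + mu u - mu v)),
        ε q i * ε (q + mu u - mu v) j * (cst u * cst v) *
          (gram H m u v q i j * gram H m (wst u) (wst v) q i j)| ≤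
        5 * (729 * (25 * (Bd * Bd))) := by
      intro u hu
      refine (abs_sum_range_le 5 _ (729 * (25 * (Bd * Bd))) ?_).trans (by push_cast; exact le_rfl)
      intro v hv
      have hcc : |cst u * cst v| ≤ 25 := by
        rw [abs_mul]
        calc |cst u| * |cst v| ≤ 5 * 5 :=
              mul_le_mul (abs_cst u) (abs_cst v) (abs_nonneg _) (by norm_num)
          _ = 25 := by norm_num
      exact sum3_bd (fun q => H.d m q) (fun q => H.d m (q + mu u - mu v)) hd (fun q => hd _)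
        (fun q i j => ε q i * ε (q + mu u - mu v) j * (cst u * cst v) *
          (gram H m u v q i j * gram H m (wst u) (wst v) q i j)) (by positivity)
        (fun q i j => term_bd (hε _ _) (hε _ _) hcc (hg u hu v hv q i j)
          (hg (wst u) (wst_lt' hu) (wst v) (wst_lt' hv) q i j))
    refine (abs_sum_range_le 5 _ _ h5).trans ?_
    push_cast
    nlinarith

end Crest.Agent.R347.OChain
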