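import Crest.Agent.R347.NumTrace
import Crest.Agent.R347.NumScalar_Mg
import Crest.Agent.R347.OpenEngine
import Crest.Agent.R347.NumCW
import Crest.Agent.R347.Open

-- ▼ part R347/OpenSector
section

/-! Sector-resolved polynomial approximation of traces (open chain certificate, N6). -/

set_option autoImplicit false
set_option linter.unusedSectionVars false

namespace Crest.Agent.R347.OSec

open Matrix Crest.Agent.R347.Num

noncomputable section

section dg
variable {κ : Type*} [Fintype κ] [DecidableEq κ] {S : Type*} [DecidableEq S]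

/-- diagonalisation data of `H` adapted to the label `c` -/
structure Dg (H : Matrix κ κ ℂ) (c : κ → S) where
  U : Matrix κ κ ℂ
  lam : κ → ℝ
  h1 : Uᴴ * U = 1
  h2 : U * Uᴴ = 1
  h3 : H = U * diagonal (fun i => ((lam i : ℝ) : ℂ)) * Uᴴ
  h4 : ∀ σ i, c σ ≠ c i → U σ i = 0

variable {H : Matrix κ κ ℂ} {c : κ → S}

theorem Dg.cx_eq (D : Dg H c) {G : Matrix κ κ ℤ} {g0 : ℝ}
    (hG : cx G = (g0 : ℂ) • (1 : Matrix κ κ ℂ) - (5 : ℂ) • H) :
    cx G = D.U * diagonal (fun i => ((g0 - 5 * D.lam i : ℝ) : ℂ)) * D.Uᴴ := by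
  have e1 : diagonal (fun i => ((g0 - 5 * D.lam i : ℝ) : ℂ)) =
      (g0 : ℂ) • (1 : Matrix κ κ ℂ) - (5 : ℂ) • diagonal (fun i => ((D.lam i : ℝ) : ℂ)) := by
    ext i j
    by_cases h : i = j
    · subst h; simp
    · simp [h]
  rw [e1, mul_sub, sub_mul, Matrix.mul_smul, Matrix.smul_mul, mul_one, D.h2, Matrix.mul_smul,
    Matrix.smul_mul, ← D.h3, hG]

/-- entries in the diagonalising basis -/
theorem Dg.entry (D : Dg H c) (f : κ → ℝ) (σ τ : κ) :
    (D.U * diagonal (fun i => ((f i : ℝ) : ℂ)) * D.Uᴴ) σ τ =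
      ∑ i, (f i : ℂ) * (D.U σ i * star (D.U τ i)) := by
  rw [mul_apply]
  refine Finset.sum_congr rfl fun i _ => ?_
  rw [mul_diagonal, conjTranspose_apply]
  ring

theorem Dg.col (D : Dg H c) (i : κ) : ∑ σ, D.U σ i * star (D.U σ i) = 1 := by
  have h := congrFun (congrFun D.h1 i) i
  rw [mul_apply, one_apply_eq] at h
  rw [← h]
  refine Finset.sum_congr rfl fun σ _ => ?_
  rw [conjTranspose_apply]
  ring

theorem Dg.row (D : Dg H c) (σ : κ) : ∑ i, ‖D.U σ i‖ ^ 2 = 1 := by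
  have h := congrFun (congrFun D.h2 σ) σ
  rw [mul_apply, one_apply_eq] at h
  have h3 : ((∑ k, ‖D.U σ k‖ ^ 2 : ℝ) : ℂ) = 1 := by
    rw [← h, Complex.ofReal_sum]
    refine Finset.sum_congr rfl fun k _ => ?_
    rw [conjTranspose_apply, Complex.star_def, Complex.mul_conj', Complex.ofReal_pow]
  exact_mod_cast h3

/-- (B) sector trace -/
theorem Dg.sector_trace (D : Dg H c) (f : κ → ℝ) (s : S) :
    ∑ σ ∈ Finset.univ.filter (fun σ => c σ = s),
      (D.U * diagonal (fun i => ((f i : ℝ) : ℂ)) * D.Uᴴ) σ σ =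
      ((∑ i ∈ Finset.univ.filter (fun i => c i = s), f i : ℝ) : ℂ) := by
  simp only [D.entry]
  rw [Finset.sum_comm, Complex.ofReal_sum, Finset.sum_filter]
  refine Finset.sum_congr rfl fun i _ => ?_
  rw [← Finset.mul_sum]
  by_cases hi : c i = s
  · have h1 : ∑ σ ∈ Finset.univ.filter (fun σ => c σ = s), D.U σ i * star (D.U σ i) = 1 := by
      rw [← D.col i]
      refine Finset.sum_subset (Finset.subset_univ _) fun σ _ hσ => ?_
      rw [D.h4 σ i (by
        intro h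
        apply hσ
        rw [Finset.mem_filter]
        exact ⟨Finset.mem_univ _, h.trans hi⟩), zero_mul]
    rw [if_pos hi, h1, mul_one]
  · rw [if_neg hi]
    rw [Finset.sum_eq_zero, mul_zero]
    intro σ hσ
    rw [Finset.mem_filter] at hσ
    rw [D.h4 σ i (by intro h; exact hi (h.symm.trans hσ.2)), zero_mul]

/-- sector trace of a polynomial in an integer matrix -/
theorem Dg.sector_clv (D : Dg H c) {G : Matrix κ κ ℤ} {g0 : ℝ}
    (hG : cx G = (g0 : ℂ) • (1 : Matrix κ κ ℂ) - (5 : ℂ) • H) (ρ : ℕ) (us : List ℕ) (s : S) :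
    ((∑ σ ∈ Finset.univ.filter (fun σ => c σ = s), clv G ρ us σ σ : ℤ) : ℝ) =
      ∑ i ∈ Finset.univ.filter (fun i => c i = s), clv (g0 - 5 * D.lam i) ρ us := by
  have h1 := clv_of_diag D.h1 D.h2 (D.cx_eq hG) ρ us
  have h2 := D.sector_trace (fun i => clv (g0 - 5 * D.lam i) ρ us) s
  rw [← h1] at h2
  have h3 : (((∑ σ ∈ Finset.univ.filter (fun σ => c σ = s), clv G ρ us σ σ : ℤ) : ℝ) : ℂ) =
      ((∑ i ∈ Finset.univ.filter (fun i => c i = s), clv (g0 - 5 * D.lam i) ρ us : ℝ) : ℂ) := by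
    rw [← h2]
    push_cast
    rfl
  exact_mod_cast h3

/-- (C) sector entry bound -/
theorem Dg.entry_bound (D : Dg H c) {G : Matrix κ κ ℤ} {g0 : ℝ}
    (hG : cx G = (g0 : ℂ) • (1 : Matrix κ κ ℂ) - (5 : ℂ) • H) (ρ : ℕ) (us : List ℕ) (s : S)
    (Qb : ℕ) (hb : ∀ i, c i = s → |clv (g0 - 5 * D.lam i) ρ us| ≤ Qb) (σ τ : κ) (hσ : c σ = s) :
    |clv G ρ us σ τ| ≤ Qb := by
  have h1 := congrFun (congrFun (clv_of_diag D.h1 D.h2 (D.cx_eq hG) ρ us) σ) τ
  rw [map_apply, D.entry] at h1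
  have hn : ‖((clv G ρ us σ τ : ℤ) : ℂ)‖ ≤ Qb := by
    rw [h1]
    calc ‖∑ i, ((clv (g0 - 5 * D.lam i) ρ us : ℝ) : ℂ) * (D.U σ i * star (D.U τ i))‖
        ≤ ∑ i, ‖((clv (g0 - 5 * D.lam i) ρ us : ℝ) : ℂ) * (D.U σ i * star (D.U τ i))‖ :=
          norm_sum_le _ _
      _ ≤ ∑ i, (Qb : ℝ) * (‖D.U σ i‖ * ‖D.U τ i‖) := by
          refine Finset.sum_le_sum fun i _ => ?_
          by_cases hi : c σ = c i
          · rw [norm_mul, norm_mul, norm_star, Complex.norm_real, Real.norm_eq_abs]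
            exact mul_le_mul_of_nonneg_right (hb i (hi.symm.trans hσ)) (by positivity)
          · rw [D.h4 σ i hi]
            simp
      _ = Qb * ∑ i, ‖D.U σ i‖ * ‖D.U τ i‖ := by rw [Finset.mul_sum]
      _ ≤ Qb * 1 := by
          gcongr
          have h5 := Finset.sum_mul_sq_le_sq_mul_sq Finset.univ (fun i => ‖D.U σ i‖)
            (fun i => ‖D.U τ i‖)
          rw [D.row, D.row, one_mul] at h5
          have h6 : 0 ≤ ∑ i, ‖D.U σ i‖ * ‖D.U τ i‖ :=
            Finset.sum_nonneg fun i _ => mul_nonneg (norm_nonneg _) (norm_nonneg _)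
          nlinarith
      _ = Qb := mul_one _
  rw [Complex.norm_intCast] at hn
  exact_mod_cast hn

/-- column eigenvector equation -/
theorem Dg.eig (D : Dg H c) {A : Matrix κ κ ℤ} {a : ℝ} {b : ℝ}
    (hA : cx A = (a : ℂ) • (1 : Matrix κ κ ℂ) + (b : ℂ) • H) (i σ : κ) :
    ∑ τ, ((A σ τ : ℤ) : ℂ) * D.U τ i = ((a + b * D.lam i : ℝ) : ℂ) * D.U σ i := by
  have h : cx A * D.U = D.U * diagonal (fun i => ((a + b * D.lam i : ℝ) : ℂ)) := by
    have e1 : diagonal (fun i => ((a + b * D.lam i : ℝ) : ℂ)) =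
        (a : ℂ) • (1 : Matrix κ κ ℂ) + (b : ℂ) • diagonal (fun i => ((D.lam i : ℝ) : ℂ)) := by
      ext i j
      by_cases h : i = j
      · subst h; simp
      · simp [h]
    have hHU : H * D.U = D.U * diagonal (fun i => ((D.lam i : ℝ) : ℂ)) := by
      have h3 : H * D.U = D.U * diagonal (fun i => ((D.lam i : ℝ) : ℂ)) * D.Uᴴ * D.U :=
        congrArg (fun M => M * D.U) D.h3
      rw [h3, mul_assoc, D.h1, mul_one]
    rw [hA, e1, mul_add, add_mul, Matrix.mul_smul, Matrix.mul_smul, Matrix.smul_mul,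
      Matrix.smul_mul, mul_one, one_mul, hHU]
  have h2 := congrFun (congrFun h σ) i
  rw [mul_apply, mul_diagonal] at h2
  rw [mul_comm ((a + b * D.lam i : ℝ) : ℂ)]
  exact h2

/-- (E) Collatz-Wielandt bound in a sector, real positive vector -/
theorem Dg.collatz (D : Dg H c) {A : Matrix κ κ ℤ} {a b : ℝ}
    (hA : cx A = (a : ℂ) • (1 : Matrix κ κ ℂ) + (b : ℂ) • H) (s : S) (v : κ → ℝ)
    (hv0 : ∀ σ, 0 ≤ v σ) (hv : ∀ σ, c σ = s → 0 < v σ) (R : ℝ)
    (hR : ∀ σ, c σ = s → ∑ τ, |((A σ τ : ℤ) : ℝ)| * v τ ≤ R * v σ) (i : κ) (hi : c i = s) :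
    |a + b * D.lam i| ≤ R := by
  obtain ⟨i0, hi0⟩ : ∃ σ, D.U σ i ≠ 0 := by
    by_contra hcon
    push Not at hcon
    have := D.col i
    simp [hcon] at this
  have : Nonempty κ := ⟨i0⟩
  obtain ⟨j, hj⟩ := Finite.exists_max (fun j => ‖D.U j i‖ / v j)
  have hsec : ∀ σ, D.U σ i ≠ 0 → c σ = s := by
    intro σ h
    by_contra hne
    exact h (D.h4 σ i (by rw [hi]; exact hne))
  have hpos : 0 < ‖D.U j i‖ / v j :=
    (div_pos (norm_pos_iff.mpr hi0) (hv i0 (hsec i0 hi0))).trans_le (hj i0)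
  have hUj : D.U j i ≠ 0 := by
    intro h
    rw [h, norm_zero, zero_div] at hpos
    exact lt_irrefl _ hpos
  have hcj := hsec j hUj
  have hvj := hv j hcj
  set t := ‖D.U j i‖ / v j with ht
  have hle : ∀ τ, ‖D.U τ i‖ ≤ t * v τ := by
    intro τ
    by_cases h : D.U τ i = 0
    · rw [h, norm_zero]
      exact mul_nonneg hpos.le (hv0 τ)
    · exact (div_le_iff₀ (hv τ (hsec τ h))).mp (hj τ)
  have hUpos : 0 < ‖D.U j i‖ := norm_pos_iff.mpr hUj
  have h1 : |a + b * D.lam i| * ‖D.U j i‖ ≤ R * ‖D.U j i‖ := by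
    have h2 : |a + b * D.lam i| * ‖D.U j i‖ = ‖∑ τ, ((A j τ : ℤ) : ℂ) * D.U τ i‖ := by
      rw [D.eig hA i j, norm_mul, Complex.norm_real, Real.norm_eq_abs]
    rw [h2]
    calc ‖∑ τ, ((A j τ : ℤ) : ℂ) * D.U τ i‖ ≤ ∑ τ, ‖((A j τ : ℤ) : ℂ) * D.U τ i‖ :=
          norm_sum_le _ _
      _ ≤ ∑ τ, |((A j τ : ℤ) : ℝ)| * (t * v τ) := by
          refine Finset.sum_le_sum fun τ _ => ?_
          rw [norm_mul, Complex.norm_intCast]
          exact mul_le_mul_of_nonneg_left (hle τ) (abs_nonneg _)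
      _ = t * ∑ τ, |((A j τ : ℤ) : ℝ)| * v τ := by
          rw [Finset.mul_sum]
          refine Finset.sum_congr rfl fun τ _ => ?_
          ring
      _ ≤ t * (R * v j) := by
          gcongr
          exact hR j hcj
      _ = R * ‖D.U j i‖ := by
          rw [ht]
          field_simp [hvj.ne']
  exact le_of_mul_le_mul_right h1 hUpos

/-- (F) the sector partition function versus the sector trace of the polynomial -/
theorem Dg.sector_approx (D : Dg H c) {G : Matrix κ κ ℤ} {g0 : ℝ}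
    (hG : cx G = (g0 : ℂ) • (1 : Matrix κ κ ℂ) - (5 : ℂ) • H) (r : ℕ) (hr : 0 < r)
    (us : List ℕ) (hne : us ≠ []) {acc pm : ℤ}
    (h : (ExpApprox.go r (12 * r) 5 0 1 (alt false us.reverse)).2.2 = (acc, pm)) (s : S)
    (left : ℝ) (hleft : g0 = left + 2 * r)
    (hspec : ∀ i, c i = s → left ≤ 5 * D.lam i ∧ 5 * D.lam i ≤ left + 4 * r) :
    |(pm : ℝ) * Real.exp (6 / 5 * left) *
        (∑ i ∈ Finset.univ.filter (fun i => c i = s), Real.exp (-6 * D.lam i)) -
      ((∑ σ ∈ Finset.univ.filter (fun σ => c σ = s), clv G (r ^ 2) us σ σ : ℤ) : ℝ)| ≤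
      ((Finset.univ.filter (fun σ => c σ = s)).card : ℝ) * ((acc : ℝ) / (12 * r)) := by
  rw [D.sector_clv hG, Finset.mul_sum, ← Finset.sum_sub_distrib]
  refine (Finset.abs_sum_le_sum_abs _ _).trans ?_
  rw [← nsmul_eq_mul, ← Finset.sum_const]
  refine Finset.sum_le_sum fun i hi => ?_
  rw [Finset.mem_filter] at hi
  obtain ⟨hl, hu⟩ := hspec i hi.2
  have hr' : (0 : ℝ) < r := by exact_mod_cast hr
  have key := exp_clv_approx r hr (12 * r) 5 (by positivity) (by norm_num) us hne h (6 / 5)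
    (by push_cast; ring) (g0 - 5 * D.lam i) (by
      rw [abs_le]
      constructor <;> linarith)
  have e : (pm : ℝ) * Real.exp (6 / 5 * left) * Real.exp (-6 * D.lam i) =
      (pm : ℝ) * Real.exp (-((((12 * r : ℤ)) : ℝ) / ((5 : ℤ) : ℝ))) *
        Real.exp (6 / 5 * (g0 - 5 * D.lam i)) := by
    rw [mul_assoc, mul_assoc, ← Real.exp_add, ← Real.exp_add]
    congr 2
    rw [hleft]
    push_cast
    ring
  rw [e]
  refine key.trans (le_of_eq ?_)
  push_cast
  rfl

end dg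

/-! ### one block of columns -/

theorem block_spec {L : ℕ} (κ ρ c1 Cn w : ℕ) (bl : List (Bond L)) (fs : List (Fld L))
    (hbl : ∀ b ∈ bl, b.j ≠ b.k)
    (hC : κ * (2 * bl.length) + (2 * κ * bl.length + (fs.map fun b => b.t0 + b.t1 + b.t2).sum)
      + ρ ≤ Cn) (us : List ℕ)
    (hlab : ∀ σ τ : Cfg L, dsum σ ≠ dsum τ → Gmat κ c1 bl fs σ τ = 0) (s : ℕ) (Qb : ℕ)
    (hQ : ∀ σ τ : Cfg L, dsum σ = s → |clv (Gmat κ c1 bl fs) ρ us σ τ| ≤ Qb)
    (hw : 1 ≤ w) (J : List (Cfg L × ℕ)) (hJ0 : J ≠ []) (hJ : (J.map Prod.fst).Nodup)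
    (hJs : ∀ x ∈ J, dsum x.1 = s) (hs : 2 * ((J.map Prod.snd).sum * Qb) < 2 ^ w) :
    sgnd w (run1 κ ρ c1 Cn w (w * J.length) (w * (J.length - 1)) (bl.map Bond.toBd)
      (fs.map Fld.toFd) (J.map fun x => (code x.1, x.2)) us) ≤
        wdiag (clv (Gmat κ c1 bl fs) ρ us) id J ∧
    wdiag (clv (Gmat κ c1 bl fs) ρ us) id J ≤
      sgnd w (run1 κ ρ c1 Cn w (w * J.length) (w * (J.length - 1)) (bl.map Bond.toBd)
      (fs.map Fld.toFd) (J.map fun x => (code x.1, x.2)) us) + 1 := by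
  set Q := clv (Gmat κ c1 bl fs) ρ us with hQdef
  have hQlab : ∀ σ τ : Cfg L, dsum σ ≠ dsum τ → Q σ τ = 0 := by
    intro σ τ h
    refine clv_zero_of_label _ (fun σ => (dsum σ : ℤ)) ?_ ρ us σ τ (by exact_mod_cast h)
    intro a b hab
    exact hlab a b (by exact_mod_cast hab)
  let Q' : Matrix (Cfg L) (Cfg L) ℤ := Matrix.of fun σ τ => if dsum σ = s then Q σ τ else 0
  have hQ' : ∀ σ τ, |Q' σ τ| ≤ Qb := by
    intro σ τ
    show |if dsum σ = s then Q σ τ else 0| ≤ _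
    split_ifs with h
    · exact hQ σ τ h
    · simp
  have hwd : wdiag Q id J = wdiag Q' id J := by
    unfold wdiag
    refine congrArg List.sum (List.map_congr_left fun x hx => ?_)
    show _ = _ * (if dsum (id x.1) = s then Q (id x.1) x.1 else 0)
    rw [if_pos (show dsum (id x.1) = s from hJs x hx)]
  obtain ⟨f, hf1, hf2, hf3⟩ := go_spec κ ρ c1 Cn (w * J.length) bl fs hbl
    (esel (2 ^ w) (J.map fun x => (code x.1, x.2))) hC
    (fun f => outT (2 ^ w) (w * J.length) (w * (J.length - 1)) (2 ^ (w * J.length) - 1)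
      (fun c => c) f (J.map fun x => (code x.1, x.2))) us
  have hrun : run1 κ ρ c1 Cn w (w * J.length) (w * (J.length - 1)) (bl.map Bond.toBd)
      (fs.map Fld.toFd) (J.map fun x => (code x.1, x.2)) us =
      outT (2 ^ w) (w * J.length) (w * (J.length - 1)) (2 ^ (w * J.length) - 1)
      (fun c => c) f (J.map fun x => (code x.1, x.2)) := by
    rw [← hf1]
    rfl
  rw [hrun, hwd]
  refine out_spec w hw J hJ0 hJ Q' Qb hQ' hs id (fun c => c) (fun _ => rfl) f ?_ (w * J.length)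
  intro σ
  rw [hf3 σ]
  by_cases hσ : dsum σ = s
  · refine Finset.sum_congr rfl fun τ _ => ?_
    have : Q' σ τ = Q σ τ := if_pos hσ
    rw [this]
  · rw [Finset.sum_eq_zero, Finset.sum_eq_zero]
    · intro τ _
      have : Q' σ τ = 0 := if_neg hσ
      rw [this]
      simp
    · intro τ _
      by_cases hτ : dsum τ = s
      · rw [← hQdef, hQlab σ τ (by rw [hτ]; exact hσ)]
        simp
      · have : esel (2 ^ w) (J.map fun x => (code x.1, x.2)) (code τ) = 0 := by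
          have h2 : esel (2 ^ w) (J.map fun x => (code x.1, x.2)) (code τ) =
            eselP (2 ^ w) (J.map fun x => (code x.1, x.2)) (code τ) 1 := rfl
          rw [h2]
          refine eselP_notMem _ _ _ 1 fun j hj h => hτ ?_
          rw [List.mem_map] at hj
          obtain ⟨x, hx, rfl⟩ := hj
          have : τ = x.1 := code_injective h
          rw [this]
          exact hJs x hx
        rw [this]
        simp

/-! ### covering a sector by representatives -/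

theorem sum_cover {κ : Type*} [DecidableEq κ] (A : Finset κ) (ω : κ → ℕ)
    (J : List (κ × ℕ)) (hJ : (J.map Prod.fst).Nodup) (hmem : ∀ x ∈ J, x.1 ∈ A)
    (hw : ∀ x ∈ J, x.2 = ω x.1) (hs : (J.map Prod.snd).sum = ∑ σ ∈ A, ω σ) (f : κ → ℤ) :
    ∑ σ ∈ A, (ω σ : ℤ) * f σ = (J.map fun x => (x.2 : ℤ) * f x.1).sum := by
  set B : Finset κ := (J.map Prod.fst).toFinset with hB
  have hBA : B ⊆ A := by
    intro x hx
    rw [hB, List.mem_toFinset, List.mem_map] at hx
    obtain ⟨y, hy, rfl⟩ := hx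
    exact hmem y hy
  have hsumB : ∀ g : κ → ℤ, ∑ σ ∈ B, (ω σ : ℤ) * g σ = (J.map fun x => (x.2 : ℤ) * g x.1).sum := by
    intro g
    rw [hB, List.sum_toFinset _ hJ, List.map_map]
    refine congrArg List.sum (List.map_congr_left fun x hx => ?_)
    show (ω x.1 : ℤ) * g x.1 = _
    rw [hw x hx]
  have hzero : ∀ σ ∈ A \ B, ω σ = 0 := by
    have h1 : ((∑ σ ∈ B, ω σ : ℕ) : ℤ) = ((∑ σ ∈ A, ω σ : ℕ) : ℤ) := by
      rw [← hs]
      have := hsumB (fun _ => 1)
      simp only [mul_one] at this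
      push_cast
      rw [this, List.map_map]
      rfl
    have h2 : ∑ σ ∈ B, ω σ = ∑ σ ∈ A, ω σ := by exact_mod_cast h1
    have h3 := Finset.sum_sdiff hBA (f := ω)
    have h4 : ∑ σ ∈ A \ B, ω σ = 0 := by omega
    exact fun σ hσ => (Finset.sum_eq_zero_iff.mp h4) σ hσ
  rw [← hsumB f, ← Finset.sum_sdiff hBA, Finset.sum_eq_zero, zero_add]
  intro σ hσ
  rw [hzero σ hσ]
  simp

/-- weight of a representative for an involution acting on codes -/
def omg (x y : ℕ) : ℕ := if x < y then 2 else if x = y then 1 else 0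

theorem omg_add (x y : ℕ) : omg x y + omg y x = 2 := by
  unfold omg
  rcases lt_trichotomy x y with h | h | h
  · rw [if_pos h, if_neg (by omega), if_neg (by omega)]
  · rw [if_neg (by omega), if_pos h, if_neg (by omega), if_pos h.symm]
  · rw [if_neg (by omega), if_neg (by omega), if_pos h]

theorem sum_invol {κ : Type*} (A : Finset κ) (R : κ → κ) (hR : ∀ σ, R (R σ) = σ)
    (hA : ∀ σ ∈ A, R σ ∈ A) (cd : κ → ℕ) (f : κ → ℤ) (hf : ∀ σ, f (R σ) = f σ) :
    ∑ σ ∈ A, (omg (cd σ) (cd (R σ)) : ℤ) * f σ = ∑ σ ∈ A, f σ := by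
  have h1 : ∑ σ ∈ A, (omg (cd σ) (cd (R σ)) : ℤ) * f σ =
      ∑ σ ∈ A, (omg (cd (R σ)) (cd σ) : ℤ) * f σ := by
    refine Finset.sum_nbij' R R hA hA (fun σ _ => hR σ) (fun σ _ => hR σ) ?_
    intro σ _
    rw [hR, hf]
  have h2 : ∑ σ ∈ A, (omg (cd σ) (cd (R σ)) : ℤ) * f σ +
      ∑ σ ∈ A, (omg (cd (R σ)) (cd σ) : ℤ) * f σ = 2 * ∑ σ ∈ A, f σ := by
    rw [← Finset.sum_add_distrib, Finset.mul_sum]
    refine Finset.sum_congr rfl fun σ _ => ?_
    have := omg_add (cd σ) (cd (R σ))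
    have h3 : (omg (cd σ) (cd (R σ)) : ℤ) + (omg (cd (R σ)) (cd σ) : ℤ) = 2 := by
      exact_mod_cast this
    rw [← add_mul, h3]
  rw [← h1] at h2
  linarith

theorem sum_omg {κ : Type*} (A : Finset κ) (R : κ → κ) (hR : ∀ σ, R (R σ) = σ)
    (hA : ∀ σ ∈ A, R σ ∈ A) (cd : κ → ℕ) :
    ∑ σ ∈ A, omg (cd σ) (cd (R σ)) = A.card := by
  have := sum_invol A R hR hA cd (fun _ => 1) (fun _ => rfl)
  simp only [mul_one, Finset.sum_const, nsmul_eq_mul] at this
  exact_mod_cast this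

/-! ### codes -/

/-- decoding -/
def dec (L : ℕ) (c : ℕ) : Cfg L := fun j =>
  if h : c / 4 ^ (j : ℕ) % 4 < 3 then ⟨c / 4 ^ (j : ℕ) % 4, h⟩ else 0

theorem dec_succ (L c : ℕ) : (fun j : Fin L => dec (L + 1) c j.succ) = dec L (c / 4) := by
  funext j
  unfold dec
  have h : c / 4 ^ ((j.succ : Fin (L + 1)) : ℕ) = c / 4 / 4 ^ (j : ℕ) := by
    rw [Fin.val_succ, pow_succ', ← Nat.div_div_eq_div_mul]
  simp only [h]

theorem dec_zero_val (L c : ℕ) (h : c % 4 ≤ 2) : ((dec (L + 1) c 0 : Fin 3) : ℕ) = c % 4 := by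
  unfold dec
  have h1 : c / 4 ^ ((0 : Fin (L + 1)) : ℕ) % 4 = c % 4 := by simp
  rw [dif_pos (by rw [h1]; omega)]
  exact h1

theorem code_dec (L c : ℕ) (h : okc L c = true) : code (dec L c) = c := by
  induction L generalizing c with
  | zero =>
    have : c = 0 := Nat.eq_of_beq_eq_true h
    rw [this]
    rfl
  | succ L ih =>
    have h' : Bool.and (Nat.ble (c % 4) 2) (okc L (c / 4)) = true := h
    have h1 : (Nat.ble (c % 4) 2 && okc L (c / 4)) = true := h'
    rw [Bool.and_eq_true, Nat.ble_eq] at h1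
    rw [code_succ, dec_succ, ih _ h1.2, dec_zero_val _ _ h1.1]
    omega

theorem dsum_succ {L : ℕ} (σ : Cfg (L + 1)) :
    dsum σ = (σ 0 : ℕ) + dsum (fun j : Fin L => σ j.succ) := by
  unfold dsum
  rw [Fin.sum_univ_succ]

theorem dsum_dec (L c : ℕ) (h : okc L c = true) : dsum (dec L c) = dsc L c := by
  induction L generalizing c with
  | zero => rfl
  | succ L ih =>
    have h' : Bool.and (Nat.ble (c % 4) 2) (okc L (c / 4)) = true := h
    have h1 : (Nat.ble (c % 4) 2 && okc L (c / 4)) = true := h'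
    rw [Bool.and_eq_true, Nat.ble_eq] at h1
    rw [dsum_succ, dec_succ, ih _ h1.2, dec_zero_val _ _ h1.1]
    rfl

/-- reversal of the order of the sites -/
def rv {L : ℕ} (σ : Cfg L) : Cfg L := fun j => σ j.rev

/-- reversal and flip -/
def rfl' {L : ℕ} (σ : Cfg L) : Cfg L := fun j => (σ j.rev).rev

theorem rv_rv {L : ℕ} (σ : Cfg L) : rv (rv σ) = σ := by funext j; simp [rv]

theorem rfl'_rfl' {L : ℕ} (σ : Cfg L) : rfl' (rfl' σ) = σ := by funext j; simp [rfl']

theorem dsum_rv {L : ℕ} (σ : Cfg L) : dsum (rv σ) = dsum σ := by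
  unfold dsum rv
  exact Equiv.sum_comp Fin.revPerm (fun j => (σ j : ℕ))

theorem rfl'_eq {L : ℕ} (σ : Cfg L) : rfl' σ = fl (rv σ) := rfl

theorem dsum_rfl' {L : ℕ} (σ : Cfg L) : dsum (rfl' σ) + dsum σ = 2 * L := by
  rw [rfl'_eq, ← dsum_rv σ]
  exact dsum_fl (rv σ)

/-- code of a configuration, most significant digit first -/
theorem code_rev_succ {L : ℕ} (σ : Cfg (L + 1)) :
    code (rv σ) = (σ 0 : ℕ) * 4 ^ L + code (rv (fun j : Fin L => σ j.succ)) := by
  unfold code rv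
  rw [Fin.sum_univ_castSucc, add_comm]
  congr 1
  · simp
  · refine Finset.sum_congr rfl fun j _ => ?_
    rw [Fin.rev_castSucc]
    simp

theorem rvc_eq (L : ℕ) : ∀ c acc, okc L c = true →
    rvc L c acc = acc * 4 ^ L + code (rv (dec L c)) := by
  induction L with
  | zero => intro c acc _; simp [rvc, code]
  | succ L ih =>
    intro c acc h
    have h1 : (Nat.ble (c % 4) 2 && okc L (c / 4)) = true := h
    rw [Bool.and_eq_true, Nat.ble_eq] at h1
    rw [rvc, ih _ _ h1.2, code_rev_succ, dec_succ, dec_zero_val _ _ h1.1, pow_succ]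
    ring

theorem rfc_eq (L : ℕ) : ∀ c acc, okc L c = true →
    rfc L c acc = acc * 4 ^ L + code (rfl' (dec L c)) := by
  have hc : ∀ {L : ℕ} (σ : Cfg (L + 1)), code (rfl' σ) =
      (2 - (σ 0 : ℕ)) * 4 ^ L + code (rfl' (fun j : Fin L => σ j.succ)) := by
    intro L σ
    have h := code_rev_succ (fl σ)
    have e1 : rv (fl σ) = rfl' σ := rfl
    have e2 : rv (fun j : Fin L => fl σ j.succ) = rfl' (fun j : Fin L => σ j.succ) := rfl
    have e3 : ((fl σ 0 : Fin 3) : ℕ) = 2 - (σ 0 : ℕ) := by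
      show (((σ 0).rev : Fin 3) : ℕ) = _
      rw [Fin.val_rev]
      omega
    rw [e1, e2, e3] at h
    exact h
  induction L with
  | zero => intro c acc _; simp [rfc, code]
  | succ L ih =>
    intro c acc h
    have h1 : (Nat.ble (c % 4) 2 && okc L (c / 4)) = true := h
    rw [Bool.and_eq_true, Nat.ble_eq] at h1
    rw [rfc, ih _ _ h1.2, hc, dec_succ, dec_zero_val _ _ h1.1, pow_succ]
    ring

/-! ### number of configurations in a sector -/

theorem card_sector (L : ℕ) : ∀ s, (Finset.univ.filter fun σ : Cfg L => dsum σ = s).card =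
    cnt L s := by
  induction L with
  | zero =>
    intro s
    by_cases h : s = 0
    · subst h
      simp [cnt, dsum]
    · have : (Finset.univ.filter fun σ : Cfg 0 => dsum σ = s) = ∅ := by
        rw [Finset.filter_eq_empty_iff]
        intro σ _ h2
        apply h
        rw [← h2]
        simp [dsum]
      rw [this]
      simp [cnt, h]
  | succ L ih =>
    intro s
    have h1 : (Finset.univ.filter fun σ : Cfg (L + 1) => dsum σ = s).card =
        ∑ a : Fin 3, (Finset.univ.filter fun τ : Cfg L => (a : ℕ) + dsum τ = s).card := by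
      rw [Finset.card_filter, ← Equiv.sum_comp (Fin.consEquiv (fun _ : Fin (L + 1) => Fin 3)),
        Fintype.sum_prod_type]
      refine Finset.sum_congr rfl fun a _ => ?_
      rw [Finset.card_filter]
      refine Finset.sum_congr rfl fun τ _ => ?_
      have : dsum (Fin.consEquiv (fun _ : Fin (L + 1) => Fin 3) (a, τ)) = (a : ℕ) + dsum τ := by
        rw [dsum_succ]
        rfl
      rw [this]
    rw [h1, Fin.sum_univ_three]
    have h2 : ∀ a : ℕ, (Finset.univ.filter fun τ : Cfg L => a + dsum τ = s).card =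
        if a ≤ s then cnt L (s - a) else 0 := by
      intro a
      split_ifs with ha
      · rw [← ih]
        congr 1
        ext τ
        simp only [Finset.mem_filter, Finset.mem_univ, true_and]
        omega
      · rw [Finset.card_eq_zero, Finset.filter_eq_empty_iff]
        intro τ _
        omega
    rw [h2, h2, h2]
    simp [cnt]

/-! ### the check of a list of representatives -/

theorem omg_eq (x y : ℕ) : (Bool.rec (Bool.rec 0 1 (Nat.beq x y)) 2 (Nat.ble (x + 1) y) : ℕ) =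
    omg x y := by
  unfold omg
  by_cases h : x < y
  · rw [if_pos h]
    have : Nat.ble (x + 1) y = true := Nat.ble_eq.mpr h
    rw [this]
  · rw [if_neg h]
    have h1 : Nat.ble (x + 1) y = false := by
      cases hb : Nat.ble (x + 1) y with
      | false => rfl
      | true => exact absurd (Nat.ble_eq.mp hb) h
    rw [h1]
    by_cases h2 : x = y
    · rw [if_pos h2]
      have : Nat.beq x y = true := by rw [h2]; exact Nat.beq_refl y
      rw [this]
    · rw [if_neg h2]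
      have : Nat.beq x y = false := by
        cases hb : Nat.beq x y with
        | false => rfl
        | true => exact absurd (Nat.eq_of_beq_eq_true hb) h2
      rw [this]

theorem chkJ_cons (L s : ℕ) (rc : ℕ → ℕ) (x : ℕ × ℕ) (J : List (ℕ × ℕ)) (prev : ℕ)
    (h : chkJ L s rc (x :: J) prev = true) :
    prev ≤ x.1 ∧ okc L x.1 = true ∧ dsc L x.1 = s ∧ x.2 = omg x.1 (rc x.1) ∧
      chkJ L s rc J (x.1 + 1) = true := by
  have h' : (Nat.ble prev x.1 && (okc L x.1 && (Nat.beq (dsc L x.1) s &&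
      (Nat.beq x.2 (Bool.rec (Bool.rec 0 1 (Nat.beq x.1 (rc x.1))) 2
        (Nat.ble (x.1 + 1) (rc x.1))) && chkJ L s rc J (x.1 + 1))))) = true := h
  rw [Bool.and_eq_true, Bool.and_eq_true, Bool.and_eq_true, Bool.and_eq_true, omg_eq] at h'
  exact ⟨Nat.ble_eq.mp h'.1, h'.2.1, Nat.eq_of_beq_eq_true h'.2.2.1,
    Nat.eq_of_beq_eq_true h'.2.2.2.1, h'.2.2.2.2⟩

theorem chkJ_spec (L s : ℕ) (rc : ℕ → ℕ) (J : List (ℕ × ℕ)) : ∀ prev,
    chkJ L s rc J prev = true →
    (∀ x ∈ J, prev ≤ x.1 ∧ okc L x.1 = true ∧ dsc L x.1 = s ∧ x.2 = omg x.1 (rc x.1)) ∧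
      (J.map Prod.fst).Nodup := by
  induction J with
  | nil => intro prev _; simp
  | cons x J ih =>
    intro prev h
    obtain ⟨h1, h2, h3, h4, h5⟩ := chkJ_cons L s rc x J prev h
    obtain ⟨h6, h7⟩ := ih _ h5
    refine ⟨?_, ?_⟩
    · intro y hy
      rcases List.mem_cons.mp hy with rfl | hy
      · exact ⟨h1, h2, h3, h4⟩
      · have := h6 y hy
        exact ⟨by omega, this.2⟩
    · rw [List.map_cons, List.nodup_cons]
      refine ⟨?_, h7⟩
      intro hmem
      rw [List.mem_map] at hmem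
      obtain ⟨y, hy, hyx⟩ := hmem
      have := (h6 y hy).1
      omega

/-- the list of configurations of a list of codes -/
def dJ (L : ℕ) (J : List (ℕ × ℕ)) : List (Cfg L × ℕ) := J.map fun x => (dec L x.1, x.2)

theorem dJ_codes (L : ℕ) (J : List (ℕ × ℕ)) (h : ∀ x ∈ J, okc L x.1 = true) :
    ((dJ L J).map fun x => (code x.1, x.2)) = J := by
  unfold dJ
  rw [List.map_map]
  conv_rhs => rw [← List.map_id J]
  refine List.map_congr_left fun x hx => ?_
  show (code (dec L x.1), x.2) = x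
  rw [code_dec L x.1 (h x hx)]

theorem dJ_nodup (L : ℕ) (J : List (ℕ × ℕ)) (h : ∀ x ∈ J, okc L x.1 = true)
    (hn : (J.map Prod.fst).Nodup) : ((dJ L J).map Prod.fst).Nodup := by
  have h2 : ((dJ L J).map Prod.fst).map code = J.map Prod.fst := by
    conv_rhs => rw [← dJ_codes L J h]
    rw [List.map_map, List.map_map]
    rfl
  rw [← h2] at hn
  exact List.Nodup.of_map _ hn

theorem dJ_snd (L : ℕ) (J : List (ℕ × ℕ)) : (dJ L J).map Prod.snd = J.map Prod.snd := by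
  unfold dJ
  rw [List.map_map]
  rfl

theorem dJ_length (L : ℕ) (J : List (ℕ × ℕ)) : (dJ L J).length = J.length := by
  unfold dJ
  rw [List.length_map]

theorem dJ_append (L : ℕ) (J J' : List (ℕ × ℕ)) : dJ L (J ++ J') = dJ L J ++ dJ L J' := by
  unfold dJ
  rw [List.map_append]

/-- covering of a sector: the sector sum of an invariant function is the weighted sum over the
representatives -/
theorem sector_cover (L s : ℕ) (R : Cfg L → Cfg L) (hR : ∀ σ, R (R σ) = σ)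
    (hRs : ∀ σ, dsum σ = s → dsum (R σ) = s) (rc : ℕ → ℕ)
    (hrc : ∀ c, okc L c = true → rc c = code (R (dec L c))) (J : List (ℕ × ℕ)) (prev : ℕ)
    (hchk : chkJ L s rc J prev = true) (hsum : (J.map Prod.snd).sum = cnt L s)
    (f : Cfg L → ℤ) (hf : ∀ σ, f (R σ) = f σ) :
    ∑ σ ∈ Finset.univ.filter (fun σ : Cfg L => dsum σ = s), f σ =
      ((dJ L J).map fun x => (x.2 : ℤ) * f x.1).sum := by
  obtain ⟨h1, h2⟩ := chkJ_spec L s rc J prev hchk
  set A := Finset.univ.filter (fun σ : Cfg L => dsum σ = s) with hA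
  have hAR : ∀ σ ∈ A, R σ ∈ A := by
    intro σ hσ
    rw [hA, Finset.mem_filter] at hσ ⊢
    exact ⟨Finset.mem_univ _, hRs σ hσ.2⟩
  rw [← sum_invol A R hR hAR code f hf]
  refine sum_cover A (fun σ => omg (code σ) (code (R σ))) (dJ L J)
    (dJ_nodup L J (fun x hx => (h1 x hx).2.1) h2) ?_ ?_ ?_ f
  · intro x hx
    unfold dJ at hx
    rw [List.mem_map] at hx
    obtain ⟨y, hy, rfl⟩ := hx
    rw [hA, Finset.mem_filter]
    refine ⟨Finset.mem_univ _, ?_⟩
    show dsum (dec L y.1) = s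
    rw [dsum_dec L y.1 (h1 y hy).2.1]
    exact (h1 y hy).2.2.1
  · intro x hx
    unfold dJ at hx
    rw [List.mem_map] at hx
    obtain ⟨y, hy, rfl⟩ := hx
    show y.2 = omg (code (dec L y.1)) (code (R (dec L y.1)))
    rw [code_dec L y.1 (h1 y hy).2.1, ← hrc y.1 (h1 y hy).2.1]
    exact (h1 y hy).2.2.2
  · rw [dJ_snd, hsum, sum_omg A R hR hAR code, hA, card_sector]

end

end Crest.Agent.R347.OSec
end

-- ▼ part R347/OpenGmat
section

/-! The integer matrix of the open chain of eight sites, its symmetries and spectral bounds. -/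

set_option autoImplicit false

namespace Crest.Agent.R347.OSec

open Matrix Crest.MathPhysics.SpinChain Crest.Agent.R347.Num

noncomputable section

/-- bonds of the open chain of `8` sites -/
def ob : List (Bond 8) := (List.finRange 7).map fun j => ⟨j.castSucc, j.succ, false⟩

theorem ob_ne : ∀ b ∈ ob, b.j ≠ b.k := by
  intro b hb
  unfold ob at hb
  rw [List.mem_map] at hb
  obtain ⟨j, _, rfl⟩ := hb
  exact (Fin.castSucc_lt_succ (i := j)).ne

theorem ob_length : ob.length = 7 := by simp [ob]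

/-- field tables (five times the field energy, shifted); `true`: opposite fields -/
def fO (t : Bool) : List (Fld 8) :=
  [⟨0, 0, 3, 6⟩, bif t then ⟨7, 6, 3, 0⟩ else ⟨7, 0, 3, 6⟩]

/-- right field -/
def hr (t : Bool) : ℝ := bif t then -(3 / 5) else 3 / 5

/-- the Hamiltonian -/
def HO (t : Bool) : Matrix (Cfg 8) (Cfg 8) ℂ := openH 7 (3 / 5) (hr t)

theorem onSite_Z {L : ℕ} (j : Fin L) :
    onSite spinZ j = Matrix.diagonal (fun σ : Cfg L => (1 : ℂ) - ((σ j : ℕ) : ℂ)) := by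
  ext σ τ
  have hz : ∀ a b : Fin 3, spinZ a b = if a = b then (1 : ℂ) - ((a : ℕ) : ℂ) else 0 := by
    intro a b
    rw [DirectGen.spinZ_eq]
    fin_cases a <;> fin_cases b <;> simp <;> norm_num
  simp only [onSite, Matrix.of_apply]
  by_cases h : σ = τ
  · subst h
    rw [if_pos (fun _ _ => rfl), hz, if_pos rfl, Matrix.diagonal_apply_eq]
  · rw [Matrix.diagonal_apply_ne _ h]
    split_ifs with h1
    · rw [hz, if_neg]
      intro h2
      apply h
      funext k
      by_cases hk : k = j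
      · rw [hk]; exact h2
      · exact h1 k hk
    · rfl

theorem bond_cx {L : ℕ} (j k : Fin L) (hjk : j ≠ k) : bond j k = cx (Hb ⟨j, k, false⟩) := by
  have h := bond_eq_Hb j k hjk false
  simp only [Bool.false_eq_true, false_and, if_false, one_smul] at h
  exact h

theorem fD_fO (t : Bool) (σ : Cfg 8) : ((fD (fO t) σ : ℕ) : ℂ) =
    6 - (3 : ℂ) * (1 - ((σ 0 : ℕ) : ℂ)) - 5 * ((hr t : ℝ) : ℂ) * (1 - ((σ 7 : ℕ) : ℂ)) := by
  have h1 : ∀ a : Fin 3, ((tbl 0 3 6 (a : ℕ) : ℕ) : ℂ) = 3 * ((a : ℕ) : ℂ) := by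
    intro a; fin_cases a <;> norm_num [tbl]
  have h2 : ∀ a : Fin 3, ((tbl 6 3 0 (a : ℕ) : ℕ) : ℂ) = 6 - 3 * ((a : ℕ) : ℂ) := by
    intro a; fin_cases a <;> norm_num [tbl]
  unfold fD fO hr
  cases t
  · simp only [cond_false, List.map_cons, List.map_nil, List.sum_cons, List.sum_nil, add_zero,
      Nat.cast_add, h1]
    push_cast
    ring
  · simp only [cond_true, List.map_cons, List.map_nil, List.sum_cons, List.sum_nil, add_zero,
      Nat.cast_add, h1, h2]
    push_cast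
    ring

theorem ob_sum {M : Type*} [AddCommMonoid M] (f : Bond 8 → M) :
    (ob.map f).sum = ∑ j : Fin 7, f ⟨j.castSucc, j.succ, false⟩ := by
  unfold ob
  rw [List.map_map, ← Fin.sum_univ_def]
  rfl

/-- the link between the integer matrix and the Hamiltonian -/
theorem cxG (t : Bool) (c1 : ℕ) :
    cx (Gmat 5 c1 ob (fO t)) =
      (((c1 : ℝ) - 41 : ℝ) : ℂ) • (1 : Matrix (Cfg 8) (Cfg 8) ℂ) - (5 : ℂ) • HO t := by
  have hb : (∑ j : Fin 7, bond (Fin.castSucc j) (Fin.succ j) : Matrix (Cfg 8) (Cfg 8) ℂ) =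
      cx ((ob.map Hb).sum) := by
    rw [ob_sum]
    ext σ τ
    rw [Matrix.sum_apply, cx, Matrix.map_apply, Matrix.sum_apply, Int.cast_sum]
    refine Finset.sum_congr rfl fun j _ => ?_
    rw [bond_cx _ _ (Fin.castSucc_lt_succ (i := j)).ne]
    rfl
  unfold HO openH
  rw [hb, onSite_Z, onSite_Z]
  ext σ τ
  unfold Gmat
  rw [ob_length]
  simp only [cx, Matrix.map_apply, Matrix.sub_apply, Matrix.smul_apply, smul_eq_mul]
  by_cases h : σ = τ
  · subst h
    simp only [Matrix.one_apply_eq, Matrix.diagonal_apply_eq]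
    have h2 := fD_fO t σ
    have e7 : (Fin.last 7 : Fin 8) = 7 := rfl
    rw [e7]
    push_cast
    rw [h2]
    ring
  · simp only [Matrix.one_apply_ne h, Matrix.diagonal_apply_ne _ h]
    push_cast
    ring

theorem G_label (t : Bool) (c1 : ℕ) (σ τ : Cfg 8) (h : dsum σ ≠ dsum τ) :
    Gmat 5 c1 ob (fO t) σ τ = 0 := by
  have hne : σ ≠ τ := fun h' => h (by rw [h'])
  unfold Gmat
  simp only [Matrix.sub_apply, Matrix.smul_apply, smul_eq_mul, Matrix.one_apply_ne hne,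
    Matrix.diagonal_apply_ne _ hne]
  rw [ob_sum, Matrix.sum_apply, Finset.sum_eq_zero]
  · simp
  · intro j _
    exact Hb_label _ (Fin.castSucc_lt_succ (i := j)).ne σ τ h

theorem dsum_lt {L : ℕ} (σ : Cfg L) : dsum σ < 2 * L + 1 := by
  have h := dsum_fl σ
  omega

/-- sector label -/
def lab (σ : Cfg 8) : Fin 17 := ⟨dsum σ, dsum_lt σ⟩

theorem lab_eq (σ : Cfg 8) (s : Fin 17) : lab σ = s ↔ dsum σ = (s : ℕ) := by
  unfold lab
  rw [Fin.ext_iff]

theorem HO_label (t : Bool) (σ τ : Cfg 8) (h : lab σ ≠ lab τ) : HO t σ τ = 0 := by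
  have h1 : dsum σ ≠ dsum τ := by
    intro h'
    exact h (Fin.ext h')
  have hne : σ ≠ τ := fun h' => h (by rw [h'])
  have h2 := congrFun (congrFun (cxG t 41) σ) τ
  rw [cx, Matrix.map_apply, G_label t 41 σ τ h1] at h2
  simp only [Matrix.sub_apply, Matrix.smul_apply, smul_eq_mul, Matrix.one_apply_ne hne,
    mul_zero, zero_sub, Int.cast_zero] at h2
  have h3 : (5 : ℂ) * HO t σ τ = 0 := by
    rw [← neg_eq_zero]; exact h2.symm
  rcases mul_eq_zero.mp h3 with h4 | h4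
  · norm_num at h4
  · exact h4

theorem G_symm (t : Bool) (c1 : ℕ) : (Gmat 5 c1 ob (fO t))ᵀ = Gmat 5 c1 ob (fO t) :=
  Gmat_symm 5 c1 ob (fO t) ob_ne

theorem HO_herm (t : Bool) : (HO t).IsHermitian := by
  have h := cx_isHermitian (G_symm t 41)
  have h2 : HO t = -((1 / 5 : ℂ)) • cx (Gmat 5 41 ob (fO t)) := by
    rw [cxG]
    ext σ τ
    simp
  rw [h2]
  ext σ τ
  have h3 := congrFun (congrFun h σ) τ
  rw [conjTranspose_apply] at h3
  rw [conjTranspose_apply, Matrix.smul_apply, Matrix.smul_apply, smul_eq_mul, smul_eq_mul,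
    star_mul', h3]
  congr 1
  simp

/-- diagonalisation data -/
theorem exists_Dg (t : Bool) : Nonempty (Dg (HO t) lab) := by
  obtain ⟨U, lam, h1, h2, h3, h4⟩ := exists_diag_sector (HO_herm t) lab (HO_label t)
  exact ⟨⟨U, lam, h1, h2, h3, h4⟩⟩

/-! ### reflection symmetry -/

theorem Hb_swap {L : ℕ} (j k : Fin L) (hjk : j ≠ k) (tw : Bool) (σ τ : Cfg L) :
    Hb ⟨k, j, tw⟩ σ τ = Hb ⟨j, k, tw⟩ σ τ := by
  rw [Hb_apply hjk, Hb_apply hjk.symm]
  have hh : ∀ (tw : Bool) (a c a' c' : Fin 3), hl tw c a c' a' = hl tw a c a' c' := by decide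
  rw [hh]
  by_cases h : ∀ l, l ≠ j → l ≠ k → σ l = τ l
  · rw [if_pos h, if_pos (fun l h1 h2 => h l h2 h1)]
  · rw [if_neg h, if_neg (fun h' => h fun l h1 h2 => h' l h2 h1)]

theorem Hb_rv {L : ℕ} (j k : Fin L) (hjk : j ≠ k) (tw : Bool) (σ τ : Cfg L) :
    Hb ⟨j, k, tw⟩ (rv σ) (rv τ) = Hb ⟨j.rev, k.rev, tw⟩ σ τ := by
  have hjk' : j.rev ≠ k.rev := fun h => hjk (Fin.rev_injective h)
  rw [Hb_apply hjk, Hb_apply hjk']
  by_cases h : ∀ l, l ≠ j.rev → l ≠ k.rev → σ l = τ l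
  · rw [if_pos h, if_pos]
    · rfl
    · intro l h1 h2
      exact h l.rev (fun h' => h1 (Fin.rev_injective h')) (fun h' => h2 (Fin.rev_injective h'))
  · rw [if_neg h, if_neg]
    intro h'
    apply h
    intro l h1 h2
    have := h' l.rev (fun h'' => h1 (by rw [← h'', Fin.rev_rev]))
      (fun h'' => h2 (by rw [← h'', Fin.rev_rev]))
    unfold rv at this
    rw [Fin.rev_rev] at this
    exact this

theorem bonds_rv (σ τ : Cfg 8) :
    (ob.map Hb).sum (rv σ) (rv τ) = (ob.map Hb).sum σ τ := by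
  rw [ob_sum, Matrix.sum_apply, Matrix.sum_apply, ← Equiv.sum_comp Fin.revPerm]
  refine Finset.sum_congr rfl fun j _ => ?_
  have hne : (j.castSucc : Fin 8) ≠ j.succ := (Fin.castSucc_lt_succ (i := j)).ne
  have hne' : (j.rev.castSucc : Fin 8) ≠ j.rev.succ := (Fin.castSucc_lt_succ (i := j.rev)).ne
  rw [Fin.revPerm_apply, Hb_rv _ _ hne', Fin.rev_castSucc, Fin.rev_succ, Fin.rev_rev,
    Hb_swap _ _ hne]

theorem bonds_fl (σ τ : Cfg 8) :
    (ob.map Hb).sum (fl σ) (fl τ) = (ob.map Hb).sum σ τ := by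
  rw [ob_sum, Matrix.sum_apply, Matrix.sum_apply]
  exact Finset.sum_congr rfl fun j _ => Hb_fl _ σ τ

/-- the symmetry: reflection (equal fields), reflection and flip (opposite fields) -/
def Ro (t : Bool) (σ : Cfg 8) : Cfg 8 := bif t then rfl' σ else rv σ

theorem Ro_Ro (t : Bool) (σ : Cfg 8) : Ro t (Ro t σ) = σ := by
  cases t
  · exact rv_rv σ
  · exact rfl'_rfl' σ

/-- as a permutation -/
def RoE (t : Bool) : Equiv.Perm (Cfg 8) where
  toFun := Ro t
  invFun := Ro t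
  left_inv := Ro_Ro t
  right_inv := Ro_Ro t

theorem fD_Ro (t : Bool) (σ : Cfg 8) : fD (fO t) (Ro t σ) = fD (fO t) σ := by
  have h2 : ∀ a : Fin 3, tbl 6 3 0 (a.rev : ℕ) = tbl 0 3 6 (a : ℕ) := by decide
  have h3 : ∀ a : Fin 3, tbl 0 3 6 (a.rev : ℕ) = tbl 6 3 0 (a : ℕ) := by decide
  unfold fD fO
  cases t
  · simp only [cond_false, List.map_cons, List.map_nil, List.sum_cons, List.sum_nil, add_zero]
    exact add_comm _ _
  · simp only [cond_true, List.map_cons, List.map_nil, List.sum_cons, List.sum_nil, add_zero]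
    have e1 : Ro true σ 0 = (σ 7).rev := rfl
    have e2 : Ro true σ 7 = (σ 0).rev := rfl
    rw [e1, e2, h2, h3]
    exact add_comm _ _

theorem G_Ro (t : Bool) (c1 : ℕ) (σ τ : Cfg 8) :
    (1 : ℤ) * 1 * Gmat 5 c1 ob (fO t) (RoE t σ) (RoE t τ) = Gmat 5 c1 ob (fO t) σ τ := by
  show (1 : ℤ) * 1 * Gmat 5 c1 ob (fO t) (Ro t σ) (Ro t τ) = _
  unfold Gmat
  simp only [Matrix.sub_apply, Matrix.smul_apply, smul_eq_mul, one_mul]
  have hb : (ob.map Hb).sum (Ro t σ) (Ro t τ) = (ob.map Hb).sum σ τ := by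
    cases t
    · exact bonds_rv σ τ
    · exact (bonds_fl (rv σ) (rv τ)).trans (bonds_rv σ τ)
  rw [hb]
  by_cases h : σ = τ
  · subst h
    simp only [Matrix.one_apply_eq, Matrix.diagonal_apply_eq, fD_Ro]
  · have h' : Ro t σ ≠ Ro t τ := fun h' => h ((RoE t).injective h')
    rw [Matrix.one_apply_ne h, Matrix.one_apply_ne h', Matrix.diagonal_apply_ne _ h,
      Matrix.diagonal_apply_ne _ h']

theorem clv_Ro (t : Bool) (c1 ρ : ℕ) (us : List ℕ) (σ : Cfg 8) :
    clv (Gmat 5 c1 ob (fO t)) ρ us (Ro t σ) (Ro t σ) = clv (Gmat 5 c1 ob (fO t)) ρ us σ σ := by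
  have := clv_conj (RoE t) (fun _ => 1) (fun _ => by norm_num) _ (G_Ro t c1) ρ us σ σ
  rw [one_mul, one_mul] at this
  exact this

/-! ### Collatz-Wielandt in a sector -/

theorem row_abs {L : ℕ} (κ c1 : ℕ) (bl : List (Bond L)) (fs : List (Fld L))
    (hbl : ∀ b ∈ bl, b.j ≠ b.k) (s : ℤ) (cD : ℕ → ℕ) (σ : Cfg L)
    (hd : |(c1 : ℤ) - Dn κ bl fs σ + s| ≤ cD (Dn κ bl fs σ)) (f : ℕ → ℕ) :
    ∑ τ, |Gmat κ c1 bl fs σ τ + (if σ = τ then s else 0)| * (f (code τ) : ℤ) ≤
      ((rowV κ cD (bl.map fun b => b.un.toBd) (fs.map Fld.toFd) (code σ)).run f : ℕ) := by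
  set Nz : Cfg L → ℤ := fun τ =>
    if σ = τ then (cD (Dn κ bl fs σ) : ℤ) else κ * (bl.map fun b => Hb b.un σ τ).sum with hNz
  have hrow : ∑ τ, Nz τ * (f (code τ) : ℤ) =
      ((rowV κ cD (bl.map fun b => b.un.toBd) (fs.map Fld.toFd) (code σ)).run f : ℕ) := by
    rw [rowV_run, Dn_eq]
    push_cast
    rw [adjR_int 0 (code σ) _ (by
      intro b hb
      rw [List.mem_map] at hb
      obtain ⟨b', _, rfl⟩ := hb
      rfl) (fun _ => 0) f]
    have e1 : ∀ τ, Nz τ * (f (code τ) : ℤ) =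
        (if σ = τ then ((cD (Dn κ bl fs σ) : ℤ) -
          κ * (bl.map fun b => Hb b.un σ σ).sum) * f (code σ) else 0) +
        κ * ((bl.map fun b => Hb b.un σ τ).sum * (f (code τ) : ℤ)) := by
      intro τ
      rw [hNz]
      by_cases h : σ = τ
      · subst h
        simp only [if_true]
        ring
      · simp only [if_neg h]
        ring
    simp only [e1]
    rw [Finset.sum_add_distrib, Finset.sum_ite_eq, if_pos (Finset.mem_univ _),
      ← Finset.mul_sum]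
    have e2 : ∑ τ, (bl.map fun b => Hb b.un σ τ).sum * (f (code τ) : ℤ) =
        (bl.map fun b => Hb b.un σ σ).sum * f (code σ) +
        ((bl.map fun b => b.un.toBd).map fun b => flZ (code σ) b f).sum := by
      rw [List.map_map]
      clear hd hNz e1
      clear Nz
      induction bl with
      | nil => simp
      | cons b bl ih =>
        have ih' := ih (fun b hb => hbl b (List.mem_cons_of_mem _ hb))
        simp only [List.map_cons, List.sum_cons, Function.comp_apply] at ih' ⊢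
        simp only [add_mul, Finset.sum_add_distrib]
        rw [ih', bond_value_int b (hbl b List.mem_cons_self)]
        have hbu := Hb_diag b.un (hbl b List.mem_cons_self) σ
        rw [hbu]
        show _ + _ = ((((diagv (σ b.j) (σ b.k) : ℕ) : ℤ) - 1) * _ + _) + _
        ring
    rw [e2]
    push_cast
    ring
  rw [← hrow]
  refine Finset.sum_le_sum fun τ _ => ?_
  refine mul_le_mul_of_nonneg_right ?_ (Int.natCast_nonneg _)
  by_cases h : σ = τ
  · subst h
    rw [hNz]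
    simp only [if_true]
    rw [Gmat_entry κ c1 bl fs hbl]
    exact hd
  · rw [hNz]
    simp only [if_neg h, add_zero]
    exact Gmat_entry_ne κ c1 bl fs hbl σ τ h

theorem tbl_le6 (t : Bool) (σ : Cfg 8) : fD (fO t) σ ≤ 12 := by
  have h1 : ∀ a : Fin 3, tbl 0 3 6 (a : ℕ) ≤ 6 := by decide
  have h2 : ∀ a : Fin 3, tbl 6 3 0 (a : ℕ) ≤ 6 := by decide
  unfold fD fO
  cases t
  · simp only [cond_false, List.map_cons, List.map_nil, List.sum_cons, List.sum_nil, add_zero]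
    have := h1 (σ 0)
    have := h1 (σ 7)
    omega
  · simp only [cond_true, List.map_cons, List.map_nil, List.sum_cons, List.sum_nil, add_zero]
    have := h1 (σ 0)
    have := h2 (σ 7)
    omega

theorem Dn_le82 (t : Bool) (σ : Cfg 8) : Dn 5 ob (fO t) σ ≤ 82 := by
  unfold Dn
  have h1 := tbl_le6 t σ
  have h2 : (ob.map fun b => diagv (σ b.j) (σ b.k)).sum ≤ 14 := by
    rw [ob_sum]
    calc ∑ j : Fin 7, diagv (σ j.castSucc) (σ j.succ) ≤ ∑ _j : Fin 7, 2 :=
          Finset.sum_le_sum fun j _ => diagv_le _ _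
      _ = 14 := by simp
  omega

theorem allS_spec (pred : ℕ → Bool) (n : ℕ) : ∀ pw s pre : ℕ, allS pred n pw s pre = true →
    ∀ σ : Cfg n, dsum σ = s → pred (pre + pw * code σ) = true := by
  induction n with
  | zero =>
    intro pw s pre h σ hs
    have e : code σ = 0 := by simp [code]
    have e2 : s = 0 := by rw [← hs]; simp [dsum]
    subst e2
    rw [e, mul_zero, add_zero]
    exact h
  | succ n ih =>
    intro pw s pre h σ hs
    have e : allS pred (n + 1) pw s pre = (allS pred n (4 * pw) s pre &&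
      ((Bool.rec (motive := fun _ => Bool) true (allS pred n (4 * pw) (s - 1) (pre + pw))
        (Nat.ble 1 s)) &&
        (Bool.rec (motive := fun _ => Bool) true (allS pred n (4 * pw) (s - 2) (pre + 2 * pw))
        (Nat.ble 2 s)))) := rfl
    rw [e, Bool.and_eq_true, Bool.and_eq_true] at h
    rw [code_succ]
    rw [dsum_succ] at hs
    have h3 : (σ 0 : ℕ) = 0 ∨ (σ 0 : ℕ) = 1 ∨ (σ 0 : ℕ) = 2 := by
      have := (σ 0).isLt
      omega
    rcases h3 with h0 | h0 | h0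
    · rw [h0, zero_add] at hs
      have := ih _ _ _ h.1 (fun j : Fin n => σ j.succ) hs
      rw [h0]
      convert this using 2
      ring
    · rw [h0] at hs
      have hb : Nat.ble 1 s = true := Nat.ble_eq.mpr (by omega)
      have h1 := h.2.1
      rw [hb] at h1
      have := ih _ _ _ h1 (fun j : Fin n => σ j.succ) (by omega)
      rw [h0]
      convert this using 2
      ring
    · rw [h0] at hs
      have hb : Nat.ble 2 s = true := Nat.ble_eq.mpr (by omega)
      have h1 := h.2.2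
      rw [hb] at h1
      have := ih _ _ _ h1 (fun j : Fin n => σ j.succ) (by omega)
      rw [h0]
      convert this using 2
      ring

theorem cw_sector (t : Bool) {H : Matrix (Cfg 8) (Cfg 8) ℂ} (D : Dg H lab) (c1 : ℕ) (g0 : ℝ)
    (hG : cx (Gmat 5 c1 ob (fO t)) = (g0 : ℂ) • (1 : Matrix (Cfg 8) (Cfg 8) ℂ) - (5 : ℂ) • H)
    (a : ℤ) (cD : ℕ → ℕ)
    (hd : ∀ σ : Cfg 8, |(c1 : ℤ) - Dn 5 ob (fO t) σ + a| ≤ cD (Dn 5 ob (fO t) σ)) (R : ℕ)
    (f : ℕ → ℕ) (s : Fin 17)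
    (hall : ∀ σ : Cfg 8, dsum σ = (s : ℕ) → predV (rowV 5 cD (ob.map fun b => b.un.toBd)
      ((fO t).map Fld.toFd)) R f (code σ) = true) (i : Cfg 8) (hi : lab i = s) :
    |g0 + a - 5 * D.lam i| ≤ R := by
  set A : Matrix (Cfg 8) (Cfg 8) ℤ := Matrix.of fun σ τ =>
    Gmat 5 c1 ob (fO t) σ τ + (if σ = τ then a else 0) with hA
  have hcA : cx A = (((g0 + a : ℝ)) : ℂ) • (1 : Matrix (Cfg 8) (Cfg 8) ℂ) + ((-5 : ℝ) : ℂ) • H := by
    ext σ τ
    have h1 := congrFun (congrFun hG σ) τ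
    rw [cx, Matrix.map_apply] at h1
    rw [cx, Matrix.map_apply, hA, Matrix.of_apply]
    push_cast
    rw [h1]
    simp only [Matrix.sub_apply, Matrix.add_apply, Matrix.smul_apply, smul_eq_mul]
    by_cases h : σ = τ
    · subst h
      simp only [Matrix.one_apply_eq, if_true]
      ring
    · simp only [Matrix.one_apply_ne h, if_neg h]
      simp
  have hpred : ∀ σ : Cfg 8, dsum σ = (s : ℕ) → 1 ≤ f (code σ) ∧
      (rowV 5 cD (ob.map fun b => b.un.toBd) ((fO t).map Fld.toFd) (code σ)).run f ≤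
        R * f (code σ) := by
    intro σ hσ
    have h2 : (Nat.ble 1 (f (code σ)) && Nat.ble ((rowV 5 cD
      (ob.map fun b => b.un.toBd) ((fO t).map Fld.toFd) (code σ)).run f)
      (Nat.mul R (f (code σ)))) = true := hall σ hσ
    rw [Bool.and_eq_true, Nat.ble_eq, Nat.ble_eq] at h2
    exact h2
  have key := D.collatz hcA s (fun σ => (f (code σ) : ℝ)) (fun σ => Nat.cast_nonneg _)
    (fun σ hσ => by
      have := (hpred σ ((lab_eq σ s).mp hσ)).1
      exact_mod_cast this) (R : ℝ) (fun σ hσ => by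
      have h1 := row_abs 5 c1 ob (fO t) ob_ne a cD σ (hd σ) f
      have h2 := (hpred σ ((lab_eq σ s).mp hσ)).2
      have h3 : ∑ τ, |A σ τ| * (f (code τ) : ℤ) ≤ (R : ℤ) * f (code σ) := by
        refine le_trans h1 ?_
        exact_mod_cast h2
      have h4 : ((∑ τ, |A σ τ| * (f (code τ) : ℤ) : ℤ) : ℝ) ≤ (((R : ℤ) * f (code σ) : ℤ) : ℝ) :=
        Int.cast_le.mpr h3
      push_cast at h4
      exact h4) i hi
  have e : g0 + a - 5 * D.lam i = g0 + a + (-5 : ℝ) * D.lam i := by ring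
  rw [e]
  exact key

theorem lo_sector (t : Bool) (D : Dg (HO t) lab) (R n : ℕ) (s : Fin 17)
    (hchk : chkLo R n s (ob.map fun b => b.un.toBd) ((fO t).map Fld.toFd) = true)
    (i : Cfg 8) (hi : lab i = s) : 41 - (R : ℝ) ≤ 5 * D.lam i := by
  unfold chkLo at hchk
  obtain ⟨f, hf⟩ := iterV_exists (rowV 5 (fun D => Nat.sub 83 D)
    (ob.map fun b => b.un.toBd) ((fO t).map Fld.toFd))
    (fun f => allS (predV (rowV 5 (fun D => Nat.sub 82 D) (ob.map fun b => b.un.toBd)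
      ((fO t).map Fld.toFd)) R f) 8 1 s 0) n (fun _ => 1)
  rw [hf] at hchk
  have h := allS_spec _ 8 1 s 0 hchk
  have key := cw_sector t D 82 (((82 : ℕ) : ℝ) - 41) (cxG t 82) 0 (fun D => Nat.sub 82 D) (by
    intro σ
    have hle := Dn_le82 t σ
    have e : ((82 : ℕ) : ℤ) - Dn 5 ob (fO t) σ + 0 = ((82 - Dn 5 ob (fO t) σ : ℕ) : ℤ) := by
      rw [Nat.cast_sub hle, add_zero]
    rw [e, Nat.abs_cast]
    exact le_refl _) R f s (fun σ hσ => by
      have := h σ hσ
      rw [zero_add, one_mul] at this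
      exact this) i hi
  have := (abs_le.mp key).2
  push_cast at this
  linarith

theorem hi_sector (t : Bool) (D : Dg (HO t) lab) (s : Fin 17)
    (hchk : chkHi s (ob.map fun b => b.un.toBd) ((fO t).map Fld.toFd) = true)
    (i : Cfg 8) (hi : lab i = s) : 5 * D.lam i ≤ 41 := by
  unfold chkHi at hchk
  have h := allS_spec _ 8 1 s 0 hchk
  have key := cw_sector t D 0 (((0 : ℕ) : ℝ) - 41) (cxG t 0) 0 (fun D => D) (by
    intro σ
    have e : ((0 : ℕ) : ℤ) - Dn 5 ob (fO t) σ + 0 = -((Dn 5 ob (fO t) σ : ℕ) : ℤ) := by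
      push_cast; ring
    rw [e, abs_neg, Nat.abs_cast]) 82 _ s (fun σ hσ => by
      have := h σ hσ
      rw [zero_add, one_mul] at this
      exact this) i hi
  have := (abs_le.mp key).1
  push_cast at this
  linarith

end

end Crest.Agent.R347.OSec
end

-- ▼ part R347/OpenTrace

/-! Sector partition functions of the open chain from kernel runs. -/

set_option autoImplicit false

namespace Crest.Agent.R347.OSec

open Matrix Crest.MathPhysics.SpinChain Crest.Agent.R347.Num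

noncomputable section

/-! ### crude bound -/

def qbl (r : ℕ) : List ℕ → ℕ → ℕ → ℕ
  | [], _, _ => 0
  | u :: l, k, rk => u * rk * (k + 1) + qbl r l (k + 1) (rk * r)

theorem qbl_eq (r : ℕ) (l : List ℕ) : ∀ k rk : ℕ, ((qbl r l k rk : ℕ) : ℝ) =
    ∑ j ∈ Finset.range l.length, ((l.getD j 0 : ℕ) : ℝ) * (rk * (r : ℝ) ^ j) * (k + j + 1) := by
  induction l with
  | nil => intro k rk; simp [qbl]
  | cons u l ih =>
    intro k rk
    rw [qbl, List.length_cons, Finset.sum_range_succ']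
    push_cast
    rw [ih]
    simp only [List.getD_cons_zero, List.getD_cons_succ, pow_zero]
    rw [add_comm]
    congr 1
    · refine Finset.sum_congr rfl fun j _ => ?_
      push_cast
      ring
    · ring

theorem clv_le_qbl (r : ℕ) (hr : 0 < r) (us : List ℕ) (g : ℝ) (hg : |g| ≤ 2 * r) :
    |clv g (r ^ 2) us| ≤ ((qbl r us.reverse 0 1 : ℕ) : ℝ) := by
  refine (clv_abs_le r hr us g hg).trans (le_of_eq ?_)
  rw [qbl_eq, List.length_reverse]
  refine Finset.sum_congr rfl fun k _ => ?_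
  push_cast
  ring

/-! ### sector sums -/

/-- Boltzmann weights of a sector -/
def zS {t : Bool} (D : Dg (HO t) lab) (s : Fin 17) : ℝ :=
  ∑ i ∈ Finset.univ.filter (fun i => lab i = s), Real.exp (-6 * D.lam i)

/-- sector trace of the polynomial -/
def TS (t : Bool) (c1 ρ : ℕ) (us : List ℕ) (s : ℕ) : ℤ :=
  ∑ σ ∈ Finset.univ.filter (fun σ : Cfg 8 => dsum σ = s),
    clv (Gmat 5 c1 ob (fO t)) ρ us σ σ

theorem filter_lab (s : Fin 17) : Finset.univ.filter (fun σ : Cfg 8 => lab σ = s) =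
    Finset.univ.filter (fun σ : Cfg 8 => dsum σ = (s : ℕ)) :=
  Finset.filter_congr fun σ _ => lab_eq σ s

theorem TS_flip (c1 ρ : ℕ) (us : List ℕ) (s s' : ℕ) (h : s + s' = 16) :
    TS true c1 ρ us s' = TS true c1 ρ us s := by
  unfold TS
  have hmem : ∀ a b : ℕ, a + b = 16 → ∀ σ : Cfg 8,
      σ ∈ Finset.univ.filter (fun σ : Cfg 8 => dsum σ = a) →
      Ro true σ ∈ Finset.univ.filter (fun σ : Cfg 8 => dsum σ = b) := by
    intro a b hab σ hσ
    rw [Finset.mem_filter] at hσ ⊢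
    refine ⟨Finset.mem_univ _, ?_⟩
    have h1 : dsum (Ro true σ) + dsum σ = 2 * 8 := dsum_rfl' σ
    omega
  refine Finset.sum_nbij' (Ro true) (Ro true) (hmem s' s (by omega)) (hmem s s' h)
    (fun σ _ => Ro_Ro true σ) (fun σ _ => Ro_Ro true σ) ?_
  intro σ _
  exact (clv_Ro true c1 ρ us σ).symm

/-- code level fields -/
def foL (t : Bool) : List Fd := bif t then foY else foX

theorem ob_toBd : ob.map Bond.toBd = obL := by rfl

theorem ob_un_toBd : (ob.map fun b => b.un.toBd) = obL := by rfl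

theorem fO_toFd (t : Bool) : (fO t).map Fld.toFd = foL t := by
  cases t <;> rfl

/-- facts about one block -/
def BlkRun (t : Bool) (r c1 : ℕ) (us : List ℕ) (pm : ℕ) (J : List (ℕ × ℕ)) (R : ℕ) : Prop :=
  ∃ w K K1 : ℕ, run1 5 (r ^ 2) c1 1000 w K K1 obL (foL t) J us = R ∧
    (Nat.beq K (w * J.length) && Nat.beq K1 (w * (J.length - 1)) && Nat.ble 1 w &&
      Nat.ble (2 * ((J.map Prod.snd).sum * pm) + 1) (2 ^ w) && Nat.ble (R + 1) (2 ^ (w - 1)) &&
      Nat.ble 1 J.length) = true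

theorem block_ok (t : Bool) (r c1 : ℕ) (us : List ℕ) (pm : ℕ) (hr : r ^ 2 ≤ 800) (s : ℕ)
    (hQ : ∀ σ τ : Cfg 8, dsum σ = s → |clv (Gmat 5 c1 ob (fO t)) (r ^ 2) us σ τ| ≤ pm)
    (J : List (ℕ × ℕ)) (R : ℕ) (h : BlkRun t r c1 us pm J R)
    (hJ1 : ∀ x ∈ J, okc 8 x.1 = true ∧ dsc 8 x.1 = s) (hJ2 : (J.map Prod.fst).Nodup) :
    (R : ℤ) ≤ wdiag (clv (Gmat 5 c1 ob (fO t)) (r ^ 2) us) id (dJ 8 J) ∧
    wdiag (clv (Gmat 5 c1 ob (fO t)) (r ^ 2) us) id (dJ 8 J) ≤ R + 1 := by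
  obtain ⟨w, K, K1, hrun, hchk⟩ := h
  simp only [Bool.and_eq_true, Nat.ble_eq] at hchk
  obtain ⟨⟨⟨⟨⟨h1, h2⟩, h3⟩, h4⟩, h5⟩, h6⟩ := hchk
  have hK := Nat.eq_of_beq_eq_true h1
  have hK1 := Nat.eq_of_beq_eq_true h2
  have hok : ∀ x ∈ J, okc 8 x.1 = true := fun x hx => (hJ1 x hx).1
  have key := block_spec 5 (r ^ 2) c1 1000 w ob (fO t) ob_ne (by
    rw [ob_length]
    have : ((fO t).map fun b => b.t0 + b.t1 + b.t2).sum = 18 := by
      cases t <;> decide
    rw [this]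
    omega) us (G_label t c1) s pm hQ h3 (dJ 8 J) (by
      intro h0
      have h7 := congrArg List.length h0
      rw [dJ_length, List.length_nil] at h7
      omega) (dJ_nodup 8 J hok hJ2) (by
      intro x hx
      unfold dJ at hx
      rw [List.mem_map] at hx
      obtain ⟨y, hy, rfl⟩ := hx
      show dsum (dec 8 y.1) = s
      rw [dsum_dec 8 y.1 (hok y hy)]
      exact (hJ1 y hy).2) (by
      rw [dJ_snd]
      omega)
  rw [dJ_length, dJ_codes 8 J hok, ob_toBd, fO_toFd, ← hK, ← hK1, hrun] at key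
  have hs : sgnd w R = (R : ℤ) := by
    unfold sgnd
    rw [if_pos (by omega)]
  rw [hs] at key
  exact key

theorem wdiag_append {L : ℕ} (Q : Matrix (Cfg L) (Cfg L) ℤ) (J J' : List (Cfg L × ℕ)) :
    wdiag Q id (J ++ J') = wdiag Q id J + wdiag Q id J' := by
  unfold wdiag
  rw [List.map_append, List.sum_append]

theorem blocks_ok (t : Bool) (r c1 : ℕ) (us : List ℕ) (pm : ℕ) (hr : r ^ 2 ≤ 800) (s : ℕ)
    (hQ : ∀ σ τ : Cfg 8, dsum σ = s → |clv (Gmat 5 c1 ob (fO t)) (r ^ 2) us σ τ| ≤ pm)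
    (Bs : List (List (ℕ × ℕ) × ℕ)) (h : ∀ p ∈ Bs, BlkRun t r c1 us pm p.1 p.2)
    (hJ1 : ∀ x ∈ (Bs.map Prod.fst).flatten, okc 8 x.1 = true ∧ dsc 8 x.1 = s)
    (hJ2 : ((Bs.map Prod.fst).flatten.map Prod.fst).Nodup) :
    (((Bs.map Prod.snd).sum : ℕ) : ℤ) ≤
        wdiag (clv (Gmat 5 c1 ob (fO t)) (r ^ 2) us) id (dJ 8 (Bs.map Prod.fst).flatten) ∧
    wdiag (clv (Gmat 5 c1 ob (fO t)) (r ^ 2) us) id (dJ 8 (Bs.map Prod.fst).flatten) ≤
      (((Bs.map Prod.snd).sum : ℕ) : ℤ) + Bs.length := by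
  induction Bs with
  | nil => simp [wdiag, dJ]
  | cons p Bs ih =>
    have e : ((p :: Bs).map Prod.fst).flatten = p.1 ++ (Bs.map Prod.fst).flatten := by simp
    rw [e] at hJ1 hJ2 ⊢
    rw [List.map_append] at hJ2
    have hn := List.nodup_append.mp hJ2
    obtain ⟨h1, h2⟩ := ih (fun q hq => h q (List.mem_cons_of_mem _ hq))
      (fun x hx => hJ1 x (List.mem_append_right _ hx)) hn.2.1
    obtain ⟨h3, h4⟩ := block_ok t r c1 us pm hr s hQ p.1 p.2 (h p List.mem_cons_self)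
      (fun x hx => hJ1 x (List.mem_append_left _ hx)) hn.1
    rw [dJ_append, wdiag_append, List.map_cons, List.sum_cons, List.length_cons, Nat.cast_add,
      Nat.cast_add, Nat.cast_one]
    constructor <;> linarith

/-- reversed code according to the symmetry used -/
def rcode (m : Fin 3) (c : ℕ) : ℕ :=
  match m with
  | 0 => c
  | 1 => rvc 8 c 0
  | 2 => rfc 8 c 0

/-- bounds for the sector trace of the polynomial -/
theorem TS_bounds (t : Bool) (r c1 : ℕ) (us : List ℕ) (pm : ℕ) (hr : r ^ 2 ≤ 800) (s : ℕ)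
    (hQ : ∀ σ τ : Cfg 8, dsum σ = s → |clv (Gmat 5 c1 ob (fO t)) (r ^ 2) us σ τ| ≤ pm)
    (m : Fin 3) (hm : m = 0 ∨ (m = 1 ∧ t = false) ∨ (m = 2 ∧ t = true ∧ s = 8))
    (Bs : List (List (ℕ × ℕ) × ℕ)) (h : ∀ p ∈ Bs, BlkRun t r c1 us pm p.1 p.2)
    (hchk : chkJ 8 s (rcode m) (Bs.map Prod.fst).flatten 0 = true)
    (hsum : ((Bs.map Prod.fst).flatten.map Prod.snd).sum = cnt 8 s) :
    (((Bs.map Prod.snd).sum : ℕ) : ℤ) ≤ TS t c1 (r ^ 2) us s ∧
      TS t c1 (r ^ 2) us s ≤ (((Bs.map Prod.snd).sum : ℕ) : ℤ) + Bs.length := by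
  obtain ⟨h1, h2⟩ := chkJ_spec 8 s _ _ _ hchk
  have hb := blocks_ok t r c1 us pm hr s hQ Bs h (fun x hx => ⟨(h1 x hx).2.1, (h1 x hx).2.2.1⟩) h2
  have hT : TS t c1 (r ^ 2) us s =
      wdiag (clv (Gmat 5 c1 ob (fO t)) (r ^ 2) us) id (dJ 8 (Bs.map Prod.fst).flatten) := by
    rcases hm with rfl | ⟨rfl, rfl⟩ | ⟨rfl, rfl, rfl⟩
    · exact sector_cover 8 s id (fun _ => rfl) (fun _ h => h) (rcode 0) (fun c hc =>
        (code_dec 8 c hc).symm) _ 0 hchk hsum _ (fun _ => rfl)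
    · exact sector_cover 8 s rv rv_rv (fun σ h => by rw [dsum_rv, h]) (rcode 1) (fun c hc => by
        show rvc 8 c 0 = _
        rw [rvc_eq 8 c 0 hc]; simp) _ 0 hchk hsum _ (fun σ => clv_Ro false c1 _ us σ)
    · exact sector_cover 8 8 rfl' rfl'_rfl' (fun σ h => by
        have := dsum_rfl' σ; omega) (rcode 2) (fun c hc => by
        show rfc 8 c 0 = _
        rw [rfc_eq 8 c 0 hc]; simp) _ 0 hchk hsum _ (fun σ => clv_Ro true c1 _ us σ)
  rw [hT]
  exact hb

/-- the sector partition function, from the polynomial trace -/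
theorem zS_approx {t : Bool} (D : Dg (HO t) lab) (r c1 : ℕ) (hr : 0 < r) (us : List ℕ)
    (hne : us ≠ []) {acc pm : ℤ}
    (hgo : (ExpApprox.go r (12 * r) 5 0 1 (alt false us.reverse)).2.2 = (acc, pm)) (s : Fin 17)
    (left : ℤ) (hc1 : (c1 : ℤ) = 41 + left + 2 * r)
    (hspec : ∀ i, lab i = s → (left : ℝ) ≤ 5 * D.lam i ∧ 5 * D.lam i ≤ left + 4 * r) :
    |(pm : ℝ) * Real.exp (6 / 5 * left) * zS D s - (TS t c1 (r ^ 2) us s : ℝ)| ≤
      (cnt 8 s : ℝ) * ((acc : ℝ) / (12 * r)) := by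
  have hc : ((c1 : ℝ) - 41) = (left : ℝ) + 2 * r := by
    have : ((c1 : ℤ) : ℝ) = ((41 + left + 2 * r : ℤ) : ℝ) := by rw [hc1]
    push_cast at this
    linarith
  have key := D.sector_approx (cxG t c1) r hr us hne hgo s left hc hspec
  rw [filter_lab, card_sector] at key
  have e : (∑ i ∈ Finset.univ.filter (fun i : Cfg 8 => dsum i = (s : ℕ)),
      Real.exp (-6 * D.lam i)) = zS D s := by
    unfold zS
    rw [filter_lab]
  rw [e] at key
  exact key

theorem entry_pm {t : Bool} (D : Dg (HO t) lab) (r c1 : ℕ) (hr : 0 < r) (us : List ℕ)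
    (pm : ℕ) (hq : qbl r us.reverse 0 1 = pm) (s : Fin 17)
    (left : ℤ) (hc1 : (c1 : ℤ) = 41 + left + 2 * r)
    (hspec : ∀ i, lab i = s → (left : ℝ) ≤ 5 * D.lam i ∧ 5 * D.lam i ≤ left + 4 * r)
    (σ τ : Cfg 8) (hσ : dsum σ = (s : ℕ)) :
    |clv (Gmat 5 c1 ob (fO t)) (r ^ 2) us σ τ| ≤ pm := by
  have hc : ((c1 : ℝ) - 41) = (left : ℝ) + 2 * r := by
    have : ((c1 : ℤ) : ℝ) = ((41 + left + 2 * r : ℤ) : ℝ) := by rw [hc1]
    push_cast at this
    linarith
  refine D.entry_bound (cxG t c1) (r ^ 2) us s pm ?_ σ τ ((lab_eq σ s).mpr hσ)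
  intro i hi
  rw [← hq]
  refine clv_le_qbl r hr us _ ?_
  obtain ⟨h1, h2⟩ := hspec i hi
  rw [hc, abs_le]
  constructor <;> linarith

/-- **one sector**: `s` computed, `s'` target (equal, or mirror image for opposite fields) -/
theorem sector_val {t : Bool} (D : Dg (HO t) lab) (r c1 : ℕ) (hr0 : 0 < r) (hr : r ^ 2 ≤ 800)
    (us : List ℕ) (hne : us ≠ []) {acc : ℤ} {pm : ℕ}
    (hgo : (ExpApprox.go r (12 * r) 5 0 1 (alt false us.reverse)).2.2 = (acc, (pm : ℤ)))
    (hq : qbl r us.reverse 0 1 = pm) (s s' : Fin 17)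
    (hss : s' = s ∨ (t = true ∧ (s : ℕ) + s' = 16))
    (left : ℤ) (hc1 : (c1 : ℤ) = 41 + left + 2 * r)
    (hspec : ∀ i, lab i = s → (left : ℝ) ≤ 5 * D.lam i ∧ 5 * D.lam i ≤ left + 4 * r)
    (hspec' : ∀ i, lab i = s' → (left : ℝ) ≤ 5 * D.lam i ∧ 5 * D.lam i ≤ left + 4 * r)
    (m : Fin 3) (hm : m = 0 ∨ (m = 1 ∧ t = false) ∨ (m = 2 ∧ t = true ∧ (s : ℕ) = 8))
    (Bs : List (List (ℕ × ℕ) × ℕ)) (h : ∀ p ∈ Bs, BlkRun t r c1 us pm p.1 p.2)
    (hchk : chkJ 8 s (rcode m) (Bs.map Prod.fst).flatten 0 = true)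
    (hsum : ((Bs.map Prod.fst).flatten.map Prod.snd).sum = cnt 8 s) :
    |(pm : ℝ) * Real.exp (6 / 5 * left) * zS D s' - (((Bs.map Prod.snd).sum : ℕ) : ℝ)| ≤
      (cnt 8 s' : ℝ) * ((acc : ℝ) / (12 * r)) + Bs.length := by
  have h1 := TS_bounds t r c1 us pm hr s (entry_pm D r c1 hr0 us pm hq s left hc1 hspec) m hm Bs h
    hchk hsum
  have h2 := zS_approx D r c1 hr0 us hne hgo s' left hc1 hspec'
  have h3 : TS t c1 (r ^ 2) us s' = TS t c1 (r ^ 2) us s := by
    rcases hss with h7 | ⟨rfl, h7⟩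
    · rw [h7]
    · exact TS_flip c1 (r ^ 2) us s s' h7
  rw [h3] at h2
  have h4 : |((TS t c1 (r ^ 2) us s : ℤ) : ℝ) - (((Bs.map Prod.snd).sum : ℕ) : ℝ)| ≤ Bs.length := by
    have h5 : |TS t c1 (r ^ 2) us s - (((Bs.map Prod.snd).sum : ℕ) : ℤ)| ≤ (Bs.length : ℤ) := by
      rw [abs_le]
      constructor <;> linarith [h1.1, h1.2, (Int.natCast_nonneg Bs.length)]
    have h6 : ((|TS t c1 (r ^ 2) us s - (((Bs.map Prod.snd).sum : ℕ) : ℤ)| : ℤ) : ℝ) ≤
        ((Bs.length : ℤ) : ℝ) := Int.cast_le.mpr h5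
    rw [Int.cast_abs, Int.cast_sub, Int.cast_natCast, Int.cast_natCast] at h6
    exact h6
  have e : ((((pm : ℕ) : ℤ)) : ℝ) = (pm : ℝ) := by push_cast; rfl
  rw [e] at h2
  calc |(pm : ℝ) * Real.exp (6 / 5 * left) * zS D s' - (((Bs.map Prod.snd).sum : ℕ) : ℝ)|
      = |((pm : ℝ) * Real.exp (6 / 5 * left) * zS D s' - (TS t c1 (r ^ 2) us s : ℝ)) +
        (((TS t c1 (r ^ 2) us s : ℤ) : ℝ) - (((Bs.map Prod.snd).sum : ℕ) : ℝ))| := by
        congr 1; ring
    _ ≤ _ := (abs_add_le _ _).trans (add_le_add h2 h4)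

/-- crude bound of a sector -/
theorem zS_le {t : Bool} (D : Dg (HO t) lab) (s : Fin 17) (left : ℝ)
    (hspec : ∀ i, lab i = s → left ≤ 5 * D.lam i) :
    0 ≤ zS D s ∧ zS D s ≤ (cnt 8 s : ℝ) * Real.exp (-(6 / 5 * left)) := by
  unfold zS
  refine ⟨Finset.sum_nonneg fun i _ => (Real.exp_pos _).le, ?_⟩
  have h : ∑ i ∈ Finset.univ.filter (fun i => lab i = s), Real.exp (-6 * D.lam i) ≤
      ∑ _i ∈ Finset.univ.filter (fun i : Cfg 8 => lab i = s), Real.exp (-(6 / 5 * left)) := by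
    refine Finset.sum_le_sum fun i hi => ?_
    rw [Finset.mem_filter] at hi
    rw [Real.exp_le_exp]
    have := hspec i hi.2
    linarith
  refine h.trans (le_of_eq ?_)
  rw [Finset.sum_const, nsmul_eq_mul, filter_lab, card_sector]

/-! ### the partition functions -/

theorem Zop_succ (b : Fin 4) (hl hr β : ℝ) (n : ℕ) : Zop b hl hr β (n + 1) =
    (Matrix.trace (piK (fun _ : Fin (n + 1) => rotC b) *
      NormedSpace.exp (-(β : ℂ) • openH n hl hr))).re := rfl

theorem trace_zero (t : Bool) (D : Dg (HO t) lab) :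
    Zop 0 (3 / 5) (hr t) 6 8 = ∑ s : Fin 17, zS D s := by
  have h := trace_sector_exp D.h1 D.h2 D.h3 D.h4 (fun _ => (1 : ℂ)) 6
  have e1 : (diagonal (fun _ : Cfg 8 => (1 : ℂ))) = 1 := Matrix.diagonal_one
  rw [e1] at h
  have e2 : piK (fun _ : Fin 8 => rotC 0) = 1 := piK_one
  rw [Zop_succ 0 (3 / 5) (hr t) 6 7, e2]
  change (trace ((1 : Matrix (Cfg 8) (Cfg 8) ℂ) *
    NormedSpace.exp (-((6 : ℝ) : ℂ) • HO t))).re = _
  rw [h]
  simp only [one_mul]
  rw [← Complex.ofReal_sum, Complex.ofReal_re]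
  unfold zS
  exact (Finset.sum_fiberwise Finset.univ lab (fun i => Real.exp (-6 * D.lam i))).symm

theorem trace_three (t : Bool) (D : Dg (HO t) lab) :
    Zop 3 (3 / 5) (hr t) 6 8 = ∑ s : Fin 17, (-1) ^ (s : ℕ) * zS D s := by
  have h := trace_sector_exp D.h1 D.h2 D.h3 D.h4 (fun s : Fin 17 => (-1 : ℂ) ^ (s : ℕ)) 6
  have e2 : piK (fun _ : Fin 8 => rotC 3) =
      diagonal (fun σ : Cfg 8 => (-1 : ℂ) ^ ((lab σ : Fin 17) : ℕ)) := by
    rw [piK_rotC_three]
    congr 1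
    funext σ
    have h1 : ∀ a : Fin 3, (if a = 1 then (1 : ℂ) else -1) = (-1) ^ ((a : ℕ) + 1) := by
      intro a
      fin_cases a <;> norm_num
    simp only [h1]
    rw [Finset.prod_pow_eq_pow_sum, Finset.sum_add_distrib]
    show _ = (-1 : ℂ) ^ (dsum σ)
    unfold dsum
    rw [pow_add]
    norm_num
  rw [Zop_succ 3 (3 / 5) (hr t) 6 7, e2]
  change (trace ((diagonal (fun σ : Cfg 8 => (-1 : ℂ) ^ ((lab σ : Fin 17) : ℕ))) *
    NormedSpace.exp (-((6 : ℝ) : ℂ) • HO t))).re = _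
  rw [h]
  have e3 : ∀ i : Cfg 8, (-1 : ℂ) ^ ((lab i : Fin 17) : ℕ) * ((Real.exp (-6 * D.lam i) : ℝ) : ℂ) =
      (((-1 : ℝ) ^ ((lab i : Fin 17) : ℕ) * Real.exp (-6 * D.lam i) : ℝ) : ℂ) := by
    intro i; push_cast; ring
  simp only [e3]
  rw [← Complex.ofReal_sum, Complex.ofReal_re]
  rw [← Finset.sum_fiberwise Finset.univ lab
    (fun i => (-1 : ℝ) ^ ((lab i : Fin 17) : ℕ) * Real.exp (-6 * D.lam i))]
  refine Finset.sum_congr rfl fun s _ => ?_
  unfold zS
  rw [Finset.mul_sum]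
  refine Finset.sum_congr rfl fun i hi => ?_
  rw [Finset.mem_filter] at hi
  rw [hi.2]

end

end Crest.Agent.R347.OSec
private theorem rz_f415254a2c : type_of% @_root_.Crest.Agent.R347.OSec.qbl.eq_def := @_root_.Crest.Agent.R347.OSec.qbl.eq_def -- L15
private theorem rz_7ed4d6169c : type_of% @_root_.Crest.Agent.R347.OSec.qbl.eq_1 := @_root_.Crest.Agent.R347.OSec.qbl.eq_1 -- L15
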