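import Mathlib
import Mathlib.Tactic.Eval

-- ▼ part R347/PackedBase
section

/-!
# Packed numbers: digit lemmas (base `2^w`)
-/

namespace Crest.Agent.R347.Packed

open Finset

/-- packed number `∑_{s<N} u s 2^{w s}` -/
def pk (w N : ℕ) (u : ℕ → ℕ) : ℕ := ∑ s ∈ range N, u s * 2 ^ (w * s)

@[simp] lemma pk_zero (w : ℕ) (u : ℕ → ℕ) : pk w 0 u = 0 := by simp [pk]

lemma pk_succ (w N : ℕ) (u : ℕ → ℕ) : pk w (N + 1) u = pk w N u + u N * 2 ^ (w * N) := by
  simp [pk, sum_range_succ]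

lemma pk_succ' (w N : ℕ) (u : ℕ → ℕ) :
    pk w (N + 1) u = 2 ^ w * pk w N (fun s => u (s + 1)) + u 0 := by
  unfold pk
  rw [sum_range_succ', mul_sum]
  simp only [mul_zero, pow_zero, mul_one, add_left_inj]
  apply sum_congr rfl
  intro s _
  rw [mul_add, pow_add, mul_one]; ring

lemma pk_congr {w N : ℕ} {u v : ℕ → ℕ} (h : ∀ s < N, u s = v s) : pk w N u = pk w N v := by
  unfold pk
  apply sum_congr rfl
  intro s hs
  rw [h s (mem_range.mp hs)]

lemma pk_add (w M N : ℕ) (u : ℕ → ℕ) :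
    pk w (M + N) u = pk w M u + 2 ^ (w * M) * pk w N (fun s => u (M + s)) := by
  unfold pk
  rw [sum_range_add, mul_sum]
  congr 1
  apply sum_congr rfl
  intro s _
  rw [mul_add, pow_add]; ring

lemma pk_lt {w : ℕ} {N : ℕ} {u : ℕ → ℕ} (h : ∀ s < N, u s < 2 ^ w) :
    pk w N u < 2 ^ (w * N) := by
  induction N with
  | zero => simp
  | succ N ih =>
    rw [pk_succ, mul_add, mul_one, pow_add]
    have h1 := ih (fun s hs => h s (Nat.lt_succ_of_lt hs))
    have h2 := h N (Nat.lt_succ_self N)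
    have h3 : (u N + 1) * 2 ^ (w * N) ≤ 2 ^ w * 2 ^ (w * N) := Nat.mul_le_mul_right _ h2
    calc pk w N u + u N * 2 ^ (w * N) < 2 ^ (w * N) + u N * 2 ^ (w * N) := by omega
      _ = (u N + 1) * 2 ^ (w * N) := by ring
      _ ≤ _ := h3
      _ = _ := by ring

/-- digit `s` in base `2^w` -/
def dg (w U s : ℕ) : ℕ := U / 2 ^ (w * s) % 2 ^ w

lemma dg_lt (w U s : ℕ) : dg w U s < 2 ^ w := Nat.mod_lt _ (by positivity)

lemma dg_pk {w N : ℕ} {u : ℕ → ℕ} (h : ∀ s < N, u s < 2 ^ w) {s : ℕ} (hs : s < N) :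
    dg w (pk w N u) s = u s := by
  obtain ⟨M, rfl⟩ := Nat.exists_eq_add_of_lt hs
  unfold dg
  have e1 : pk w (s + M + 1) u = pk w s u + 2 ^ (w * s) *
      (2 ^ w * pk w M (fun t => u (s + (t + 1))) + u s) := by
    rw [show s + M + 1 = s + (M + 1) by ring, pk_add, pk_succ']
    simp
  rw [e1, Nat.add_mul_div_left _ _ (by positivity),
    Nat.div_eq_of_lt (pk_lt (fun t ht => h t (by omega))), zero_add, Nat.mul_add_mod]
  exact Nat.mod_eq_of_lt (h s hs)

lemma pk_dg {w N U : ℕ} (h : U < 2 ^ (w * N)) : pk w N (dg w U) = U := by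
  induction N generalizing U with
  | zero => simp at h; simp [h]
  | succ N ih =>
    rw [pk_succ']
    have e : pk w N (fun s => dg w U (s + 1)) = U / 2 ^ w := by
      have hlt : U / 2 ^ w < 2 ^ (w * N) := by
        rw [Nat.div_lt_iff_lt_mul (by positivity), ← pow_add]
        calc U < _ := h
          _ = _ := by ring_nf
      rw [← ih hlt]
      apply pk_congr
      intro s _
      unfold dg
      rw [mul_add, mul_one, add_comm, pow_add, Nat.div_div_eq_div_mul]
    rw [e]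
    unfold dg
    simp only [mul_zero, pow_zero, Nat.div_one]
    exact Nat.div_add_mod U (2 ^ w)

lemma pk_inj {w N : ℕ} {u v : ℕ → ℕ} (hu : ∀ s < N, u s < 2 ^ w) (hv : ∀ s < N, v s < 2 ^ w)
    (h : pk w N u = pk w N v) : ∀ s < N, u s = v s := by
  intro s hs
  rw [← dg_pk hu hs, h, dg_pk hv hs]

lemma land_two_pow_mul_add {w a b c d : ℕ} (hb : b < 2 ^ w) (hd : d < 2 ^ w) :
    (2 ^ w * a + b) &&& (2 ^ w * c + d) = 2 ^ w * (a &&& c) + (b &&& d) := by
  apply Nat.eq_of_testBit_eq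
  intro j
  rw [Nat.testBit_and, Nat.testBit_two_pow_mul_add _ hb, Nat.testBit_two_pow_mul_add _ hd,
    Nat.testBit_two_pow_mul_add _ (lt_of_le_of_lt Nat.and_le_left hb)]
  split_ifs <;> simp [Nat.testBit_and]

lemma pk_land {w : ℕ} {N : ℕ} {u v : ℕ → ℕ} (hu : ∀ s < N, u s < 2 ^ w)
    (hv : ∀ s < N, v s < 2 ^ w) :
    pk w N u &&& pk w N v = pk w N (fun s => u s &&& v s) := by
  induction N generalizing u v with
  | zero => simp
  | succ N ih =>
    rw [pk_succ', pk_succ', pk_succ', land_two_pow_mul_add (hu 0 (by omega)) (hv 0 (by omega)),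
      ih (fun s hs => hu (s + 1) (by omega)) (fun s hs => hv (s + 1) (by omega))]

lemma pk_const (w N c : ℕ) : pk w N (fun _ => c) = c * ∑ s ∈ range N, (2 ^ w) ^ s := by
  unfold pk
  rw [mul_sum]
  apply sum_congr rfl
  intro s _
  rw [pow_mul]

/-- `∑_{j<n} 2^{w j}` as computed by the kernel -/
def rep (w n : ℕ) : ℕ := Nat.div (Nat.sub (Nat.pow 2 (Nat.mul w n)) 1) (Nat.sub (Nat.pow 2 w) 1)

lemma rep_eq {w : ℕ} (hw : 1 ≤ w) (n : ℕ) : rep w n = ∑ k ∈ range n, (2 ^ w) ^ k := by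
  rw [Nat.geomSum_eq (by calc 2 = 2 ^ 1 := rfl
    _ ≤ 2 ^ w := Nat.pow_le_pow_right (by norm_num) hw)]
  unfold rep
  rw [← pow_mul]; rfl

lemma pk_const' {w : ℕ} (hw : 1 ≤ w) (N c : ℕ) : pk w N (fun _ => c) = c * rep w N := by
  rw [pk_const, rep_eq hw]

/-- two-level packing: `N = c * n` slots of width `w`, grouped by `c` -/
lemma pk_mul (w c n : ℕ) (u : ℕ → ℕ) :
    pk w (c * n) u = pk (w * c) n (fun j => pk w c (fun i => u (i + c * j))) := by
  induction n with
  | zero => simp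
  | succ n ih =>
    rw [mul_add, mul_one, pk_add, pk_succ, ih]
    have : pk w c (fun s => u (c * n + s)) = pk w c (fun i => u (i + c * n)) :=
      pk_congr (fun s _ => by rw [add_comm])
    rw [this]
    ring_nf

/-- all digits of `U` (slots of width `w`, `N` slots) are `< 2^p` -/
def lowDigits (w p N U : ℕ) : Prop := U < 2 ^ (w * N) ∧ ∀ s < N, dg w U s < 2 ^ p

lemma lowDigits_of_land {w p N U : ℕ} (hp : p ≤ w) (hw : 1 ≤ w) (hU : U < 2 ^ (w * N))
    (h : U &&& ((2 ^ w - 2 ^ p) * rep w N) = 0) : lowDigits w p N U := by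
  refine ⟨hU, ?_⟩
  have hpw : 2 ^ p ≤ 2 ^ w := Nat.pow_le_pow_right (by norm_num) hp
  have h1p : 0 < 2 ^ p := by positivity
  rw [← pk_const' hw] at h
  nth_rewrite 1 [← pk_dg hU] at h
  rw [pk_land (fun s _ => dg_lt w U s) (fun s _ => by omega)] at h
  intro s hs
  have h0 : ∀ s < N, (fun s => dg w U s &&& (2 ^ w - 2 ^ p)) s = (fun _ => 0) s := by
    apply pk_inj (w := w)
    · intro s _
      exact lt_of_le_of_lt Nat.and_le_left (dg_lt w U s)
    · intro s _; positivity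
    · rw [h]; simp [pk]
  have h1 := h0 s hs
  simp only at h1
  by_contra hcon
  push Not at hcon
  obtain ⟨j, hj, hjb⟩ : ∃ j, p ≤ j ∧ (dg w U s).testBit j = true := by
    by_contra hne
    push Not at hne
    have : dg w U s < 2 ^ p := by
      apply Nat.lt_pow_two_of_testBit
      intro i hi
      simpa using hne i hi
    omega
  have hjw : j < w := by
    by_contra hjw
    push Not at hjw
    have : dg w U s < 2 ^ j := lt_of_lt_of_le (dg_lt w U s) (Nat.pow_le_pow_right (by norm_num) hjw)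
    rw [Nat.testBit_lt_two_pow this] at hjb
    exact absurd hjb (by simp)
  have h2 : (dg w U s &&& (2 ^ w - 2 ^ p)).testBit j = true := by
    rw [Nat.testBit_and, hjb]
    have e : 2 ^ w - 2 ^ p = 2 ^ p * (2 ^ (w - p) - 1) := by
      rw [Nat.mul_sub, ← pow_add, mul_one]
      congr 2; omega
    rw [e, Nat.testBit_two_pow_mul, Nat.testBit_two_pow_sub_one]
    simp; omega
  rw [h1] at h2
  simp at h2

end Crest.Agent.R347.Packed
end

-- ▼ part R347/Packed
section

/-!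
# N3: kernel-efficient products of packed integer matrices

A matrix `a` (`n` columns) is stored as `A : ℕ → ℕ` (`A I` is the chunk of the rows
`8 I, ..., 8 I + 7`): `A I = ∑_{i < 8, j < n} (a (8 I + i) j + 2^45) 2^{104 (i + 8 j)}`.
-/

set_option exponentiation.threshold 2000

namespace Crest.Agent.R347.Packed

open Finset

/-! ## Trees and dot products -/

inductive BT where
  | leaf (b : ℕ) : BT
  | node (s m : ℕ) (l r : BT) : BT

noncomputable def BT.dot (t : BT) : ℕ → ℕ :=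
  BT.rec (motive := fun _ => ℕ → ℕ) (fun b c => Nat.mul c b)
    (fun s m _ _ ihl ihr c => Nat.add (ihl (Nat.land c m)) (ihr (Nat.shiftRight c s))) t

noncomputable def BT.sum (t : BT) : ℕ :=
  BT.rec (motive := fun _ => ℕ) (fun b => b) (fun _ _ _ _ sl sr => Nat.add sl sr) t

inductive IsTree : BT → ℕ → (ℕ → ℕ) → Prop where
  | leaf (f : ℕ → ℕ) : IsTree (BT.leaf (f 0)) 1 f
  | node {l r : BT} {m₁ m₂ : ℕ} {f : ℕ → ℕ} (hl : IsTree l m₁ f)
      (hr : IsTree r m₂ (fun k => f (m₁ + k))) :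
      IsTree (BT.node (832 * m₁) (2 ^ (832 * m₁) - 1) l r) (m₁ + m₂) f

lemma IsTree.sum_eq {t : BT} {m : ℕ} {f : ℕ → ℕ} (h : IsTree t m f) :
    t.sum = ∑ k ∈ range m, f k := by
  induction h with
  | leaf f => simp [BT.sum]
  | @node l r m₁ m₂ f hl hr ihl ihr =>
    show l.sum + r.sum = _
    rw [ihl, ihr, sum_range_add]

lemma IsTree.dot_eq {t : BT} {m : ℕ} {f : ℕ → ℕ} (h : IsTree t m f) (α : ℕ → ℕ)
    (hα : ∀ k < m, α k < 2 ^ 832) :
    t.dot (pk 832 m α) = ∑ k ∈ range m, α k * f k := by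
  induction h generalizing α with
  | leaf f =>
    show pk 832 1 α * f 0 = _
    simp [pk]
  | @node l r m₁ m₂ f hl hr ihl ihr =>
    show l.dot (pk 832 (m₁ + m₂) α &&& (2 ^ (832 * m₁) - 1)) +
      r.dot (pk 832 (m₁ + m₂) α >>> (832 * m₁)) = _
    have h1 : pk 832 m₁ α < 2 ^ (832 * m₁) := pk_lt (fun k hk => hα k (by omega))
    rw [Nat.and_two_pow_sub_one_eq_mod, Nat.shiftRight_eq_div_pow, pk_add,
      Nat.add_mul_mod_self_left, Nat.mod_eq_of_lt h1, Nat.add_mul_div_left _ _ (by positivity),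
      Nat.div_eq_of_lt h1, zero_add, ihl α (fun k hk => hα k (by omega)),
      ihr (fun s => α (m₁ + s)) (fun k hk => hα _ (by omega)), sum_range_add]

noncomputable def build (f : ℕ → ℕ) (d : ℕ) : ℕ → ℕ → BT :=
  Nat.rec (motive := fun _ => ℕ → ℕ → BT)
    (fun lo _ => BT.leaf (f lo))
    (fun _ ih lo len =>
      Bool.rec (motive := fun _ => BT)
        (BT.node (Nat.mul 832 (Nat.div len 2)) (Nat.sub (Nat.pow 2 (Nat.mul 832 (Nat.div len 2))) 1)
          (ih lo (Nat.div len 2)) (ih (Nat.add lo (Nat.div len 2)) (Nat.sub len (Nat.div len 2))))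
        (BT.leaf (f lo)) (Nat.ble len 1)) d

lemma build_succ (f : ℕ → ℕ) (d lo len : ℕ) :
    build f (d + 1) lo len = if len ≤ 1 then BT.leaf (f lo) else
      BT.node (832 * (len / 2)) (2 ^ (832 * (len / 2)) - 1)
          (build f d lo (len / 2)) (build f d (lo + len / 2) (len - len / 2)) := by
  have h1 : build f (d + 1) lo len = Bool.rec (motive := fun _ => BT)
        (BT.node (Nat.mul 832 (Nat.div len 2)) (Nat.sub (Nat.pow 2 (Nat.mul 832 (Nat.div len 2))) 1)
          (build f d lo (Nat.div len 2))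
          (build f d (Nat.add lo (Nat.div len 2)) (Nat.sub len (Nat.div len 2))))
        (BT.leaf (f lo)) (Nat.ble len 1) := rfl
  rw [h1]
  by_cases h : len ≤ 1
  · rw [if_pos h, Nat.ble_eq_true_of_le h]
  · rw [if_neg h, show Nat.ble len 1 = false by
      rw [← Bool.not_eq_true, Nat.ble_eq]; exact h]
    rfl

lemma build_spec (f : ℕ → ℕ) (d : ℕ) : ∀ lo len : ℕ, 1 ≤ len → len ≤ 2 ^ d →
    IsTree (build f d lo len) len (fun k => f (lo + k)) := by
  induction d with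
  | zero =>
    intro lo len h1 h2
    obtain rfl : len = 1 := by simpa using le_antisymm h2 h1
    exact IsTree.leaf (fun k => f (lo + k))
  | succ d ih =>
    intro lo len h1 h2
    rw [build_succ]
    split_ifs with h
    · obtain rfl : len = 1 := le_antisymm h h1
      exact IsTree.leaf (fun k => f (lo + k))
    · rw [pow_succ] at h2
      have e : len = len / 2 + (len - len / 2) := by omega
      have := IsTree.node (ih lo (len / 2) (by omega) (by omega))
        (m₂ := len - len / 2) (r := build f d (lo + len / 2) (len - len / 2))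
        (by
          have := ih (lo + len / 2) (len - len / 2) (by omega) (by omega)
          simpa [add_assoc] using this)
      rw [← e] at this
      exact this

/-! ## Chunks -/

/-- `A I` has `8 n` slots of `104` bits, with digits `< 2^46`, for all `I` with `8 I < n` -/
def Good (n : ℕ) (A : ℕ → ℕ) : Prop := ∀ I, 8 * I < n → lowDigits 104 46 (8 * n) (A I)

/-- unsigned digit -/
def udig (A : ℕ → ℕ) (i j : ℕ) : ℕ := dg 104 (A (i / 8)) (i % 8 + 8 * j)

/-- the entry `(i, j)` of a packed matrix -/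
def ent (A : ℕ → ℕ) (i j : ℕ) : ℤ := (udig A i j : ℤ) - 2 ^ 45

lemma Good.udig_lt {n : ℕ} {A : ℕ → ℕ} (h : Good n A) {i j : ℕ} (hi : i < n) (hj : j < n) :
    udig A i j < 2 ^ 46 :=
  (h (i / 8) (by omega)).2 _ (by omega)

/-- the row mask: the slots `8 j`, `j < n` -/
def maskRow (n : ℕ) : ℕ := Nat.mul (Nat.sub (Nat.pow 2 104) 1) (rep 832 n)

/-- row `k`, spaced by `832` bits, plus a final digit `1` in slot `n` -/
def rowOf (n : ℕ) (B : ℕ → ℕ) (k : ℕ) : ℕ :=
  Nat.add (Nat.land (Nat.shiftRight (B (Nat.div k 8)) (Nat.mul 104 (Nat.mod k 8))) (maskRow n))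
    (Nat.pow 2 (Nat.mul 832 n))

lemma dg_div (w U i s : ℕ) : dg w (U / 2 ^ (w * i)) s = dg w U (i + s) := by
  unfold dg
  rw [Nat.div_div_eq_div_mul, ← pow_add, ← mul_add]

lemma pk_single {w c : ℕ} (hc : 0 < c) (u : ℕ) :
    pk w c (fun i => if i = 0 then u else 0) = u := by
  unfold pk
  rw [sum_eq_single 0]
  · simp
  · intro b _ hb; simp [hb]
  · intro h; simp at h; omega

lemma maskRow_eq (n : ℕ) :
    maskRow n = pk 104 (8 * n) (fun s => if s % 8 = 0 then 2 ^ 104 - 1 else 0) := by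
  rw [pk_mul]
  have : maskRow n = pk (104 * 8) n (fun _ => 2 ^ 104 - 1) := by
    rw [pk_const' (by norm_num)]; rfl
  rw [this]
  apply pk_congr
  intro j _
  refine (pk_single (w := 104) (c := 8) (by norm_num) (2 ^ 104 - 1)).symm.trans ?_
  apply pk_congr
  intro i hi
  have : (i + 8 * j) % 8 = i := by omega
  simp only [this]

lemma rowOf_eq {n : ℕ} {B : ℕ → ℕ} (hB : Good n B) {k : ℕ} (hk : k < n) :
    rowOf n B k = pk 832 n (fun j => udig B k j) + 2 ^ (832 * n) := by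
  have h1 : rowOf n B k =
      (B (k / 8) >>> (104 * (k % 8)) &&& maskRow n) + 2 ^ (832 * n) := rfl
  rw [h1]
  congr 1
  rw [Nat.shiftRight_eq_div_pow]
  set U := B (k / 8) with hU
  have hg := hB (k / 8) (by omega)
  have hlt : U / 2 ^ (104 * (k % 8)) < 2 ^ (104 * (8 * n)) :=
    lt_of_le_of_lt (Nat.div_le_self _ _) hg.1
  rw [maskRow_eq]
  nth_rewrite 1 [← pk_dg hlt]
  rw [pk_land (fun s _ => dg_lt _ _ _) (fun s _ => by split_ifs <;> simp), pk_mul]
  show pk 832 n _ = _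
  apply pk_congr
  intro j _
  have e : udig B k j = pk 104 8 (fun i => if i = 0 then udig B k j else 0) :=
    (pk_single (by norm_num) _).symm
  rw [e]
  apply pk_congr
  intro i hi
  have h8 : (i + 8 * j) % 8 = i := by omega
  rw [h8]
  by_cases hi0 : i = 0
  · subst hi0
    simp only [if_true, zero_add]
    rw [Nat.and_two_pow_sub_one_eq_mod, dg_div, Nat.mod_eq_of_lt (dg_lt _ _ _)]
    rfl
  · simp [hi0]

/-- column blocks of a chunk -/
lemma chunk_eq {n : ℕ} {U : ℕ} (h : U < 2 ^ (104 * (8 * n))) :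
    U = pk 832 n (fun k => pk 104 8 (fun i => dg 104 U (i + 8 * k))) := by
  nth_rewrite 1 [← pk_dg h]
  rw [pk_mul]

lemma block_lt (U k : ℕ) : pk 104 8 (fun i => dg 104 U (i + 8 * k)) < 2 ^ 832 :=
  pk_lt (w := 104) (N := 8) (fun _ _ => dg_lt _ _ _)

/-- the tree of the rows of `B` -/
noncomputable def rowTree (n : ℕ) (B : ℕ → ℕ) : BT := build (rowOf n B) 10 0 n

lemma rowTree_spec {n : ℕ} (hn : 1 ≤ n) (hn2 : n ≤ 1024) (B : ℕ → ℕ) :
    IsTree (rowTree n B) n (rowOf n B) := by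
  have := build_spec (rowOf n B) 10 0 n hn (by simpa using hn2)
  simp only [zero_add] at this
  exact this

lemma pk_mul_pk_sum (n m : ℕ) (a : ℕ → ℕ → ℕ) (b : ℕ → ℕ → ℕ) :
    ∑ k ∈ range m, pk 104 8 (fun i => a i k) * pk 832 n (fun j => b k j) =
      pk 832 n (fun j => pk 104 8 (fun i => ∑ k ∈ range m, a i k * b k j)) := by
  unfold pk
  simp only [sum_mul, mul_sum]
  rw [sum_comm]
  apply sum_congr rfl
  intro j _
  rw [sum_comm]
  apply sum_congr rfl
  intro i _
  apply sum_congr rfl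
  intro k _
  ring

lemma sum_pk (w N m : ℕ) (a : ℕ → ℕ → ℕ) :
    ∑ k ∈ range m, pk w N (fun i => a i k) = pk w N (fun i => ∑ k ∈ range m, a i k) := by
  unfold pk
  rw [sum_comm]
  apply sum_congr rfl
  intro i _
  rw [sum_mul]

/-- value of `dot` on the row tree -/
lemma dot_rowTree {n : ℕ} (hn : 1 ≤ n) (hn2 : n ≤ 1024) {A B : ℕ → ℕ} (hA : Good n A)
    (hB : Good n B) {I : ℕ} (hI : 8 * I < n) :
    (rowTree n B).dot (A I) =
      pk 832 n (fun j => pk 104 8 (fun i => ∑ k ∈ range n,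
        dg 104 (A I) (i + 8 * k) * udig B k j)) +
      2 ^ (832 * n) * pk 104 8 (fun i => ∑ k ∈ range n, dg 104 (A I) (i + 8 * k)) := by
  have h1 := (hA I hI).1
  rw [chunk_eq h1, (rowTree_spec hn hn2 B).dot_eq _ (fun k _ => block_lt _ _), ← chunk_eq h1]
  have h2 : ∀ k ∈ range n, pk 104 8 (fun i => dg 104 (A I) (i + 8 * k)) * rowOf n B k =
      pk 104 8 (fun i => dg 104 (A I) (i + 8 * k)) * pk 832 n (fun j => udig B k j) +
      2 ^ (832 * n) * pk 104 8 (fun i => dg 104 (A I) (i + 8 * k)) := by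
    intro k hk
    rw [rowOf_eq hB (mem_range.mp hk)]
    ring
  rw [sum_congr rfl h2, sum_add_distrib,
    pk_mul_pk_sum n n (fun i k => dg 104 (A I) (i + 8 * k)) (fun k j => udig B k j), ← mul_sum,
    sum_pk 104 8 n (fun i k => dg 104 (A I) (i + 8 * k))]

/-- column sums -/
noncomputable def colSum (n : ℕ) (t : BT) : ℕ :=
  Nat.land t.sum (Nat.sub (Nat.pow 2 (Nat.mul 832 n)) 1)

lemma colSum_rowTree {n : ℕ} (hn : 1 ≤ n) (hn2 : n ≤ 1024) {B : ℕ → ℕ} (hB : Good n B) :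
    colSum n (rowTree n B) = pk 832 n (fun j => ∑ k ∈ range n, udig B k j) := by
  show (rowTree n B).sum &&& (2 ^ (832 * n) - 1) = _
  rw [Nat.and_two_pow_sub_one_eq_mod, (rowTree_spec hn hn2 B).sum_eq]
  have h2 : ∀ k ∈ range n, rowOf n B k = pk 832 n (fun j => udig B k j) + 2 ^ (832 * n) :=
    fun k hk => rowOf_eq hB (mem_range.mp hk)
  rw [sum_congr rfl h2, sum_add_distrib, sum_const, card_range, smul_eq_mul,
    sum_pk 832 n n (fun j k => udig B k j), Nat.add_mul_mod_self_right]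
  apply Nat.mod_eq_of_lt
  apply pk_lt
  intro j hj
  calc ∑ k ∈ range n, udig B k j ≤ ∑ _k ∈ range n, 2 ^ 46 :=
        sum_le_sum (fun k hk => (hB.udig_lt (mem_range.mp hk) hj).le)
    _ = n * 2 ^ 46 := by simp
    _ ≤ 1024 * 2 ^ 46 := Nat.mul_le_mul_right _ hn2
    _ = 2 ^ 56 := by norm_num
    _ < 2 ^ 832 := Nat.pow_lt_pow_right (by norm_num) (by norm_num)

/-! ## Finalization (rounding) -/

lemma pk_addf (w N : ℕ) (u v : ℕ → ℕ) : pk w N (fun s => u s + v s) = pk w N u + pk w N v := by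
  unfold pk
  rw [← sum_add_distrib]
  apply sum_congr rfl
  intro s _
  ring

lemma pk_cmul (w N c : ℕ) (u : ℕ → ℕ) : pk w N (fun s => c * u s) = c * pk w N u := by
  unfold pk
  rw [mul_sum]
  apply sum_congr rfl
  intro s _
  ring

lemma pk2 (n : ℕ) (f : ℕ → ℕ → ℕ) :
    pk 832 n (fun j => pk 104 8 (fun i => f i j)) = pk 104 (8 * n) (fun t => f (t % 8) (t / 8)) := by
  rw [pk_mul]
  show pk 832 n _ = pk 832 n _
  apply pk_congr
  intro j _
  apply pk_congr
  intro i hi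
  rw [show (i + 8 * j) % 8 = i by omega, show (i + 8 * j) / 8 = j by omega]

noncomputable def finD (n m S : ℕ) : ℕ :=
  Nat.add (Nat.land S (Nat.sub (Nat.pow 2 (Nat.mul 832 n)) 1))
    (Nat.mul (Nat.add (Nat.pow 2 89) (Nat.mul m (Nat.pow 2 90))) (rep 104 (Nat.mul 8 n)))

noncomputable def finT (n g S Cc : ℕ) : ℕ :=
  Nat.add (Nat.add (Nat.mul (Nat.mul (Nat.pow 2 45) g) (rep 104 8))
    (Nat.mul (Nat.mul (Nat.pow 2 45) (Nat.shiftRight S (Nat.mul 832 n))) (rep 832 n)))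
    (Nat.mul (Nat.pow 2 44) Cc)

/-- all `8 n` slots of `U` are `< 2^p` -/
noncomputable def lowOK (p n U : ℕ) : Bool :=
  Nat.beq (Nat.land U (Nat.mul (Nat.sub (Nat.pow 2 104) (Nat.pow 2 p)) (rep 104 (Nat.mul 8 n)))) 0

lemma lowOK_spec {p n U : ℕ} (hp : p ≤ 104) (hU : U < 2 ^ (832 * n)) (h : lowOK p n U = true) :
    lowDigits 104 p (8 * n) U := by
  refine lowDigits_of_land hp (by norm_num) ?_ ?_
  · rw [← mul_assoc]; exact hU
  · exact Nat.eq_of_beq_eq_true h

noncomputable def finOK (n m g S Cc : ℕ) : Bool :=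
  and (Nat.blt Cc (Nat.pow 2 (Nat.mul 832 n)))
   (and (lowOK 46 n Cc)
    (and (Nat.ble (finT n g S Cc) (finD n m S))
      (lowOK 44 n (Nat.sub (finD n m S) (finT n g S Cc)))))

lemma finOK_spec {n m g S Cc : ℕ} {s : ℕ → ℕ → ℕ} {γ ρ : ℕ → ℕ} (hm : m ≤ 1024)
    (hg : g = pk 832 n γ)
    (hS : S = pk 832 n (fun j => pk 104 8 (fun i => s i j)) + 2 ^ (832 * n) * pk 104 8 ρ)
    (hs : ∀ i < 8, ∀ j < n, s i j ≤ m * 2 ^ 92) (hγ : ∀ j < n, γ j ≤ m * 2 ^ 46)
    (hρ : ∀ i < 8, ρ i ≤ m * 2 ^ 46) (h : finOK n m g S Cc = true) :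
    lowDigits 104 46 (8 * n) Cc ∧ ∀ i < 8, ∀ j < n, ∃ e < 2 ^ 44,
      s i j + (2 ^ 89 + m * 2 ^ 90) =
        2 ^ 45 * γ j + 2 ^ 45 * ρ i + 2 ^ 44 * dg 104 Cc (i + 8 * j) + e := by
  unfold finOK at h
  rw [Bool.and_eq_true, Bool.and_eq_true, Bool.and_eq_true] at h
  obtain ⟨h1, h2, h3, h4⟩ := h
  have hC0 : Cc < 2 ^ (832 * n) := by
    have := Nat.blt_eq.mp h1
    exact this
  have hC := lowOK_spec (by norm_num) hC0 h2
  refine ⟨hC, ?_⟩
  have e1 : S = pk 104 (8 * n) (fun t => s (t % 8) (t / 8)) + 2 ^ (832 * n) * pk 104 8 ρ := by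
    rw [hS, pk2]
  have hslt : ∀ t < 8 * n, s (t % 8) (t / 8) ≤ m * 2 ^ 92 :=
    fun t ht => hs _ (by omega) _ (by omega)
  have hlow : pk 104 (8 * n) (fun t => s (t % 8) (t / 8)) < 2 ^ (832 * n) := by
    rw [show 832 * n = 104 * (8 * n) by ring]
    apply pk_lt
    intro t ht
    calc s (t % 8) (t / 8) ≤ m * 2 ^ 92 := hslt t ht
      _ ≤ 1024 * 2 ^ 92 := Nat.mul_le_mul_right _ hm
      _ < 2 ^ 104 := by norm_num
  have hD : finD n m S = pk 104 (8 * n) (fun t => s (t % 8) (t / 8) + (2 ^ 89 + m * 2 ^ 90)) := by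
    have : finD n m S = (S &&& (2 ^ (832 * n) - 1)) + (2 ^ 89 + m * 2 ^ 90) * rep 104 (8 * n) := rfl
    rw [this, Nat.and_two_pow_sub_one_eq_mod, pk_addf, pk_const' (by norm_num)]
    congr 1
    rw [e1, Nat.add_mul_mod_self_left, Nat.mod_eq_of_lt hlow]
  have hR : Nat.shiftRight S (Nat.mul 832 n) = pk 104 8 ρ := by
    show S >>> (832 * n) = _
    rw [Nat.shiftRight_eq_div_pow, e1, Nat.add_mul_div_left _ _ (by positivity),
      Nat.div_eq_of_lt hlow, zero_add]
  have hT : finT n g S Cc = pk 104 (8 * n) (fun t => 2 ^ 45 * γ (t / 8) + 2 ^ 45 * ρ (t % 8) +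
      2 ^ 44 * dg 104 Cc t) := by
    have e2 : finT n g S Cc = (2 ^ 45 * g) * rep 104 8 +
      (2 ^ 45 * (Nat.shiftRight S (Nat.mul 832 n))) * rep 832 n + 2 ^ 44 * Cc := rfl
    rw [e2, hR, pk_addf, pk_addf, pk_cmul 104 (8 * n) (2 ^ 44) (dg 104 Cc),
      pk_dg (by rw [← mul_assoc]; exact hC0)]
    refine congrArg₂ (· + ·) (congrArg₂ (· + ·) ?_ ?_) rfl
    · rw [← pk2 n (fun i j => 2 ^ 45 * γ j)]
      have : ∀ j, pk 104 8 (fun _ => 2 ^ 45 * γ j) = (2 ^ 45 * rep 104 8) * γ j := by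
        intro j
        rw [pk_const' (by norm_num)]; ring
      simp only [this]
      rw [pk_cmul, hg]; ring
    · rw [← pk2 n (fun i j => 2 ^ 45 * ρ i), pk_const' (by norm_num), pk_cmul]
  have hle : finT n g S Cc ≤ finD n m S := Nat.le_of_ble_eq_true h3
  have hDlt : finD n m S < 2 ^ (832 * n) := by
    rw [hD, show 832 * n = 104 * (8 * n) by ring]
    apply pk_lt
    intro t ht
    calc s (t % 8) (t / 8) + (2 ^ 89 + m * 2 ^ 90)
        ≤ m * 2 ^ 92 + (2 ^ 89 + m * 2 ^ 90) := Nat.add_le_add_right (hslt t ht) _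
      _ ≤ 1024 * 2 ^ 92 + (2 ^ 89 + 1024 * 2 ^ 90) := by gcongr
      _ < 2 ^ 104 := by norm_num
  set R := finD n m S - finT n g S Cc with hRdef
  have hRl : lowDigits 104 44 (8 * n) R :=
    lowOK_spec (by norm_num) (lt_of_le_of_lt (Nat.sub_le _ _) hDlt) h4
  have key : pk 104 (8 * n) (fun t => s (t % 8) (t / 8) + (2 ^ 89 + m * 2 ^ 90)) =
      pk 104 (8 * n) (fun t => 2 ^ 45 * γ (t / 8) + 2 ^ 45 * ρ (t % 8) +
      2 ^ 44 * dg 104 Cc t + dg 104 R t) := by
    rw [pk_addf 104 (8 * n) _ (dg 104 R), pk_dg hRl.1, ← hD, ← hT, hRdef]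
    omega
  intro i hi j hj
  have hinj := pk_inj (w := 104) (N := 8 * n) ?_ ?_ key (i + 8 * j) (by omega)
  · refine ⟨dg 104 R (i + 8 * j), hRl.2 _ (by omega), ?_⟩
    rw [show (i + 8 * j) % 8 = i by omega, show (i + 8 * j) / 8 = j by omega] at hinj
    exact hinj
  · intro t ht
    calc s (t % 8) (t / 8) + (2 ^ 89 + m * 2 ^ 90)
        ≤ m * 2 ^ 92 + (2 ^ 89 + m * 2 ^ 90) := Nat.add_le_add_right (hslt t ht) _
      _ ≤ 1024 * 2 ^ 92 + (2 ^ 89 + 1024 * 2 ^ 90) := by gcongr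
      _ < 2 ^ 104 := by norm_num
  · intro t ht
    have a1 := hγ (t / 8) (by omega)
    have a2 := hρ (t % 8) (by omega)
    have a3 := hC.2 t ht
    have a4 := hRl.2 t ht
    have a5 : γ (t / 8) ≤ 1024 * 2 ^ 46 := a1.trans (Nat.mul_le_mul_right _ hm)
    have a6 : ρ (t % 8) ≤ 1024 * 2 ^ 46 := a2.trans (Nat.mul_le_mul_right _ hm)
    calc 2 ^ 45 * γ (t / 8) + 2 ^ 45 * ρ (t % 8) + 2 ^ 44 * dg 104 Cc t + dg 104 R t
        ≤ 2 ^ 45 * (1024 * 2 ^ 46) + 2 ^ 45 * (1024 * 2 ^ 46) + 2 ^ 44 * 2 ^ 46 + 2 ^ 44 := by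
          gcongr
      _ < 2 ^ 104 := by norm_num

/-! ## Products -/

/-- run `f` on all chunk indices `I < N` -/
noncomputable def allI (f : ℕ → Bool) (N : ℕ) : Bool :=
  Nat.rec (motive := fun _ => Bool) true (fun I ih => and (f I) ih) N

lemma allI_spec {f : ℕ → Bool} {N : ℕ} (h : allI f N = true) : ∀ I < N, f I = true := by
  induction N with
  | zero => intro I hI; omega
  | succ N ih =>
    intro I hI
    have h' : (f N && allI f N) = true := h
    rw [Bool.and_eq_true] at h'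
    rcases Nat.lt_succ_iff_lt_or_eq.mp hI with h1 | h1
    · exact ih h'.2 I h1
    · rw [h1]; exact h'.1

/-- number of chunks -/
def nch (n : ℕ) : ℕ := Nat.div (Nat.add n 7) 8

lemma lt_nch {n I : ℕ} (h : 8 * I < n) : I < nch n := by
  show I < (n + 7) / 8
  omega

noncomputable def mulOK (n : ℕ) (A B C : ℕ → ℕ) : Bool :=
  allI (fun I => finOK n n (colSum n (rowTree n B)) ((rowTree n B).dot (A I)) (C I)) (nch n)

noncomputable def mul2OK (n : ℕ) (A B A' B' C : ℕ → ℕ) : Bool :=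
  allI (fun I => finOK n (Nat.mul 2 n)
    (Nat.add (colSum n (rowTree n B)) (colSum n (rowTree n B')))
    (Nat.add ((rowTree n B).dot (A I)) ((rowTree n B').dot (A' I))) (C I)) (nch n)

lemma sum_ent_mul (n : ℕ) (A B : ℕ → ℕ) (i j : ℕ) :
    ∑ k ∈ range n, ent A i k * ent B k j =
      ((∑ k ∈ range n, udig A i k * udig B k j : ℕ) : ℤ)
       - 2 ^ 45 * ((∑ k ∈ range n, udig B k j : ℕ) : ℤ)
       - 2 ^ 45 * ((∑ k ∈ range n, udig A i k : ℕ) : ℤ) + n * 2 ^ 90 := by
  unfold ent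
  simp only [Nat.cast_sum, Nat.cast_mul]
  rw [mul_sum, mul_sum, ← sum_sub_distrib, ← sum_sub_distrib]
  have : (n : ℤ) * 2 ^ 90 = ∑ _k ∈ range n, (2 : ℤ) ^ 90 := by simp
  rw [this, ← sum_add_distrib]
  apply sum_congr rfl
  intro k _
  ring

lemma udig_chunk (A : ℕ → ℕ) (i k : ℕ) :
    dg 104 (A (i / 8)) (i % 8 + 8 * k) = udig A i k := rfl

lemma sum_bound {n : ℕ} {f : ℕ → ℕ} {c : ℕ} (h : ∀ k < n, f k ≤ c) :
    ∑ k ∈ range n, f k ≤ n * c := by
  calc ∑ k ∈ range n, f k ≤ ∑ _k ∈ range n, c := sum_le_sum (fun k hk => h k (mem_range.mp hk))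
    _ = n * c := by simp

theorem mulOK_spec {n : ℕ} (hn : 1 ≤ n) (hn2 : n ≤ 1024) {A B C : ℕ → ℕ} (hA : Good n A)
    (hB : Good n B) (h : mulOK n A B C = true) :
    Good n C ∧ ∀ i < n, ∀ j < n,
      0 ≤ ∑ k ∈ range n, ent A i k * ent B k j - 2 ^ 44 * ent C i j ∧
      ∑ k ∈ range n, ent A i k * ent B k j - 2 ^ 44 * ent C i j < 2 ^ 44 := by
  have key : ∀ I, 8 * I < n → _ := fun I hI =>
    finOK_spec (n := n) (m := n) (g := colSum n (rowTree n B)) (S := (rowTree n B).dot (A I))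
      (Cc := C I) hn2 (colSum_rowTree hn hn2 hB) (dot_rowTree hn hn2 hA hB hI)
      (fun i hi j hj => by
        apply sum_bound
        intro k hk
        calc dg 104 (A I) (i + 8 * k) * udig B k j ≤ 2 ^ 46 * 2 ^ 46 :=
              Nat.mul_le_mul ((hA I hI).2 _ (by omega)).le (hB.udig_lt hk hj).le
          _ = 2 ^ 92 := by norm_num)
      (fun j hj => sum_bound (fun k hk => (hB.udig_lt hk hj).le))
      (fun i hi => sum_bound (fun k hk => ((hA I hI).2 _ (by omega)).le))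
      (allI_spec h I (lt_nch hI))
  refine ⟨fun I hI => (key I hI).1, ?_⟩
  intro i hi j hj
  obtain ⟨e, he, heq⟩ := (key (i / 8) (by omega)).2 (i % 8) (by omega) j hj
  simp only [udig_chunk] at heq
  rw [sum_ent_mul]
  have hz : (((∑ k ∈ range n, udig A i k * udig B k j : ℕ) : ℤ) + (2 ^ 89 + n * 2 ^ 90)) =
      2 ^ 45 * ((∑ k ∈ range n, udig B k j : ℕ) : ℤ) + 2 ^ 45 *
        ((∑ k ∈ range n, udig A i k : ℕ) : ℤ) + 2 ^ 44 * (udig C i j : ℤ) + (e : ℤ) := by
    exact_mod_cast heq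
  have he' : (e : ℤ) < 2 ^ 44 := by exact_mod_cast he
  have he0 : (0 : ℤ) ≤ e := by positivity
  unfold ent
  constructor <;> linarith

theorem mul2OK_spec {n : ℕ} (hn : 1 ≤ n) (hn2 : n ≤ 512) {A B A' B' C : ℕ → ℕ} (hA : Good n A)
    (hB : Good n B) (hA' : Good n A') (hB' : Good n B') (h : mul2OK n A B A' B' C = true) :
    Good n C ∧ ∀ i < n, ∀ j < n,
      0 ≤ ∑ k ∈ range n, ent A i k * ent B k j + ∑ k ∈ range n, ent A' i k * ent B' k j
        - 2 ^ 44 * ent C i j ∧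
      ∑ k ∈ range n, ent A i k * ent B k j + ∑ k ∈ range n, ent A' i k * ent B' k j
        - 2 ^ 44 * ent C i j < 2 ^ 44 := by
  have hn3 : n ≤ 1024 := by omega
  have key : ∀ I, 8 * I < n → _ := fun I hI =>
    finOK_spec (n := n) (m := 2 * n)
      (g := colSum n (rowTree n B) + colSum n (rowTree n B'))
      (S := (rowTree n B).dot (A I) + (rowTree n B').dot (A' I))
      (Cc := C I)
      (s := fun i j => ∑ k ∈ range n, dg 104 (A I) (i + 8 * k) * udig B k j +
        ∑ k ∈ range n, dg 104 (A' I) (i + 8 * k) * udig B' k j)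
      (γ := fun j => ∑ k ∈ range n, udig B k j + ∑ k ∈ range n, udig B' k j)
      (ρ := fun i => ∑ k ∈ range n, dg 104 (A I) (i + 8 * k) +
        ∑ k ∈ range n, dg 104 (A' I) (i + 8 * k))
      (by omega)
      (by rw [colSum_rowTree hn hn3 hB, colSum_rowTree hn hn3 hB', pk_addf])
      (by
        rw [dot_rowTree hn hn3 hA hB hI, dot_rowTree hn hn3 hA' hB' hI]
        simp only [pk_addf]
        ring)
      (fun i hi j hj => by
        have h1 : ∑ k ∈ range n, dg 104 (A I) (i + 8 * k) * udig B k j ≤ n * 2 ^ 92 := by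
          apply sum_bound
          intro k hk
          calc dg 104 (A I) (i + 8 * k) * udig B k j ≤ 2 ^ 46 * 2 ^ 46 :=
                Nat.mul_le_mul ((hA I hI).2 _ (by omega)).le (hB.udig_lt hk hj).le
            _ = 2 ^ 92 := by norm_num
        have h2 : ∑ k ∈ range n, dg 104 (A' I) (i + 8 * k) * udig B' k j ≤ n * 2 ^ 92 := by
          apply sum_bound
          intro k hk
          calc dg 104 (A' I) (i + 8 * k) * udig B' k j ≤ 2 ^ 46 * 2 ^ 46 :=
                Nat.mul_le_mul ((hA' I hI).2 _ (by omega)).le (hB'.udig_lt hk hj).le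
            _ = 2 ^ 92 := by norm_num
        omega)
      (fun j hj => by
        have h1 : ∑ k ∈ range n, udig B k j ≤ n * 2 ^ 46 :=
          sum_bound (fun k hk => (hB.udig_lt hk hj).le)
        have h2 : ∑ k ∈ range n, udig B' k j ≤ n * 2 ^ 46 :=
          sum_bound (fun k hk => (hB'.udig_lt hk hj).le)
        omega)
      (fun i hi => by
        have h1 : ∑ k ∈ range n, dg 104 (A I) (i + 8 * k) ≤ n * 2 ^ 46 :=
          sum_bound (fun k hk => ((hA I hI).2 _ (by omega)).le)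
        have h2 : ∑ k ∈ range n, dg 104 (A' I) (i + 8 * k) ≤ n * 2 ^ 46 :=
          sum_bound (fun k hk => ((hA' I hI).2 _ (by omega)).le)
        omega)
      (allI_spec h I (lt_nch hI))
  refine ⟨fun I hI => (key I hI).1, ?_⟩
  intro i hi j hj
  obtain ⟨e, he, heq⟩ := (key (i / 8) (by omega)).2 (i % 8) (by omega) j hj
  simp only [udig_chunk] at heq
  rw [sum_ent_mul, sum_ent_mul]
  have hz : (((∑ k ∈ range n, udig A i k * udig B k j : ℕ) : ℤ) +
      ((∑ k ∈ range n, udig A' i k * udig B' k j : ℕ) : ℤ) + (2 ^ 89 + 2 * n * 2 ^ 90)) =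
      2 ^ 45 * (((∑ k ∈ range n, udig B k j : ℕ) : ℤ) + ((∑ k ∈ range n, udig B' k j : ℕ) : ℤ))
      + 2 ^ 45 * (((∑ k ∈ range n, udig A i k : ℕ) : ℤ) + ((∑ k ∈ range n, udig A' i k : ℕ) : ℤ))
      + 2 ^ 44 * (udig C i j : ℤ) + (e : ℤ) := by
    exact_mod_cast heq
  have he' : (e : ℤ) < 2 ^ 44 := by exact_mod_cast he
  have he0 : (0 : ℤ) ≤ e := by positivity
  unfold ent
  constructor <;> linarith

end Crest.Agent.R347.Packed
end

-- ▼ part R347/PackedOps
section

/-!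
# N3, second part: range check, rounding of exact rows, traces of products, sums of squares
-/

set_option exponentiation.threshold 10000

namespace Crest.Agent.R347.Packed

open Finset

/-! ## Range check -/

noncomputable def goodOK (n : ℕ) (A : ℕ → ℕ) : Bool :=
  allI (fun I => and (Nat.blt (A I) (Nat.pow 2 (Nat.mul 832 n))) (lowOK 46 n (A I))) (nch n)

lemma goodOK_spec {n : ℕ} {A : ℕ → ℕ} (h : goodOK n A = true) : Good n A := by
  intro I hI
  have := allI_spec h I (lt_nch hI)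
  rw [Bool.and_eq_true] at this
  exact lowOK_spec (by norm_num) (Nat.blt_eq.mp this.1) this.2

/-! ## Rounding of exact rows (slot width 832, offset `2^200`) -/

/-- row `r` spaced by 832 bits -/
def rowPure (n : ℕ) (B : ℕ → ℕ) (k : ℕ) : ℕ :=
  Nat.land (Nat.shiftRight (B (Nat.div k 8)) (Nat.mul 104 (Nat.mod k 8))) (maskRow n)

lemma rowPure_eq {n : ℕ} {B : ℕ → ℕ} (hB : Good n B) {k : ℕ} (hk : k < n) :
    rowPure n B k = pk 832 n (fun j => udig B k j) := by
  have h := rowOf_eq hB hk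
  have h2 : rowOf n B k = rowPure n B k + 2 ^ (832 * n) := rfl
  omega

noncomputable def rowRoundOK (n u s R c : ℕ) : Bool :=
  and (Nat.ble (Nat.add (Nat.mul (Nat.pow 2 s) c) (Nat.mul (Nat.pow 2 (Nat.add u 200)) (rep 832 n)))
        (Nat.add (Nat.mul (Nat.pow 2 u) R) (Nat.mul (Nat.pow 2 (Nat.add 45 s)) (rep 832 n))))
    (Nat.beq (Nat.land (Nat.sub
        (Nat.add (Nat.mul (Nat.pow 2 u) R) (Nat.mul (Nat.pow 2 (Nat.add 45 s)) (rep 832 n)))
        (Nat.add (Nat.mul (Nat.pow 2 s) c) (Nat.mul (Nat.pow 2 (Nat.add u 200)) (rep 832 n))))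
      (Nat.mul (Nat.sub (Nat.pow 2 832) (Nat.pow 2 s)) (rep 832 n))) 0)

lemma rowRoundOK_spec {n u s R c : ℕ} {d e : ℕ → ℕ} (hu : u ≤ 100) (hs : s ≤ 200)
    (hR : R = pk 832 n d) (hc : c = pk 832 n e) (hd : ∀ j < n, d j < 2 ^ 201)
    (he : ∀ j < n, e j < 2 ^ 46) (h : rowRoundOK n u s R c = true) :
    ∀ j < n, ∃ r < 2 ^ s, 2 ^ u * d j + 2 ^ (45 + s) = 2 ^ s * e j + 2 ^ (u + 200) + r := by
  unfold rowRoundOK at h
  rw [Bool.and_eq_true] at h
  obtain ⟨h1, h2⟩ := h
  have h1' : 2 ^ s * c + 2 ^ (u + 200) * rep 832 n ≤ 2 ^ u * R + 2 ^ (45 + s) * rep 832 n :=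
    Nat.le_of_ble_eq_true h1
  have h2' : (2 ^ u * R + 2 ^ (45 + s) * rep 832 n - (2 ^ s * c + 2 ^ (u + 200) * rep 832 n)) &&&
      ((2 ^ 832 - 2 ^ s) * rep 832 n) = 0 := Nat.eq_of_beq_eq_true h2
  have hD : 2 ^ u * R + 2 ^ (45 + s) * rep 832 n =
      pk 832 n (fun j => 2 ^ u * d j + 2 ^ (45 + s)) := by
    rw [pk_addf, pk_cmul, pk_const' (by norm_num), hR]
  have hT : 2 ^ s * c + 2 ^ (u + 200) * rep 832 n =
      pk 832 n (fun j => 2 ^ s * e j + 2 ^ (u + 200)) := by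
    rw [pk_addf, pk_cmul, pk_const' (by norm_num), hc]
  have p1 : 2 ^ u ≤ 2 ^ 100 := Nat.pow_le_pow_right (by norm_num) hu
  have p2 : 2 ^ (45 + s) ≤ 2 ^ 245 := Nat.pow_le_pow_right (by norm_num) (by omega)
  have p3 : 2 ^ s ≤ 2 ^ 200 := Nat.pow_le_pow_right (by norm_num) hs
  have p4 : 2 ^ (u + 200) ≤ 2 ^ 300 := Nat.pow_le_pow_right (by norm_num) (by omega)
  have hDd : ∀ j < n, 2 ^ u * d j + 2 ^ (45 + s) < 2 ^ 832 := by
    intro j hj
    have := hd j hj
    calc 2 ^ u * d j + 2 ^ (45 + s) ≤ 2 ^ 100 * 2 ^ 201 + 2 ^ 245 := by gcongr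
      _ < 2 ^ 832 := by norm_num
  set X := 2 ^ u * R + 2 ^ (45 + s) * rep 832 n with hX
  set Y := 2 ^ s * c + 2 ^ (u + 200) * rep 832 n with hY
  have hXlt : X < 2 ^ (832 * n) := by
    rw [hD]; exact pk_lt hDd
  have hR' : lowDigits 832 s n (X - Y) :=
    lowDigits_of_land (by omega) (by norm_num) (lt_of_le_of_lt (Nat.sub_le _ _) hXlt) h2'
  have key : pk 832 n (fun j => 2 ^ u * d j + 2 ^ (45 + s)) =
      pk 832 n (fun j => 2 ^ s * e j + 2 ^ (u + 200) + dg 832 (X - Y) j) := by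
    rw [pk_addf 832 n _ (dg 832 (X - Y)), pk_dg hR'.1, ← hD, ← hT]
    omega
  intro j hj
  refine ⟨dg 832 (X - Y) j, hR'.2 j hj, ?_⟩
  refine pk_inj hDd ?_ key j hj
  intro i hi
  have a1 := he i hi
  have a2 := hR'.2 i hi
  calc 2 ^ s * e i + 2 ^ (u + 200) + dg 832 (X - Y) i
      ≤ 2 ^ 200 * 2 ^ 46 + 2 ^ 300 + 2 ^ 200 := by
        have : dg 832 (X - Y) i ≤ 2 ^ 200 := by omega
        gcongr
    _ < 2 ^ 832 := by norm_num

/-- `C` is the rounding of the exact rows `R` -/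
noncomputable def roundOK (n u s : ℕ) (R C : ℕ → ℕ) : Bool :=
  and (goodOK n C) (allI (fun r => rowRoundOK n u s (R r) (rowPure n C r)) n)

theorem roundOK_spec200 {n u s : ℕ} (hu : u ≤ 100) (hs : s ≤ 200) {R C : ℕ → ℕ} {x : ℕ → ℕ → ℤ}
    (hR : ∀ r < n, ((R r : ℕ) : ℤ) = ∑ j ∈ range n, (x r j + 2 ^ 200) * 2 ^ (832 * j))
    (hx : ∀ r < n, ∀ j < n, |x r j| < 2 ^ 200) (h : roundOK n u s R C = true) :
    Good n C ∧ ∀ r < n, ∀ j < n,
      0 ≤ 2 ^ u * x r j - 2 ^ s * ent C r j ∧ 2 ^ u * x r j - 2 ^ s * ent C r j < 2 ^ s := by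
  unfold roundOK at h
  rw [Bool.and_eq_true] at h
  have hC := goodOK_spec h.1
  refine ⟨hC, ?_⟩
  intro r hr j hj
  have hnn : ∀ j < n, 0 ≤ x r j + 2 ^ 200 := by
    intro j hj
    have := abs_lt.mp (hx r hr j hj)
    linarith [this.1]
  have hpk : R r = pk 832 n (fun j => (x r j + 2 ^ 200).toNat) := by
    have : ((R r : ℕ) : ℤ) = ((pk 832 n (fun j => (x r j + 2 ^ 200).toNat) : ℕ) : ℤ) := by
      rw [hR r hr]
      unfold pk
      rw [Nat.cast_sum]
      apply sum_congr rfl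
      intro j hj
      rw [Nat.cast_mul, Int.toNat_of_nonneg (hnn j (mem_range.mp hj))]
      simp
    exact_mod_cast this
  obtain ⟨e, he, heq⟩ := rowRoundOK_spec hu hs hpk (rowPure_eq hC hr) (fun j hj => by
      have := abs_lt.mp (hx r hr j hj)
      have h2 : x r j + 2 ^ 200 < 2 ^ 201 := by linarith [this.2]
      have h3 := Int.toNat_of_nonneg (hnn j hj)
      have h4 : (((x r j + 2 ^ 200).toNat : ℕ) : ℤ) < ((2 ^ 201 : ℕ) : ℤ) := by
        rw [h3]; exact_mod_cast h2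
      exact_mod_cast h4)
    (fun j hj => hC.udig_lt hr hj) (allI_spec h.2 r hr) j hj
  have hz : (2 : ℤ) ^ u * (x r j + 2 ^ 200) + 2 ^ (45 + s) =
      2 ^ s * (udig C r j : ℤ) + 2 ^ (u + 200) + (e : ℤ) := by
    have h3 := Int.toNat_of_nonneg (hnn j hj)
    rw [← h3]
    exact_mod_cast heq
  have he' : (e : ℤ) < 2 ^ s := by exact_mod_cast he
  have he0 : (0 : ℤ) ≤ e := by positivity
  have h5 : (2 : ℤ) ^ u * x r j - 2 ^ s * ent C r j = e := by
    unfold ent
    have e1 : (2 : ℤ) ^ (u + 200) = 2 ^ u * 2 ^ 200 := pow_add _ _ _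
    have e2 : (2 : ℤ) ^ (45 + s) = 2 ^ s * 2 ^ 45 := by rw [pow_add]; ring
    rw [e1, e2] at hz
    linear_combination hz
  rw [h5]
  exact ⟨he0, he'⟩

theorem roundOK_spec {n u s : ℕ} (hu : u ≤ 100) (hs : s ≤ 200) {R C : ℕ → ℕ} {x : ℕ → ℕ → ℤ}
    (hR : ∀ r < n, ((R r : ℕ) : ℤ) = ∑ j ∈ range n, (x r j + 2 ^ 200) * 2 ^ (832 * j))
    (hx : ∀ r < n, ∀ j < n, |x r j| < 2 ^ 190) (h : roundOK n u s R C = true) :
    Good n C ∧ ∀ r < n, ∀ j < n,
      0 ≤ 2 ^ u * x r j - 2 ^ s * ent C r j ∧ 2 ^ u * x r j - 2 ^ s * ent C r j < 2 ^ s :=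
  roundOK_spec200 hu hs hR (fun r hr j hj => (hx r hr j hj).trans (by norm_num)) h

/-! ## Generic tree recursion -/

noncomputable def BT.app (q : ℕ → ℕ → ℕ) (t : BT) : ℕ → ℕ :=
  BT.rec (motive := fun _ => ℕ → ℕ) (fun b c => q b c)
    (fun s m _ _ ihl ihr c => Nat.add (ihl (Nat.land c m)) (ihr (Nat.shiftRight c s))) t

lemma IsTree.app_eq {q : ℕ → ℕ → ℕ} {t : BT} {m : ℕ} {f : ℕ → ℕ} (h : IsTree t m f) (α : ℕ → ℕ)
    (hα : ∀ k < m, α k < 2 ^ 832) :
    t.app q (pk 832 m α) = ∑ k ∈ range m, q (f k) (α k) := by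
  induction h generalizing α with
  | leaf f =>
    show q (f 0) (pk 832 1 α) = _
    simp [pk]
  | @node l r m₁ m₂ f hl hr ihl ihr =>
    show l.app q (pk 832 (m₁ + m₂) α &&& (2 ^ (832 * m₁) - 1)) +
      r.app q (pk 832 (m₁ + m₂) α >>> (832 * m₁)) = _
    have h1 : pk 832 m₁ α < 2 ^ (832 * m₁) := pk_lt (fun k hk => hα k (by omega))
    rw [Nat.and_two_pow_sub_one_eq_mod, Nat.shiftRight_eq_div_pow, pk_add,
      Nat.add_mul_mod_self_left, Nat.mod_eq_of_lt h1, Nat.add_mul_div_left _ _ (by positivity),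
      Nat.div_eq_of_lt h1, zero_add, ihl α (fun k hk => hα k (by omega)),
      ihr (fun s => α (m₁ + s)) (fun k hk => hα _ (by omega)), sum_range_add]

/-- the index tree -/
noncomputable def shape (n : ℕ) : BT := build (fun k => k) 10 0 n

lemma shape_spec {n : ℕ} (hn : 1 ≤ n) (hn2 : n ≤ 1024) : IsTree (shape n) n (fun k => k) := by
  have := build_spec (fun k => k) 10 0 n hn (by simpa using hn2)
  simp only [zero_add] at this
  exact this

lemma pk_dg_mod (w N U : ℕ) : pk w N (dg w U) = U % 2 ^ (w * N) := by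
  induction N generalizing U with
  | zero => simp [Nat.mod_one]
  | succ N ih =>
    rw [pk_succ']
    have e : (fun s => dg w U (s + 1)) = dg w (U / 2 ^ w) := by
      funext s
      unfold dg
      rw [mul_add, mul_one, add_comm, pow_add, Nat.div_div_eq_div_mul]
    rw [e, ih, mul_add, mul_one, add_comm (w * N) w, pow_add, Nat.mod_mul, add_comm]
    congr 1
    unfold dg
    simp

lemma land_of_lt {U M N : ℕ} (hM : M < 2 ^ N) : U &&& M = (U % 2 ^ N) &&& M := by
  apply Nat.eq_of_testBit_eq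
  intro j
  rw [Nat.testBit_and, Nat.testBit_and, Nat.testBit_mod_two_pow]
  by_cases hj : j < N
  · simp [hj]
  · have : M.testBit j = false := Nat.testBit_lt_two_pow
      (lt_of_lt_of_le hM (Nat.pow_le_pow_right (by norm_num) (by omega)))
    simp [this]

/-- `U &&& maskRow n` selects the slots `8 j` -/
lemma land_maskRow (U n : ℕ) : U &&& maskRow n = pk 832 n (fun j => dg 104 U (8 * j)) := by
  have hm : maskRow n < 2 ^ (104 * (8 * n)) := by
    rw [maskRow_eq]
    apply pk_lt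
    intro s _
    split_ifs <;> simp
  rw [land_of_lt hm, ← pk_dg_mod, maskRow_eq,
    pk_land (fun s _ => dg_lt _ _ _) (fun s _ => by split_ifs <;> simp), pk_mul]
  show pk 832 n _ = _
  apply pk_congr
  intro j _
  refine Eq.trans ?_ (pk_single (w := 104) (c := 8) (by norm_num) (dg 104 U (8 * j)))
  apply pk_congr
  intro i hi
  have h8 : (i + 8 * j) % 8 = i := by omega
  rw [h8]
  by_cases hi0 : i = 0
  · subst hi0
    simp only [if_true, zero_add]
    rw [Nat.and_two_pow_sub_one_eq_mod, Nat.mod_eq_of_lt (dg_lt _ _ _)]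
  · simp [hi0]

/-- columns `8 I, ..., 8 I + 7` of the row `k` -/
def subRow (B : ℕ → ℕ) (I k : ℕ) : ℕ :=
  Nat.land (Nat.shiftRight (B (Nat.div k 8))
    (Nat.add (Nat.mul 104 (Nat.mod k 8)) (Nat.mul 6656 I))) (maskRow 8)

lemma subRow_eq (B : ℕ → ℕ) (I k : ℕ) :
    subRow B I k = pk 832 8 (fun j => udig B k (8 * I + j)) := by
  have h1 : subRow B I k = (B (k / 8) >>> (104 * (k % 8) + 6656 * I)) &&& maskRow 8 := rfl
  rw [h1, land_maskRow, Nat.shiftRight_eq_div_pow,
    show 104 * (k % 8) + 6656 * I = 104 * (k % 8 + 64 * I) by ring]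
  apply pk_congr
  intro j _
  rw [dg_div]
  unfold udig
  congr 1
  ring

/-- sum of the diagonal slots `9 i`, `i < cnt` -/
noncomputable def diag (cnt S : ℕ) : ℕ :=
  Nat.rec (motive := fun _ => ℕ) 0
    (fun i ih => Nat.add ih (Nat.mod (Nat.shiftRight S (Nat.mul 936 i)) (Nat.pow 2 104))) cnt

lemma diag_eq (cnt S : ℕ) : diag cnt S = ∑ i ∈ range cnt, dg 104 S (9 * i) := by
  induction cnt with
  | zero => rfl
  | succ c ih =>
    rw [sum_range_succ, ← ih]
    show diag c S + (S >>> (936 * c)) % 2 ^ 104 = _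
    rw [Nat.shiftRight_eq_div_pow]
    unfold dg
    rw [show 936 * c = 104 * (9 * c) by ring]

/-- total of the unsigned digits -/
noncomputable def tot (n : ℕ) (A : ℕ → ℕ) : ℕ :=
  Nat.mod (colSum n (rowTree n A)) (Nat.sub (Nat.pow 2 832) 1)

lemma pk_modEq (w N : ℕ) (u : ℕ → ℕ) : pk w N u ≡ ∑ s ∈ range N, u s [MOD (2 ^ w - 1)] := by
  unfold pk
  induction N with
  | zero => simp; rfl
  | succ N ih =>
    rw [sum_range_succ, sum_range_succ]
    apply Nat.ModEq.add ih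
    have h1 : 2 ^ w ≡ 1 [MOD (2 ^ w - 1)] :=
      ((Nat.modEq_iff_dvd' Nat.one_le_two_pow).mpr (dvd_refl _)).symm
    have h2 : 2 ^ (w * N) ≡ 1 [MOD (2 ^ w - 1)] := by
      rw [pow_mul]
      simpa using h1.pow N
    simpa using h2.mul_left (u N)

lemma tot_eq {n : ℕ} (hn : 1 ≤ n) (hn2 : n ≤ 1024) {A : ℕ → ℕ} (hA : Good n A) :
    tot n A = ∑ i ∈ range n, ∑ j ∈ range n, udig A i j := by
  have h1 : tot n A = colSum n (rowTree n A) % (2 ^ 832 - 1) := rfl
  rw [h1, colSum_rowTree hn hn2 hA]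
  have h2 := pk_modEq 832 n (fun j => ∑ k ∈ range n, udig A k j)
  rw [h2, Nat.mod_eq_of_lt, sum_comm]
  calc ∑ j ∈ range n, ∑ k ∈ range n, udig A k j ≤ n * (n * 2 ^ 46) :=
        sum_bound (fun j hj => sum_bound (fun k hk => (hA.udig_lt hk hj).le))
    _ ≤ 1024 * (1024 * 2 ^ 46) := by gcongr
    _ < 2 ^ 832 - 1 := by norm_num

/-- number of rows of the chunk `I` -/
def cnt (n I : ℕ) : ℕ := Nat.sub 8 (Nat.sub 8 (Nat.sub n (Nat.mul 8 I)))

lemma cnt_eq (n I : ℕ) : cnt n I = min 8 (n - 8 * I) := by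
  show 8 - (8 - (n - 8 * I)) = _
  omega

lemma sum_chunks (n : ℕ) (f : ℕ → ℕ) (m : ℕ) :
    ∑ I ∈ range m, ∑ i ∈ range (cnt n I), f (8 * I + i) = ∑ r ∈ range (min (8 * m) n), f r := by
  induction m with
  | zero => simp
  | succ m ih =>
    rw [sum_range_succ, ih, cnt_eq]
    have : min (8 * (m + 1)) n = min (8 * m) n + min 8 (n - 8 * m) := by omega
    rw [this, sum_range_add]
    congr 1
    by_cases h : 8 * m ≤ n
    · rw [show min (8 * m) n = 8 * m by omega]
    · rw [show n - 8 * m = 0 by omega]; simp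

lemma sum_chunks' (n : ℕ) (f : ℕ → ℕ) :
    ∑ I ∈ range (nch n), ∑ i ∈ range (cnt n I), f (8 * I + i) = ∑ r ∈ range n, f r := by
  rw [sum_chunks]
  have : min (8 * nch n) n = n := by
    have : nch n = (n + 7) / 8 := rfl
    omega
  rw [this]

/-- `∑_{I < N} f I` -/
noncomputable def sumI (f : ℕ → ℕ) (N : ℕ) : ℕ :=
  Nat.rec (motive := fun _ => ℕ) 0 (fun I ih => Nat.add ih (f I)) N

lemma sumI_eq (f : ℕ → ℕ) (N : ℕ) : sumI f N = ∑ I ∈ range N, f I := by
  induction N with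
  | zero => rfl
  | succ N ih =>
    rw [sum_range_succ, ← ih]
    rfl

noncomputable def trSum (n : ℕ) (A B : ℕ → ℕ) : ℕ :=
  sumI (fun I => diag (cnt n I) ((shape n).app (fun k c => Nat.mul c (subRow B I k)) (A I))) (nch n)

/-- kernel check that `tr (A B) = tp - 2^120` -/
noncomputable def traceOK (n : ℕ) (A B : ℕ → ℕ) (tp : ℕ) : Bool :=
  Nat.beq (Nat.add (Nat.add (trSum n A B) (Nat.mul (Nat.mul n n) (Nat.pow 2 90))) (Nat.pow 2 120))
    (Nat.add tp (Nat.mul (Nat.pow 2 45) (Nat.add (tot n A) (tot n B))))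

lemma trSum_eq {n : ℕ} (hn : 1 ≤ n) (hn2 : n ≤ 1024) {A B : ℕ → ℕ} (hA : Good n A)
    (hB : Good n B) :
    trSum n A B = ∑ i ∈ range n, ∑ k ∈ range n, udig A i k * udig B k i := by
  unfold trSum
  rw [sumI_eq, ← sum_chunks' n (fun i => ∑ k ∈ range n, udig A i k * udig B k i)]
  apply sum_congr rfl
  intro I hI
  have hI' : 8 * I < n := by
    have h1 := mem_range.mp hI
    have h2 : nch n = (n + 7) / 8 := rfl
    omega
  rw [diag_eq]
  apply sum_congr rfl
  intro i hi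
  have hi2 := mem_range.mp hi
  rw [cnt_eq] at hi2
  have hi8 : i < 8 := by omega
  have hin : 8 * I + i < n := by omega
  rw [chunk_eq (hA I hI').1, (shape_spec hn hn2).app_eq _ (fun k _ => block_lt _ _)]
  have e1 : ∀ k ∈ range n, (fun k c => Nat.mul c (subRow B I k)) k
      (pk 104 8 (fun i => dg 104 (A I) (i + 8 * k))) =
      pk 104 8 (fun i => dg 104 (A I) (i + 8 * k)) * pk 832 8 (fun j => udig B k (8 * I + j)) := by
    intro k _
    show _ * subRow B I k = _
    rw [subRow_eq]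
  rw [sum_congr rfl e1, pk_mul_pk_sum 8 n (fun i k => dg 104 (A I) (i + 8 * k))
    (fun k j => udig B k (8 * I + j)), pk2, show (9 * i) = i + 8 * i by ring]
  by_cases hcol : True
  · rw [dg_pk]
    · simp only [show (i + 8 * i) % 8 = i by omega, show (i + 8 * i) / 8 = i by omega]
      apply sum_congr rfl
      intro k _
      congr 1
      unfold udig
      rw [show (8 * I + i) / 8 = I by omega, show (8 * I + i) % 8 = i by omega]
    · intro s hs
      have hb : ∀ k < n, dg 104 (A I) (s % 8 + 8 * k) * udig B k (8 * I + s / 8) ≤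
          2 ^ 46 * 2 ^ 46 := by
        intro k hk
        apply Nat.mul_le_mul ((hA I hI').2 _ (by omega)).le
        by_cases hc : 8 * I + s / 8 < n
        · exact (hB.udig_lt hk hc).le
        · have : udig B k (8 * I + s / 8) = 0 := by
            unfold udig dg
            rw [Nat.div_eq_of_lt]
            · simp
            · calc B (k / 8) < 2 ^ (104 * (8 * n)) := (hB (k / 8) (by omega)).1
                _ ≤ _ := Nat.pow_le_pow_right (by norm_num) (by omega)
          rw [this]; positivity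
      calc _ ≤ n * (2 ^ 46 * 2 ^ 46) := sum_bound hb
        _ ≤ 1024 * (2 ^ 46 * 2 ^ 46) := Nat.mul_le_mul_right _ hn2
        _ < 2 ^ 104 := by norm_num
    · omega
  · exact absurd trivial hcol

theorem traceOK_spec {n : ℕ} (hn : 1 ≤ n) (hn2 : n ≤ 1024) {A B : ℕ → ℕ} (hA : Good n A)
    (hB : Good n B) {tp : ℕ} (h : traceOK n A B tp = true) :
    ∑ i ∈ range n, ∑ k ∈ range n, ent A i k * ent B k i = (tp : ℤ) - 2 ^ 120 := by
  have h1 : trSum n A B + n * n * 2 ^ 90 + 2 ^ 120 = tp + 2 ^ 45 * (tot n A + tot n B) :=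
    Nat.eq_of_beq_eq_true h
  rw [trSum_eq hn hn2 hA hB, tot_eq hn hn2 hA, tot_eq hn hn2 hB] at h1
  have h2 : ∑ i ∈ range n, ∑ k ∈ range n, ent A i k * ent B k i =
      ((∑ i ∈ range n, ∑ k ∈ range n, udig A i k * udig B k i : ℕ) : ℤ)
       - 2 ^ 45 * ((∑ i ∈ range n, ∑ j ∈ range n, udig B i j : ℕ) : ℤ)
       - 2 ^ 45 * ((∑ i ∈ range n, ∑ j ∈ range n, udig A i j : ℕ) : ℤ) + n * n * 2 ^ 90 := by
    have e : ∑ i ∈ range n, ∑ j ∈ range n, udig B i j = ∑ i ∈ range n, ∑ k ∈ range n, udig B k i :=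
      sum_comm
    rw [e]
    simp only [sum_ent_mul]
    rw [sum_add_distrib, sum_sub_distrib, sum_sub_distrib]
    simp only [Nat.cast_sum, ← mul_sum, sum_const, card_range, nsmul_eq_mul]
    ring
  rw [h2]
  have h3 : ((∑ i ∈ range n, ∑ k ∈ range n, udig A i k * udig B k i : ℕ) : ℤ) +
      n * n * 2 ^ 90 + 2 ^ 120 = tp + 2 ^ 45 *
      (((∑ i ∈ range n, ∑ j ∈ range n, udig A i j : ℕ) : ℤ) +
        ((∑ i ∈ range n, ∑ j ∈ range n, udig B i j : ℕ) : ℤ)) := by
    exact_mod_cast h1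
  linarith

/-! ## Sums of squares -/

/-- spread the 8 slots of a block to distance 8 -/
def spread (c : ℕ) : ℕ := Nat.land (Nat.mul c (rep 728 8)) (maskRow 8)

lemma spread_def (c : ℕ) : spread c = (c * rep 728 8) &&& maskRow 8 := rfl

lemma spread_eq {a : ℕ → ℕ} (ha : ∀ i < 8, a i < 2 ^ 46) :
    spread (pk 104 8 a) = pk 832 8 a := by
  -- the product `(∑ a_i X^i) (∑ X^{7t})`
  set e : ℕ → ℕ := fun s => ∑ i ∈ range 8, ∑ t ∈ range 8, if s = i + 7 * t then a i else 0 with he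
  have hprod : pk 104 8 a * rep 728 8 = pk 104 64 e := by
    rw [rep_eq (by norm_num)]
    unfold pk
    rw [sum_mul_sum]
    have h1 : ∀ s ∈ range 64, e s * 2 ^ (104 * s) = ∑ i ∈ range 8, ∑ t ∈ range 8,
        if s = i + 7 * t then a i * 2 ^ (104 * s) else 0 := by
      intro s _
      rw [he]
      simp only [sum_mul, ite_mul, zero_mul]
    rw [sum_congr rfl h1]
    conv_rhs => rw [sum_comm]
    apply sum_congr rfl
    intro i hi
    conv_rhs => rw [sum_comm]
    apply sum_congr rfl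
    intro t ht
    have hi' := mem_range.mp hi
    have ht' := mem_range.mp ht
    rw [sum_ite_eq' (range 64) (i + 7 * t) (fun s => a i * 2 ^ (104 * s)),
      if_pos (mem_range.mpr (by omega))]
    have e3 : 104 * (i + 7 * t) = 104 * i + 728 * t := by ring
    rw [e3, pow_add, pow_mul 2 728 t, mul_assoc]
  have helt : ∀ s < 64, e s < 2 ^ 104 := by
    intro s _
    calc e s ≤ 8 * (8 * 2 ^ 46) := by
          apply sum_bound
          intro i hi
          apply sum_bound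
          intro t _
          split_ifs
          · exact (ha i hi).le
          · positivity
      _ < 2 ^ 104 := by norm_num
  rw [spread_def, land_maskRow, hprod]
  apply pk_congr
  intro j hj
  rw [dg_pk helt (by omega), he]
  have h3 : ∀ i ∈ range 8, ∑ t ∈ range 8, (if 8 * j = i + 7 * t then a i else 0) =
      if i = j then a i else 0 := by
    intro i hi
    have hi' := mem_range.mp hi
    by_cases hij : i = j
    · subst hij
      rw [if_pos rfl, sum_eq_single i]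
      · rw [if_pos (by ring)]
      · intro t ht hne
        have ht' := mem_range.mp ht
        rw [if_neg (by omega)]
      · intro h
        exact absurd (mem_range.mpr hi') h
    · rw [if_neg hij]
      apply sum_eq_zero
      intro t ht
      have ht' := mem_range.mp ht
      rw [if_neg (by omega)]
  show ∑ i ∈ range 8, ∑ t ∈ range 8, (if 8 * j = i + 7 * t then a i else 0) = a j
  rw [sum_congr rfl h3, sum_ite_eq' (range 8) j a, if_pos (mem_range.mpr hj)]

noncomputable def sqSum (n : ℕ) (A : ℕ → ℕ) : ℕ :=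
  sumI (fun I => diag (cnt n I) ((shape n).app (fun _ c => Nat.mul c (spread c)) (A I))) (nch n)

lemma sqSum_eq {n : ℕ} (hn : 1 ≤ n) (hn2 : n ≤ 1024) {A : ℕ → ℕ} (hA : Good n A) :
    sqSum n A = ∑ i ∈ range n, ∑ k ∈ range n, udig A i k * udig A i k := by
  unfold sqSum
  rw [sumI_eq, ← sum_chunks' n (fun i => ∑ k ∈ range n, udig A i k * udig A i k)]
  apply sum_congr rfl
  intro I hI
  have hI' : 8 * I < n := by
    have h1 := mem_range.mp hI
    have h2 : nch n = (n + 7) / 8 := rfl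
    omega
  rw [diag_eq]
  apply sum_congr rfl
  intro i hi
  have hi2 := mem_range.mp hi
  rw [cnt_eq] at hi2
  have hi8 : i < 8 := by omega
  rw [chunk_eq (hA I hI').1, (shape_spec hn hn2).app_eq _ (fun k _ => block_lt _ _)]
  have e1 : ∀ k ∈ range n, (fun (_ : ℕ) c => Nat.mul c (spread c)) k
      (pk 104 8 (fun i => dg 104 (A I) (i + 8 * k))) =
      pk 104 8 (fun i => dg 104 (A I) (i + 8 * k)) *
        pk 832 8 (fun j => dg 104 (A I) (j + 8 * k)) := by
    intro k hk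
    have hk' := mem_range.mp hk
    show _ * spread _ = _
    rw [spread_eq (fun i hi => (hA I hI').2 _ (by omega))]
  rw [sum_congr rfl e1, pk_mul_pk_sum 8 n (fun i k => dg 104 (A I) (i + 8 * k))
    (fun k j => dg 104 (A I) (j + 8 * k)), pk2, show (9 * i) = i + 8 * i by ring]
  rw [dg_pk]
  · simp only [show (i + 8 * i) % 8 = i by omega, show (i + 8 * i) / 8 = i by omega]
    apply sum_congr rfl
    intro k _
    unfold udig
    rw [show (8 * I + i) / 8 = I by omega, show (8 * I + i) % 8 = i by omega]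
  · intro s hs
    have hb : ∀ k < n, dg 104 (A I) (s % 8 + 8 * k) * dg 104 (A I) (s / 8 + 8 * k) ≤
        2 ^ 46 * 2 ^ 46 := by
      intro k hk
      exact Nat.mul_le_mul ((hA I hI').2 _ (by omega)).le ((hA I hI').2 _ (by omega)).le
    calc _ ≤ n * (2 ^ 46 * 2 ^ 46) := sum_bound hb
      _ ≤ 1024 * (2 ^ 46 * 2 ^ 46) := Nat.mul_le_mul_right _ hn2
      _ < 2 ^ 104 := by norm_num
  · omega

/-- kernel check that `∑ (ent A i j)^2 ≤ s` -/
noncomputable def sqOK (n : ℕ) (A : ℕ → ℕ) (s : ℕ) : Bool :=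
  Nat.ble (Nat.add (sqSum n A) (Nat.mul (Nat.mul n n) (Nat.pow 2 90)))
    (Nat.add s (Nat.mul (Nat.pow 2 46) (tot n A)))

theorem sqOK_spec {n : ℕ} (hn : 1 ≤ n) (hn2 : n ≤ 1024) {A : ℕ → ℕ} (hA : Good n A)
    {s : ℕ} (h : sqOK n A s = true) :
    ∑ i ∈ range n, ∑ k ∈ range n, ent A i k ^ 2 ≤ (s : ℤ) := by
  have h1 : sqSum n A + n * n * 2 ^ 90 ≤ s + 2 ^ 46 * tot n A := Nat.le_of_ble_eq_true h
  rw [sqSum_eq hn hn2 hA, tot_eq hn hn2 hA] at h1
  have h2 : ∑ i ∈ range n, ∑ k ∈ range n, ent A i k ^ 2 =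
      ((∑ i ∈ range n, ∑ k ∈ range n, udig A i k * udig A i k : ℕ) : ℤ)
       - 2 ^ 46 * ((∑ i ∈ range n, ∑ j ∈ range n, udig A i j : ℕ) : ℤ) + n * n * 2 ^ 90 := by
    have e2 : (n : ℤ) * n * 2 ^ 90 = ∑ _i ∈ range n, ∑ _k ∈ range n, (2 : ℤ) ^ 90 := by
      simp; ring
    rw [e2]
    simp only [Nat.cast_sum, Nat.cast_mul, mul_sum]
    rw [← sum_sub_distrib, ← sum_add_distrib]
    apply sum_congr rfl
    intro i _
    rw [← sum_sub_distrib, ← sum_add_distrib]
    apply sum_congr rfl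
    intro k _
    unfold ent
    ring
  rw [h2]
  have h3 : ((∑ i ∈ range n, ∑ k ∈ range n, udig A i k * udig A i k : ℕ) : ℤ) +
      n * n * 2 ^ 90 ≤ s + 2 ^ 46 * ((∑ i ∈ range n, ∑ j ∈ range n, udig A i j : ℕ) : ℤ) := by
    exact_mod_cast h1
  linarith

/-! ## Matrix versions -/

/-- the integer matrix of a packed matrix -/
def mat (n : ℕ) (A : ℕ → ℕ) : Matrix (Fin n) (Fin n) ℤ := Matrix.of fun i j => ent A i j

@[simp] lemma mat_apply (n : ℕ) (A : ℕ → ℕ) (i j : Fin n) : mat n A i j = ent A i j := rfl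

theorem mat_mul {n : ℕ} (hn : 1 ≤ n) (hn2 : n ≤ 1024) {A B C : ℕ → ℕ} (hA : Good n A)
    (hB : Good n B) (h : mulOK n A B C = true) :
    Good n C ∧ ∀ i j, |(mat n A * mat n B) i j - 2 ^ 44 * mat n C i j| ≤ 2 ^ 44 := by
  obtain ⟨hC, h2⟩ := mulOK_spec hn hn2 hA hB h
  refine ⟨hC, fun i j => ?_⟩
  obtain ⟨h3, h4⟩ := h2 i i.2 j j.2
  rw [Matrix.mul_apply]
  simp only [mat_apply]
  rw [Fin.sum_univ_eq_sum_range (fun k => ent A i k * ent B k j) n, abs_of_nonneg h3]
  exact h4.le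

theorem mat_mul2 {n : ℕ} (hn : 1 ≤ n) (hn2 : n ≤ 512) {A B A' B' C : ℕ → ℕ} (hA : Good n A)
    (hB : Good n B) (hA' : Good n A') (hB' : Good n B') (h : mul2OK n A B A' B' C = true) :
    Good n C ∧ ∀ i j, |(mat n A * mat n B + mat n A' * mat n B') i j - 2 ^ 44 * mat n C i j|
      ≤ 2 ^ 44 := by
  obtain ⟨hC, h2⟩ := mul2OK_spec hn hn2 hA hB hA' hB' h
  refine ⟨hC, fun i j => ?_⟩
  obtain ⟨h3, h4⟩ := h2 i i.2 j j.2
  rw [Matrix.add_apply, Matrix.mul_apply, Matrix.mul_apply]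
  simp only [mat_apply]
  rw [Fin.sum_univ_eq_sum_range (fun k => ent A i k * ent B k j) n,
    Fin.sum_univ_eq_sum_range (fun k => ent A' i k * ent B' k j) n, abs_of_nonneg h3]
  exact h4.le

theorem mat_trace {n : ℕ} (hn : 1 ≤ n) (hn2 : n ≤ 1024) {A B : ℕ → ℕ} (hA : Good n A)
    (hB : Good n B) {tp : ℕ} (h : traceOK n A B tp = true) :
    (mat n A * mat n B).trace = (tp : ℤ) - 2 ^ 120 := by
  rw [← traceOK_spec hn hn2 hA hB h, Matrix.trace]
  simp only [Matrix.diag_apply, Matrix.mul_apply, mat_apply]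
  rw [← Fin.sum_univ_eq_sum_range (fun i => ∑ k ∈ range n, ent A i k * ent B k i) n]
  apply sum_congr rfl
  intro i _
  rw [← Fin.sum_univ_eq_sum_range (fun k => ent A i k * ent B k i) n]

theorem mat_sq {n : ℕ} (hn : 1 ≤ n) (hn2 : n ≤ 1024) {A : ℕ → ℕ} (hA : Good n A)
    {s : ℕ} (h : sqOK n A s = true) : ∑ i, ∑ j, mat n A i j ^ 2 ≤ (s : ℤ) := by
  refine le_trans (le_of_eq ?_) (sqOK_spec hn hn2 hA h)
  simp only [mat_apply]
  rw [← Fin.sum_univ_eq_sum_range (fun i => ∑ k ∈ range n, ent A i k ^ 2) n]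
  apply sum_congr rfl
  intro i _
  rw [← Fin.sum_univ_eq_sum_range (fun k => ent A i k ^ 2) n]

end Crest.Agent.R347.Packed
end

-- ▼ part R347/PackedEval

/-!
# Untrusted evaluators (used only inside `eval%` to produce literals), list access
-/

namespace Crest.Agent.R347.Packed

/-- list access, in kernel-friendly form -/
noncomputable def getN (l : List ℕ) : ℕ → ℕ :=
  List.rec (motive := fun _ => ℕ → ℕ) (fun _ => 0)
    (fun a _ ih i => Nat.rec (motive := fun _ => ℕ) a (fun j _ => ih j) i) l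


namespace Ev

def rep (w n : ℕ) : ℕ := (2 ^ (w * n) - 1) / (2 ^ w - 1)

/-- rows of a packed matrix, spaced by `832` -/
def rows (n : ℕ) (B : List ℕ) : Array ℕ := Id.run do
  let b := B.toArray
  let mask := (2 ^ 104 - 1) * rep 832 n
  let mut r := #[]
  for k in [0:n] do
    r := r.push ((((b.getD (k / 8) 0) >>> (104 * (k % 8))) &&& mask) + 2 ^ (832 * n))
  return r

/-- `∑ A_t B_t`, rounded to `44` bits -/
def mulN (n : ℕ) (ps : List (List ℕ × List ℕ)) : List ℕ := Id.run do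
  let m := n * ps.length
  let full := 2 ^ (832 * n) - 1
  let blk := 2 ^ 832 - 1
  let K := (2 ^ 89 + m * 2 ^ 90) * rep 104 (8 * n)
  let r8 := rep 104 8
  let rn := rep 832 n
  let mid := (2 ^ 90 - 2 ^ 44) * rep 104 (8 * n)
  let data := (ps.map fun p => (p.1.toArray, rows n p.2)).toArray
  let mut g := 0
  for d in data do
    for x in d.2 do
      g := g + x
  g := g &&& full
  let mut out := #[]
  for I in [0:(n + 7) / 8] do
    let mut S := 0
    for d in data do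
      let mut c := d.1.getD I 0
      let mut k := 0
      -- process in pieces of 16 blocks
      let pieceMask := 2 ^ (832 * 16) - 1
      for x in d.2 do
        if k % 16 == 0 then
          c := d.1.getD I 0 >>> (832 * k)
          c := c &&& pieceMask
        S := S + (c &&& blk) * x
        c := c >>> 832
        k := k + 1
    let D := (S &&& full) + K - (2 ^ 45 * g * r8 + 2 ^ 45 * (S >>> (832 * n)) * rn)
    out := out.push ((D &&& mid) >>> 44)
  return out.toList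

def mul (n : ℕ) (A B : List ℕ) : List ℕ := mulN n [(A, B)]
def mul2 (n : ℕ) (A B A' B' : List ℕ) : List ℕ := mulN n [(A, B), (A', B')]

/-- decoded entries -/
def ents (n : ℕ) (A : List ℕ) : Array (Array ℤ) := Id.run do
  let a := A.toArray
  let mut out := #[]
  for i in [0:n] do
    let mut c := (a.getD (i / 8) 0) >>> (104 * (i % 8))
    let mut row := #[]
    for _ in [0:n] do
      row := row.push (((c &&& (2 ^ 104 - 1) : ℕ) : ℤ) - 2 ^ 45)
      c := c >>> 832
    out := out.push row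
  return out

/-- `tr (A B)` (scale `2^88`) -/
def traceZ (n : ℕ) (A B : List ℕ) : ℤ := Id.run do
  let a := ents n A
  let b := ents n B
  let mut t : ℤ := 0
  for i in [0:n] do
    let r := a.getD i #[]
    for k in [0:n] do
      t := t + r.getD k 0 * (b.getD k #[]).getD i 0
  return t

/-- argument `tp` for `traceOK` -/
def trace (n : ℕ) (A B : List ℕ) : ℕ := (traceZ n A B + 2 ^ 120).toNat

/-- `∑ ent^2` (scale `2^88`) -/
def sq (n : ℕ) (A : List ℕ) : ℕ := Id.run do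
  let a := ents n A
  let mut t : ℤ := 0
  for i in [0:n] do
    let r := a.getD i #[]
    for k in [0:n] do
      t := t + r.getD k 0 * r.getD k 0
  return t.toNat

/-- rounding of the exact rows (slot width 832, offset `2^200`), cf. `roundOK n u s` -/
def roundRows (n u s : ℕ) (R : ℕ → ℕ) : List ℕ := Id.run do
  let rn := rep 832 n
  let mask := (2 ^ (s + 46) - 2 ^ s) * rn
  let mut out := #[]
  for I in [0:(n + 7) / 8] do
    let mut c := 0
    for i in [0:8] do
      let r := 8 * I + i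
      if r < n then
        let D := 2 ^ u * R r + 2 ^ (45 + s) * rn - 2 ^ (u + 200) * rn
        c := c + (((D &&& mask) >>> s) <<< (104 * i))
      else
        c := c + ((2 ^ 45 * rn) <<< (104 * i))
    out := out.push c
  return out.toList


end Ev

end Crest.Agent.R347.Packed
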