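import Crest.Agent.R347.Open
import Crest.Agent.R347.Crossing
import Crest.Agent.R347.Joint
import Crest.Agent.R347.CrossingPSL
import Crest.Agent.R347.Closure545
import Crest.Agent.R347.Recursion
import Crest.Agent.R347.Direct
import Crest.Agent.R347.OpenDirect
import Crest.Agent.R347.OpenRecursion
import Crest.Agent.R347.NumT4
import Crest.Agent.R347.NumT6
import Crest.Agent.R347.NumT8
import Crest.Agent.R347.RingSec5
import Crest.Agent.R347.RingSec4
import Crest.Agent.R347.RingSec3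
import Crest.Agent.R347.RingSec2
import Crest.Agent.R347.RingSec1
import Crest.Agent.R347.RingSec0

-- ▼ part R347/OpenCrossing
section

/-! Crossing for open chains with end fields. -/

set_option autoImplicit false

namespace Crest.Agent.R347

open Matrix Filter Topology Crest.MathPhysics.SpinChain

/-- Boundary label weights: `(1, 0, 0, -i e h)`. -/
noncomputable def bv (h e : ℝ) (a : Fin 4) : ℂ :=
  if a = 0 then 1 else if a = 3 then -(Complex.I * (e * h : ℝ)) else 0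

/-- Real part of the boundary vector (even number of labels `3`). -/
noncomputable def bp (h e : ℝ) (n : ℕ) (ω : Fin n → Fin 4) : ℝ := (∏ k, bv h e (ω k)).re
/-- Imaginary part of the boundary vector (odd number of labels `3`). -/
noncomputable def bq (h e : ℝ) (n : ℕ) (ω : Fin n → Fin 4) : ℝ := (∏ k, bv h e (ω k)).im

/-- Boundary weights without the coupling. -/
noncomputable def bt (h : ℝ) (a : Fin 4) : ℂ :=
  if a = 0 then 1 else if a = 3 then -(h : ℂ) else 0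

@[simp] theorem bt_zero (h : ℝ) : bt h 0 = 1 := rfl

theorem bt_succ (h : ℝ) (c : Fin 3) : bt h c.succ = if c = 2 then -(h : ℂ) else 0 := by
  unfold bt
  rw [if_neg (Fin.succ_ne_zero c)]
  fin_cases c <;> rfl

theorem bv_eq (h e : ℝ) (a : Fin 4) : bv h e a = bt h a * (Complex.I * e) ^ wt a := by
  refine Fin.cases ?_ (fun c => ?_) a
  · simp [bv, bt]
  · rw [bt_succ, wt_succ, pow_one]
    unfold bv
    rw [if_neg (Fin.succ_ne_zero c)]
    fin_cases c
    · simp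
    · simp
    · show (if (3 : Fin 4) = 3 then -(Complex.I * ((e * h : ℝ) : ℂ)) else 0) = _
      rw [if_pos rfl]
      push_cast
      simp
      ring

/-- The operator attached to a label configuration of the open chain. -/
noncomputable def Yopen (n : ℕ) (a : Fin (n + 2) → Fin 4) :
    Matrix (Fin (n + 1) → Fin 3) (Fin (n + 1) → Fin 3) ℂ :=
  piK (fun j : Fin (n + 1) => Mten spinOp 1 (a j.castSucc) (a j.succ))

theorem Gopen_eq_sum (hl hr e : ℝ) (n : ℕ) :
    Gopen (bv hl e) (bv hr e) (Mten (fun c => Complex.I • spinOp c) (e : ℂ)) (n + 1) =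
      ∑ a : Fin (n + 2) → Fin 4,
        (bt hl (a 0) * bt hr (a (Fin.last (n + 1))) * (-((e : ℂ) ^ 2)) ^ NN a) • Yopen n a := by
  unfold Gopen Yopen
  refine Finset.sum_congr rfl fun a _ => ?_
  have h1 : (fun j : Fin (n + 1) => Mten (fun c => Complex.I • spinOp c) (e : ℂ)
      (a j.castSucc) (a j.succ)) =
      fun j : Fin (n + 1) => ((Complex.I * e) ^ (wt (a j.castSucc) + wt (a j.succ))) •
        Mten spinOp 1 (a j.castSucc) (a j.succ) := by
    funext j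
    exact Mten_scale _ _ _ _
  rw [h1, piK_smul, smul_smul]
  congr 1
  rw [Finset.prod_pow_eq_pow_sum, Finset.sum_add_distrib, bv_eq, bv_eq]
  have h2 : (wt (a 0) + wt (a (Fin.last (n + 1)))) +
      (∑ j : Fin (n + 1), wt (a j.castSucc) + ∑ j : Fin (n + 1), wt (a j.succ)) = 2 * NN a := by
    have e1 : NN a = wt (a 0) + ∑ j : Fin (n + 1), wt (a j.succ) := by
      unfold NN
      exact Fin.sum_univ_succ _
    have e2 : NN a = ∑ j : Fin (n + 1), wt (a j.castSucc) + wt (a (Fin.last (n + 1))) := by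
      unfold NN
      exact Fin.sum_univ_castSucc _
    omega
  have h3 : (-((e : ℂ) ^ 2)) ^ NN a = (Complex.I * e) ^ (2 * NN a) := by
    rw [pow_mul]
    congr 1
    rw [mul_pow, Complex.I_sq]
    ring
  rw [h3, ← h2, pow_add, pow_add]
  ring

theorem Yopen_zero (n : ℕ) : Yopen n 0 = 1 := by
  unfold Yopen
  have : (fun j : Fin (n + 1) => Mten spinOp (1 : ℂ)
      ((0 : Fin (n + 2) → Fin 4) j.castSucc)
      ((0 : Fin (n + 2) → Fin 4) j.succ)) = fun _ => 1 := by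
    funext j
    simp
  rw [this, piK_one]

theorem Yopen_single_zero (n : ℕ) (c : Fin 3) :
    Yopen n (Pi.single 0 c.succ) = onSite (spinOp c) 0 := by
  unfold Yopen
  rw [onSite_eq_piK]
  congr 1
  funext k
  rw [Pi.single_eq_of_ne (Fin.succ_ne_zero k)]
  by_cases h : k = 0
  · subst h
    rw [Fin.castSucc_zero, Pi.single_eq_same, if_pos rfl]
    simp
  · rw [if_neg h, Pi.single_eq_of_ne (by
      intro h'
      apply h
      rw [← Fin.castSucc_zero] at h'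
      exact Fin.castSucc_injective _ h')]
    simp

theorem Yopen_single_last (n : ℕ) (c : Fin 3) :
    Yopen n (Pi.single (Fin.last (n + 1)) c.succ) = onSite (spinOp c) (Fin.last n) := by
  unfold Yopen
  rw [onSite_eq_piK]
  congr 1
  funext k
  rw [Pi.single_eq_of_ne (Fin.castSucc_lt_last k).ne]
  by_cases h : k = Fin.last n
  · subst h
    rw [Fin.succ_last, Pi.single_eq_same, if_pos rfl]
    simp
  · rw [if_neg h, Pi.single_eq_of_ne (by
      intro h'
      apply h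
      rw [← Fin.succ_last] at h'
      exact Fin.succ_injective _ h')]
    simp

theorem Yopen_single_mid (n : ℕ) (i : Fin n) (c : Fin 3) :
    Yopen n (Pi.single i.succ.castSucc c.succ) =
      onSite (spinOp c) i.castSucc * onSite (spinOp c) i.succ := by
  unfold Yopen
  rw [onSite_eq_piK, onSite_eq_piK, piK_mul]
  congr 1
  funext k
  by_cases h1 : k = i.succ
  · subst h1
    have hne : (i.succ : Fin (n + 1)) ≠ i.castSucc := (Fin.castSucc_lt_succ (i := i)).ne'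
    have hne2 : (i.succ.succ : Fin (n + 2)) ≠ i.succ.castSucc :=
      (Fin.castSucc_lt_succ (i := i.succ)).ne'
    rw [Pi.single_eq_same, Pi.single_eq_of_ne hne2, if_neg hne, if_pos rfl]
    simp
  · have hc : (k.castSucc : Fin (n + 2)) ≠ i.succ.castSucc := fun h =>
      h1 (Fin.castSucc_injective _ h)
    rw [Pi.single_eq_of_ne hc, if_neg h1]
    by_cases h2 : k = i.castSucc
    · subst h2
      rw [← Fin.succ_castSucc, Pi.single_eq_same, if_pos rfl]
      simp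
    · have hs : (k.succ : Fin (n + 2)) ≠ i.succ.castSucc := fun h => by
        rw [← Fin.succ_castSucc] at h
        exact h2 (Fin.succ_injective _ h)
      rw [Pi.single_eq_of_ne hs, if_neg h2]
      simp

/-- `Gopen` is `1 - e² H + O(e⁴)`, entrywise. -/
theorem Gopen_expand (hl hr : ℝ) (n : ℕ) :
    ∃ C : ℝ, ∀ e : ℝ, 0 ≤ e → e ≤ 1 → ∀ σ τ,
      ‖(Gopen (bv hl e) (bv hr e) (Mten (fun c => Complex.I • spinOp c) (e : ℂ)) (n + 1)
        - (1 - ((e : ℂ) ^ 2) • openH n hl hr)) σ τ‖ ≤ C * e ^ 4 := by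
  classical
  set w : (Fin (n + 2) → Fin 4) → ℂ := fun ω => bt hl (ω 0) * bt hr (ω (Fin.last (n + 1)))
    with hw
  refine ⟨∑ σ, ∑ τ, ∑ ω : Fin (n + 2) → Fin 4, ‖w ω * Yopen n ω σ τ‖, ?_⟩
  intro e he0 he1 σ τ
  have hsplit : Gopen (bv hl e) (bv hr e) (Mten (fun c => Complex.I • spinOp c) (e : ℂ)) (n + 1)
        - (1 - ((e : ℂ) ^ 2) • openH n hl hr) =
      ∑ ω ∈ Finset.univ.filter (fun ω : Fin (n + 2) → Fin 4 => 2 ≤ NN ω),
        (w ω * (-((e : ℂ) ^ 2)) ^ NN ω) • Yopen n ω := by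
    rw [Gopen_eq_sum, sum_split]
    have h0 : (bt hl ((0 : Fin (n + 2) → Fin 4) 0) *
        bt hr ((0 : Fin (n + 2) → Fin 4) (Fin.last (n + 1))) *
        (-((e : ℂ) ^ 2)) ^ NN (0 : Fin (n + 2) → Fin 4)) • Yopen n 0 = 1 := by
      have : NN (0 : Fin (n + 2) → Fin 4) = 0 := (NN_eq_zero_iff _).mpr rfl
      rw [this, Yopen_zero]
      simp
    have h1 : ∑ j : Fin (n + 2), ∑ c : Fin 3,
        (bt hl ((Pi.single j c.succ : Fin (n + 2) → Fin 4) 0) *
          bt hr ((Pi.single j c.succ : Fin (n + 2) → Fin 4) (Fin.last (n + 1))) *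
          (-((e : ℂ) ^ 2)) ^ NN (Pi.single j c.succ : Fin (n + 2) → Fin 4)) •
          Yopen n (Pi.single j c.succ) = -(((e : ℂ) ^ 2) • openH n hl hr) := by
      have hlast : (Fin.last (n + 1) : Fin (n + 2)) ≠ 0 := (Fin.last_pos).ne'
      rw [Fin.sum_univ_succ, Fin.sum_univ_castSucc (n := n)]
      have t0 : ∑ c : Fin 3,
          (bt hl ((Pi.single 0 c.succ : Fin (n + 2) → Fin 4) 0) *
          bt hr ((Pi.single 0 c.succ : Fin (n + 2) → Fin 4) (Fin.last (n + 1))) *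
          (-((e : ℂ) ^ 2)) ^ NN (Pi.single 0 c.succ : Fin (n + 2) → Fin 4)) •
          Yopen n (Pi.single 0 c.succ) = ((e : ℂ) ^ 2 * hl) • onSite spinZ 0 := by
        rw [Fin.sum_univ_three]
        simp only [Pi.single_eq_same, NN_single, Pi.single_eq_of_ne hlast, bt_succ, bt_zero,
          Yopen_single_zero]
        simp [spinOp]
        ring_nf
      have t1 : ∑ c : Fin 3,
          (bt hl ((Pi.single (Fin.last n).succ c.succ : Fin (n + 2) → Fin 4) 0) *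
          bt hr ((Pi.single (Fin.last n).succ c.succ : Fin (n + 2) → Fin 4) (Fin.last (n + 1))) *
          (-((e : ℂ) ^ 2)) ^ NN (Pi.single (Fin.last n).succ c.succ : Fin (n + 2) → Fin 4)) •
          Yopen n (Pi.single (Fin.last n).succ c.succ) =
            ((e : ℂ) ^ 2 * hr) • onSite spinZ (Fin.last n) := by
        rw [Fin.sum_univ_three, Fin.succ_last]
        simp only [Pi.single_eq_same, NN_single, Pi.single_eq_of_ne hlast.symm, bt_succ, bt_zero,
          Yopen_single_last]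
        simp [spinOp]
        ring_nf
      have t2 : ∀ i : Fin n, ∑ c : Fin 3,
          (bt hl ((Pi.single i.castSucc.succ c.succ : Fin (n + 2) → Fin 4) 0) *
          bt hr ((Pi.single i.castSucc.succ c.succ : Fin (n + 2) → Fin 4) (Fin.last (n + 1))) *
          (-((e : ℂ) ^ 2)) ^ NN (Pi.single i.castSucc.succ c.succ : Fin (n + 2) → Fin 4)) •
          Yopen n (Pi.single i.castSucc.succ c.succ) =
            -(((e : ℂ) ^ 2) • bond i.castSucc i.succ) := by
        intro i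
        have e1 : (i.castSucc.succ : Fin (n + 2)) = i.succ.castSucc := Fin.succ_castSucc i
        have hne0 : (0 : Fin (n + 2)) ≠ i.castSucc.succ := (Fin.succ_ne_zero _).symm
        have hnel : (Fin.last (n + 1) : Fin (n + 2)) ≠ i.castSucc.succ := by
          rw [e1]
          exact (Fin.castSucc_lt_last _).ne'
        unfold bond
        rw [Finset.smul_sum, ← Finset.sum_neg_distrib]
        refine Finset.sum_congr rfl fun c _ => ?_
        rw [Pi.single_eq_of_ne hne0, Pi.single_eq_of_ne hnel, NN_single, e1, Yopen_single_mid]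
        simp
      rw [t0, t1, Finset.sum_congr rfl (fun i _ => t2 i)]
      unfold openH
      rw [Finset.sum_neg_distrib, ← Finset.smul_sum]
      simp only [smul_sub, smul_smul, neg_sub]
      abel
    rw [h0, h1]
    abel
  rw [hsplit, Matrix.sum_apply]
  calc ‖∑ ω ∈ Finset.univ.filter (fun ω : Fin (n + 2) → Fin 4 => 2 ≤ NN ω),
        ((w ω * (-((e : ℂ) ^ 2)) ^ NN ω) • Yopen n ω) σ τ‖
      ≤ ∑ ω ∈ Finset.univ.filter (fun ω : Fin (n + 2) → Fin 4 => 2 ≤ NN ω),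
        ‖((w ω * (-((e : ℂ) ^ 2)) ^ NN ω) • Yopen n ω) σ τ‖ :=
        norm_sum_le _ _
    _ ≤ ∑ ω ∈ Finset.univ.filter (fun ω : Fin (n + 2) → Fin 4 => 2 ≤ NN ω),
        ‖w ω * Yopen n ω σ τ‖ * e ^ 4 := by
        refine Finset.sum_le_sum fun ω hω => ?_
        have h2 : 2 ≤ NN ω := (Finset.mem_filter.mp hω).2
        rw [Matrix.smul_apply, smul_eq_mul]
        have hre : w ω * (-((e : ℂ) ^ 2)) ^ NN ω * Yopen n ω σ τ =
            (w ω * Yopen n ω σ τ) * (-((e : ℂ) ^ 2)) ^ NN ω := by ring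
        rw [hre, norm_mul]
        refine mul_le_mul_of_nonneg_left ?_ (norm_nonneg _)
        rw [norm_pow, norm_neg, norm_pow, Complex.norm_real, Real.norm_of_nonneg he0]
        calc (e ^ 2) ^ NN ω ≤ (e ^ 2) ^ 2 :=
              pow_le_pow_of_le_one (by positivity) (pow_le_one₀ he0 he1) h2
          _ = e ^ 4 := by ring
    _ ≤ ∑ ω : Fin (n + 2) → Fin 4, ‖w ω * Yopen n ω σ τ‖ * e ^ 4 := by
        refine Finset.sum_le_sum_of_subset_of_nonneg (Finset.subset_univ _) ?_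
        intro ω _ _
        positivity
    _ = (∑ ω : Fin (n + 2) → Fin 4, ‖w ω * Yopen n ω σ τ‖) * e ^ 4 := by
        rw [Finset.sum_mul]
    _ ≤ _ := by
        refine mul_le_mul_of_nonneg_right ?_ (by positivity)
        calc ∑ ω : Fin (n + 2) → Fin 4, ‖w ω * Yopen n ω σ τ‖
            ≤ ∑ τ, ∑ ω : Fin (n + 2) → Fin 4, ‖w ω * Yopen n ω σ τ‖ :=
              Finset.single_le_sum (f := fun τ => ∑ ω : Fin (n + 2) → Fin 4,
                ‖w ω * Yopen n ω σ τ‖)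
                (fun τ _ => Finset.sum_nonneg fun ω _ => norm_nonneg _) (Finset.mem_univ τ)
          _ ≤ _ := Finset.single_le_sum (f := fun σ => ∑ τ, ∑ ω : Fin (n + 2) → Fin 4,
                ‖w ω * Yopen n ω σ τ‖)
                (fun σ _ => Finset.sum_nonneg fun τ _ => Finset.sum_nonneg fun ω _ =>
                  norm_nonneg _) (Finset.mem_univ σ)

section norm
attribute [local instance] Matrix.linftyOpNormedRing Matrix.linftyOpNormedAlgebra

/-- General Trotter limit from an entrywise expansion. -/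
theorem pow_tendsto_of_expand {κ : Type*} [Fintype κ] [DecidableEq κ] (F : ℝ → Matrix κ κ ℂ)
    (H : Matrix κ κ ℂ)
    (hF : ∃ C : ℝ, ∀ e : ℝ, 0 ≤ e → e ≤ 1 → ∀ σ τ,
      ‖(F e - (1 - ((e : ℂ) ^ 2) • H)) σ τ‖ ≤ C * e ^ 4) (β : ℝ) (hβ : 0 < β) :
    Tendsto (fun n : ℕ => (F (Real.sqrt (β / n))) ^ n) atTop
      (𝓝 (NormedSpace.exp (-(β : ℂ) • H))) := by
  obtain ⟨C, hC⟩ := hF
  set X : Matrix κ κ ℂ := -(β : ℂ) • H with hX
  let G : ℕ → Matrix κ κ ℂ := fun n =>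
    if β ≤ n then F (Real.sqrt (β / n)) else 1 + ((1 / (n : ℂ)) • X)
  have hC0 : 0 ≤ |C| * β ^ 2 := by positivity
  have key := trotter_limit X G
    (Fintype.card κ * (|C| * β ^ 2)) (by
      intro n hn
      have hn0 : (0 : ℝ) < n := by exact_mod_cast hn
      by_cases hb : β ≤ n
      · simp only [G, if_pos hb]
        have hnn : (0 : ℝ) ≤ β / n := by positivity
        have he1 : Real.sqrt (β / n) ≤ 1 := by
          rw [Real.sqrt_le_one]
          rw [div_le_one hn0]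
          exact hb
        have hsq : ((Real.sqrt (β / n) : ℝ) : ℂ) ^ 2 = (β : ℂ) / n := by
          rw [← Complex.ofReal_pow, Real.sq_sqrt hnn]
          push_cast
          rfl
        have hent := hC (Real.sqrt (β / n)) (Real.sqrt_nonneg _) he1
        have hmat : (1 : Matrix κ κ ℂ) + ((1 / (n : ℂ)) • X) =
            1 - (((Real.sqrt (β / n) : ℝ) : ℂ) ^ 2) • H := by
          rw [hsq, hX, smul_smul, sub_eq_add_neg, ← neg_smul]
          congr 2
          ring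
        rw [hmat]
        have hfour : Real.sqrt (β / n) ^ 4 = β ^ 2 / n ^ 2 := by
          have : Real.sqrt (β / n) ^ 4 = (Real.sqrt (β / n) ^ 2) ^ 2 := by ring
          rw [this, Real.sq_sqrt hnn, div_pow]
        calc _ ≤ (Fintype.card κ : ℝ) * (|C| * (β ^ 2 / n ^ 2)) := by
              refine norm_le_of_entries _ (by positivity) fun σ τ => ?_
              refine (hent σ τ).trans ?_
              rw [hfour]
              exact mul_le_mul_of_nonneg_right (le_abs_self C) (by positivity)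
          _ = _ := by ring
      · simp only [G, if_neg hb, sub_self, norm_zero]
        positivity)
  refine key.congr' ?_
  filter_upwards [eventually_ge_atTop ⌈β⌉₊] with n hn
  have : β ≤ n := (Nat.le_ceil β).trans (by exact_mod_cast hn)
  simp only [G, if_pos this]

end norm

/-- Finite-`n` exchange identity for the open chain. -/
theorem crossing_open_finite (b : Fin 4) (hl hr e : ℝ) (n L : ℕ) :
    (piK (fun _ : Fin L => rotC b) *
      (Gopen (bv hl e) (bv hr e) (Mten (fun c => Complex.I • spinOp c) (e : ℂ)) L) ^ n).trace =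
      (fun ω : Fin n → Fin 4 => ∏ k, bv hl e (ω k)) ⬝ᵥ
        (((tauR b e n) ^ L).map (fun x : ℝ => (x : ℂ))).mulVec
          (fun ω : Fin n → Fin 4 => ∏ k, bv hr e (ω k)) := by
  rw [transfer_identity_open, tau_complex_eq, map_ofReal_pow]

theorem bv_neg (h e : ℝ) (a : Fin 4) : bv (-h) e a = (starRingEnd ℂ) (bv h e a) := by
  unfold bv
  split_ifs <;> simp

theorem bvprod_eq (h e : ℝ) (n : ℕ) (ω : Fin n → Fin 4) :
    ∏ k, bv h e (ω k) = (bp h e n ω : ℂ) + (bq h e n ω : ℂ) * Complex.I :=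
  (Complex.re_add_im _).symm

theorem bvprod_neg_eq (h e : ℝ) (n : ℕ) (ω : Fin n → Fin 4) :
    ∏ k, bv (-h) e (ω k) = (bp h e n ω : ℂ) - (bq h e n ω : ℂ) * Complex.I := by
  simp only [bv_neg]
  rw [← map_prod, bvprod_eq]
  simp [sub_eq_add_neg]

theorem re_quad {κ : Type*} [Fintype κ] (T : Matrix κ κ ℝ) (p q r s : κ → ℝ) :
    ((fun ω => (p ω : ℂ) + (q ω : ℂ) * Complex.I) ⬝ᵥ
      (T.map (fun x : ℝ => (x : ℂ))).mulVec (fun ω => (r ω : ℂ) + (s ω : ℂ) * Complex.I)).re =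
      p ⬝ᵥ T.mulVec r - q ⬝ᵥ T.mulVec s := by
  simp only [dotProduct, Matrix.mulVec, Matrix.map_apply, Complex.re_sum, Complex.mul_re,
    Complex.add_re, Complex.add_im, Complex.ofReal_re, Complex.ofReal_im, Complex.mul_im,
    Complex.I_re, Complex.I_im, Complex.im_sum]
  rw [← Finset.sum_sub_distrib]
  refine Finset.sum_congr rfl fun i _ => ?_
  simp

theorem re_crossing_same (b : Fin 4) (h e : ℝ) (n N : ℕ) :
    ((fun ω : Fin n → Fin 4 => ∏ k, bv h e (ω k)) ⬝ᵥ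
        (((tauR b e n) ^ N).map (fun x : ℝ => (x : ℂ))).mulVec
          (fun ω : Fin n → Fin 4 => ∏ k, bv h e (ω k))).re =
      (bp h e n) ⬝ᵥ ((tauR b e n) ^ N).mulVec (bp h e n) -
      (bq h e n) ⬝ᵥ ((tauR b e n) ^ N).mulVec (bq h e n) := by
  rw [← re_quad]
  congr 2
  · funext ω
    exact bvprod_eq h e n ω
  · congr 1
    funext ω
    exact bvprod_eq h e n ω

theorem re_crossing_opp (b : Fin 4) (h e : ℝ) (n N : ℕ) :
    ((fun ω : Fin n → Fin 4 => ∏ k, bv h e (ω k)) ⬝ᵥ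
        (((tauR b e n) ^ N).map (fun x : ℝ => (x : ℂ))).mulVec
          (fun ω : Fin n → Fin 4 => ∏ k, bv (-h) e (ω k))).re =
      (bp h e n) ⬝ᵥ ((tauR b e n) ^ N).mulVec (bp h e n) +
      (bq h e n) ⬝ᵥ ((tauR b e n) ^ N).mulVec (bq h e n) := by
  have hq : (bq h e n) ⬝ᵥ ((tauR b e n) ^ N).mulVec (bq h e n) =
      -((bq h e n) ⬝ᵥ ((tauR b e n) ^ N).mulVec (fun ω => -(bq h e n ω))) := by
    have : (fun ω => -(bq h e n ω)) = -(bq h e n) := rfl
    rw [this, Matrix.mulVec_neg, dotProduct_neg, neg_neg]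
  rw [hq, ← sub_eq_add_neg, ← re_quad]
  congr 2
  · funext ω
    exact bvprod_eq h e n ω
  · congr 1
    funext ω
    rw [bvprod_neg_eq]
    push_cast
    ring

/-- Common part of the two crossing theorems. -/
theorem Zop_tendsto_aux (b : Fin 4) (hl hr β : ℝ) (hβ : 0 < β) (N : ℕ) (hN : 1 ≤ N) :
    Tendsto (fun n : ℕ => ((fun ω : Fin n → Fin 4 => ∏ k, bv hl (Real.sqrt (β / n)) (ω k)) ⬝ᵥ
        (((tauR b (Real.sqrt (β / n)) n) ^ N).map (fun x : ℝ => (x : ℂ))).mulVec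
          (fun ω : Fin n → Fin 4 => ∏ k, bv hr (Real.sqrt (β / n)) (ω k))).re) atTop
      (𝓝 (Zop b hl hr β N)) := by
  obtain ⟨L, rfl⟩ : ∃ L, N = L + 1 := ⟨N - 1, by omega⟩
  have hlim := pow_tendsto_of_expand
    (fun e : ℝ => Gopen (bv hl e) (bv hr e) (Mten (fun c => Complex.I • spinOp c) (e : ℂ)) (L + 1))
    (openH L hl hr) (Gopen_expand hl hr L) β hβ
  have hcont : Continuous fun M : Matrix (Fin (L + 1) → Fin 3) (Fin (L + 1) → Fin 3) ℂ =>
      ((piK (fun _ : Fin (L + 1) => rotC b) * M).trace).re :=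
    Complex.continuous_re.comp
      (Continuous.matrix_trace (Continuous.matrix_mul continuous_const continuous_id))
  have h2 := (hcont.tendsto _).comp hlim
  unfold Zop
  refine h2.congr fun n => ?_
  simp only [Function.comp]
  rw [crossing_open_finite]

/-- Crossing for the open chain with opposite fields. -/
theorem Zop_tendsto_opp (b : Fin 4) (h β : ℝ) (hβ : 0 < β) (N : ℕ) (hN : 1 ≤ N) :
    Tendsto (fun n : ℕ =>
      (bp h (Real.sqrt (β / n)) n) ⬝ᵥ ((tauR b (Real.sqrt (β / n)) n) ^ N).mulVec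
        (bp h (Real.sqrt (β / n)) n) +
      (bq h (Real.sqrt (β / n)) n) ⬝ᵥ ((tauR b (Real.sqrt (β / n)) n) ^ N).mulVec
        (bq h (Real.sqrt (β / n)) n)) atTop (𝓝 (Zop b h (-h) β N)) :=
  (Zop_tendsto_aux b h (-h) β hβ N hN).congr fun n => re_crossing_opp b h _ n N

/-- Crossing for the open chain with equal fields. -/
theorem Zop_tendsto_same (b : Fin 4) (h β : ℝ) (hβ : 0 < β) (N : ℕ) (hN : 1 ≤ N) :
    Tendsto (fun n : ℕ =>
      (bp h (Real.sqrt (β / n)) n) ⬝ᵥ ((tauR b (Real.sqrt (β / n)) n) ^ N).mulVec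
        (bp h (Real.sqrt (β / n)) n) -
      (bq h (Real.sqrt (β / n)) n) ⬝ᵥ ((tauR b (Real.sqrt (β / n)) n) ^ N).mulVec
        (bq h (Real.sqrt (β / n)) n)) atTop (𝓝 (Zop b h h β N)) :=
  (Zop_tendsto_aux b h h β hβ N hN).congr fun n => re_crossing_same b h _ n N

end Crest.Agent.R347
end

-- ▼ part R347/OpenJoint
section

/-! Joint power-sum structure of the open-chain partition functions. -/

set_option autoImplicit false

namespace Crest.Agent.R347

open Matrix Filter Topology Crest.MathPhysics.SpinChain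

/-- Quadratic form of a power of a real symmetric matrix. -/
theorem dotProduct_pow_mulVec_eq_sum {m : Type*} [Fintype m] [DecidableEq m] {A : Matrix m m ℝ}
    (hA : A.IsHermitian) (p : m → ℝ) (l : ℕ) :
    p ⬝ᵥ (A ^ l).mulVec p =
      ∑ i, (((star (hA.eigenvectorUnitary : Matrix m m ℝ)).mulVec p) i) ^ 2 *
        hA.eigenvalues i ^ l := by
  conv_lhs => rw [hA.spectral_theorem, ← map_pow, diagonal_pow, Unitary.conjStarAlgAut_apply]
  rw [← Matrix.mulVec_mulVec, ← Matrix.mulVec_mulVec, Matrix.dotProduct_mulVec]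
  have hv : p ᵥ* (hA.eigenvectorUnitary : Matrix m m ℝ) =
      (star (hA.eigenvectorUnitary : Matrix m m ℝ)).mulVec p := by
    rw [star_eq_conjTranspose, conjTranspose_eq_transpose_of_trivial, mulVec_transpose]
  rw [hv]
  simp only [dotProduct, Matrix.mulVec_diagonal, Pi.pow_apply, Function.comp]
  refine Finset.sum_congr rfl fun i _ => ?_
  simp
  ring

/-- Sector lemma. -/
theorem jps_trace {m : Type*} [Fintype m] [DecidableEq m] (P τ : Matrix m m ℝ) (p : m → ℝ)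
    (hP : Pᵀ = P) (hPP : P * P = P) (hτ : τᵀ = τ) (hc : P * τ = τ * P) (hp : P.mulVec p = p) :
    JPS (fun l => p ⬝ᵥ (τ ^ (2 * l)).mulVec p) (fun l => (P * τ ^ (2 * l)).trace) := by
  have hPSD : ((τ * P)ᴴ * (τ * P)).PosSemidef := posSemidef_conjTranspose_mul_self _
  have hA : (τ * P)ᴴ * (τ * P) = P * τ ^ 2 := by
    rw [conjTranspose_eq_transpose_of_trivial, transpose_mul, hP, hτ]
    calc P * τ * (τ * P) = P * τ * (P * τ) := by rw [hc]
      _ = P * (τ * P) * τ := by simp only [mul_assoc]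
      _ = P * (P * τ) * τ := by rw [hc]
      _ = (P * P) * (τ * τ) := by simp only [mul_assoc]
      _ = P * τ ^ 2 := by rw [hPP, pow_two]
  rw [hA] at hPSD
  have hcomm : Commute P (τ ^ 2) := (show Commute P τ from hc).pow_right 2
  have hpow : ∀ l : ℕ, 1 ≤ l → (P * τ ^ 2) ^ l = P * τ ^ (2 * l) := by
    intro l hl
    rw [hcomm.mul_pow, pow_mul]
    congr 1
    exact IsIdempotentElem.pow_eq (n := l) hPP (by omega)
  refine ⟨Fintype.card m, fun i => hPSD.1.eigenvalues ((Fintype.equivFin m).symm i),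
    fun i => (((star (hPSD.1.eigenvectorUnitary : Matrix m m ℝ)).mulVec p)
      ((Fintype.equivFin m).symm i)) ^ 2,
    fun i => hPSD.eigenvalues_nonneg _, fun i => sq_nonneg _, fun l hl => ⟨?_, ?_⟩⟩
  · simp only
    rw [← hpow l hl, trace_pow_eq_sum_eigenvalues hPSD.1 l]
    exact ((Fintype.equivFin m).symm.sum_comp (fun i => hPSD.1.eigenvalues i ^ l)).symm
  · simp only
    have h1 : (τ ^ (2 * l)).mulVec p = ((P * τ ^ 2) ^ l).mulVec p := by
      rw [hpow l hl, (((show Commute P τ from hc).pow_right (2 * l)).eq : P * τ ^ (2 * l) = _),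
        ← Matrix.mulVec_mulVec, hp]
    rw [h1, dotProduct_pow_mulVec_eq_sum hPSD.1]
    exact ((Fintype.equivFin m).symm.sum_comp (fun i =>
      (((star (hPSD.1.eigenvectorUnitary : Matrix m m ℝ)).mulVec p) i) ^ 2 *
        hPSD.1.eigenvalues i ^ l)).symm

/-- Data of a symmetric matrix on the range of a commuting projection. -/
theorem sector_data {m : Type*} [Fintype m] [DecidableEq m] (P τ : Matrix m m ℝ)
    (p : m → ℝ) (hP : Pᵀ = P) (hPP : P * P = P) (hτ : τᵀ = τ) (hc : P * τ = τ * P)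
    (hp : P.mulVec p = p) :
    ∃ κ w : m → ℝ, (∀ i, 0 ≤ w i) ∧ ∀ N, 1 ≤ N →
      (P * τ ^ N).trace = ∑ i, κ i ^ N ∧ p ⬝ᵥ (τ ^ N).mulVec p = ∑ i, w i * κ i ^ N := by
  have hH : (P * τ).IsHermitian := by
    rw [IsHermitian, conjTranspose_eq_transpose_of_trivial, transpose_mul, hP, hτ, hc]
  have hcomm : Commute P τ := hc
  have hpow : ∀ l : ℕ, 1 ≤ l → (P * τ) ^ l = P * τ ^ l := by
    intro l hl
    rw [hcomm.mul_pow]
    congr 1
    exact IsIdempotentElem.pow_eq (n := l) hPP (by omega)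
  refine ⟨hH.eigenvalues, fun i => (((star (hH.eigenvectorUnitary : Matrix m m ℝ)).mulVec p) i) ^ 2,
    fun i => sq_nonneg _, fun N hN => ⟨?_, ?_⟩⟩
  · rw [← hpow N hN, trace_pow_eq_sum_eigenvalues hH N]
  · have h1 : (τ ^ N).mulVec p = ((P * τ) ^ N).mulVec p := by
      rw [hpow N hN, ((hcomm.pow_right N).eq : P * τ ^ N = _), ← Matrix.mulVec_mulVec, hp]
    rw [h1, dotProduct_pow_mulVec_eq_sum hH]

/-- Signed sector lemma. -/
theorem jxyzfin_trace {m : Type*} [Fintype m] [DecidableEq m] (D τ : Matrix m m ℝ)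
    (p q : m → ℝ) (hD : Dᵀ = D) (hDD : D * D = 1) (hτ : τᵀ = τ) (hc : D * τ = τ * D)
    (hp : D.mulVec p = p) (hq : D.mulVec q = -q) :
    JXYZfin (fun N => p ⬝ᵥ (τ ^ N).mulVec p - q ⬝ᵥ (τ ^ N).mulVec q)
      (fun N => p ⬝ᵥ (τ ^ N).mulVec p + q ⬝ᵥ (τ ^ N).mulVec q)
      (fun N => (τ ^ N).trace) := by
  obtain ⟨κ₁, w₁, hw₁, h₁⟩ := sector_data ((1 / 2 : ℝ) • (1 + D)) τ p
    (by simp [hD]) (by
      simp only [smul_mul_assoc, mul_smul_comm, mul_add, add_mul, one_mul, mul_one, hDD]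
      module) hτ
    (by simp only [smul_mul_assoc, mul_smul_comm, mul_add, add_mul, one_mul, mul_one, hc])
    (by
      rw [Matrix.smul_mulVec, Matrix.add_mulVec, Matrix.one_mulVec, hp]
      module)
  obtain ⟨κ₂, w₂, hw₂, h₂⟩ := sector_data ((1 / 2 : ℝ) • (1 - D)) τ q
    (by simp [hD]) (by
      simp only [smul_mul_assoc, mul_smul_comm, mul_sub, sub_mul, one_mul, mul_one, hDD]
      module) hτ
    (by simp only [smul_mul_assoc, mul_smul_comm, mul_sub, sub_mul, one_mul, mul_one, hc])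
    (by
      rw [Matrix.smul_mulVec, Matrix.sub_mulVec, Matrix.one_mulVec, hq]
      module)
  let e : m ⊕ m ≃ Fin (Fintype.card (m ⊕ m)) := Fintype.equivFin (m ⊕ m)
  refine ⟨Fintype.card (m ⊕ m), fun i => Sum.elim κ₁ κ₂ (e.symm i),
    fun i => Sum.elim w₁ w₂ (e.symm i), fun i => Sum.elim (fun _ => 1) (fun _ => -1) (e.symm i),
    ?_, ?_, ?_⟩
  · have h0 : ∀ j : m ⊕ m, 0 ≤ Sum.elim w₁ w₂ j := by
      rintro (j | j)
      · exact hw₁ j
      · exact hw₂ j
    exact fun i => h0 _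
  · have h0 : ∀ j : m ⊕ m, Sum.elim (fun _ => (1 : ℝ)) (fun _ => -1) j = 1 ∨
        Sum.elim (fun _ => (1 : ℝ)) (fun _ => -1) j = -1 := by
      rintro (j | j)
      · exact Or.inl rfl
      · exact Or.inr rfl
    exact fun i => h0 _
  · intro N hN
    obtain ⟨a₁, b₁⟩ := h₁ N hN
    obtain ⟨a₂, b₂⟩ := h₂ N hN
    refine ⟨?_, ?_, ?_⟩
    · rw [e.symm.sum_comp (fun i => Sum.elim κ₁ κ₂ i ^ N), Fintype.sum_sum_type]
      simp only [Sum.elim_inl, Sum.elim_inr]
      rw [← a₁, ← a₂]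
      simp only [smul_mul_assoc, add_mul, sub_mul, one_mul, trace_smul, trace_add, trace_sub,
        smul_eq_mul]
      ring
    · rw [e.symm.sum_comp (fun i => Sum.elim w₁ w₂ i * Sum.elim κ₁ κ₂ i ^ N),
        Fintype.sum_sum_type]
      simp only [Sum.elim_inl, Sum.elim_inr]
      rw [← b₁, ← b₂]
    · rw [e.symm.sum_comp (fun i => Sum.elim (fun _ => (1 : ℝ)) (fun _ => -1) i *
        Sum.elim w₁ w₂ i * Sum.elim κ₁ κ₂ i ^ N), Fintype.sum_sum_type]
      simp only [Sum.elim_inl, Sum.elim_inr]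
      rw [b₁, b₂, sub_eq_add_neg, ← Finset.sum_neg_distrib]
      congr 1
      · exact Finset.sum_congr rfl fun i _ => by ring
      · exact Finset.sum_congr rfl fun i _ => by ring

/-! ### boundary vectors -/

theorem etaK_bv_one (h e : ℝ) (c : Fin 4) :
    ((etaK ℝ 1 c : ℝ) : ℂ) * bv h e c = (starRingEnd ℂ) (bv h e c) := by
  fin_cases c
  · simp [bv, etaK]
  · simp [bv]
  · simp [bv]
  · have : etaK ℝ 1 3 = -1 := by
      show ((eta 1 2 : ℤ) : ℝ) = -1
      have : eta 1 2 = -1 := by decide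
      rw [this]; norm_num
    show ((etaK ℝ 1 3 : ℝ) : ℂ) * bv h e 3 = (starRingEnd ℂ) (bv h e 3)
    rw [this]
    simp [bv]

theorem etaK_bv_two (h e : ℝ) (c : Fin 4) :
    ((etaK ℝ 2 c : ℝ) : ℂ) * bv h e c = (starRingEnd ℂ) (bv h e c) := by
  fin_cases c
  · simp [bv, etaK]
  · simp [bv]
  · simp [bv]
  · have : etaK ℝ 2 3 = -1 := by
      show ((eta 2 2 : ℤ) : ℝ) = -1
      have : eta 2 2 = -1 := by decide
      rw [this]; norm_num
    show ((etaK ℝ 2 3 : ℝ) : ℂ) * bv h e 3 = (starRingEnd ℂ) (bv h e 3)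
    rw [this]
    simp [bv]


theorem prod_etaK_bv_conj (a : Fin 4) (h e : ℝ)
    (ha : ∀ c, ((etaK ℝ a c : ℝ) : ℂ) * bv h e c = (starRingEnd ℂ) (bv h e c))
    (n : ℕ) (ω : Fin n → Fin 4) :
    ((∏ k, etaK ℝ a (ω k) : ℝ) : ℂ) * ∏ k, bv h e (ω k) =
      (starRingEnd ℂ) (∏ k, bv h e (ω k)) := by
  rw [Complex.ofReal_prod, ← Finset.prod_mul_distrib, map_prod]
  exact Finset.prod_congr rfl fun k _ => ha _

theorem Dsig_bp_of_conj (a : Fin 4) (h e : ℝ)
    (ha : ∀ c, ((etaK ℝ a c : ℝ) : ℂ) * bv h e c = (starRingEnd ℂ) (bv h e c)) (n : ℕ) :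
    (Dsig a n).mulVec (bp h e n) = bp h e n := by
  funext ω
  have := congrArg Complex.re (prod_etaK_bv_conj a h e ha n ω)
  rw [Complex.re_ofReal_mul, Complex.conj_re] at this
  rw [Dsig, Matrix.mulVec_diagonal]
  exact this

theorem Dsig_bq_of_conj (a : Fin 4) (h e : ℝ)
    (ha : ∀ c, ((etaK ℝ a c : ℝ) : ℂ) * bv h e c = (starRingEnd ℂ) (bv h e c)) (n : ℕ) :
    (Dsig a n).mulVec (bq h e n) = -bq h e n := by
  funext ω
  have := congrArg Complex.im (prod_etaK_bv_conj a h e ha n ω)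
  rw [Complex.im_ofReal_mul, Complex.conj_im] at this
  rw [Dsig, Matrix.mulVec_diagonal]
  exact this

theorem Dsig_one_bp (h e : ℝ) (n : ℕ) : (Dsig 1 n).mulVec (bp h e n) = bp h e n :=
  Dsig_bp_of_conj 1 h e (etaK_bv_one h e) n
theorem Dsig_one_bq (h e : ℝ) (n : ℕ) : (Dsig 1 n).mulVec (bq h e n) = -bq h e n :=
  Dsig_bq_of_conj 1 h e (etaK_bv_one h e) n
theorem Dsig_two_bp (h e : ℝ) (n : ℕ) : (Dsig 2 n).mulVec (bp h e n) = bp h e n :=
  Dsig_bp_of_conj 2 h e (etaK_bv_two h e) n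
theorem Dsig_two_bq (h e : ℝ) (n : ℕ) : (Dsig 2 n).mulVec (bq h e n) = -bq h e n :=
  Dsig_bq_of_conj 2 h e (etaK_bv_two h e) n

theorem Dsig_three_bp (h e : ℝ) (n : ℕ) : (Dsig 3 n).mulVec (bp h e n) = bp h e n := by
  rw [← Dsig_one_mul_two, ← Matrix.mulVec_mulVec, Dsig_two_bp, Dsig_one_bp]

theorem Dsig_three_bq (h e : ℝ) (n : ℕ) : (Dsig 3 n).mulVec (bq h e n) = bq h e n := by
  rw [← Dsig_one_mul_two, ← Matrix.mulVec_mulVec, Dsig_two_bq, Matrix.mulVec_neg, Dsig_one_bq,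
    neg_neg]

theorem Psec_bp (h e : ℝ) (n : ℕ) : (Psec 1 1 n).mulVec (bp h e n) = bp h e n := by
  simp only [Psec, Matrix.smul_mulVec, Matrix.add_mulVec, Matrix.one_mulVec, Dsig_one_bp,
    Dsig_two_bp, Dsig_three_bp]
  module

theorem Psec_bq (h e : ℝ) (n : ℕ) : (Psec (-1) (-1) n).mulVec (bq h e n) = bq h e n := by
  simp only [Psec, Matrix.smul_mulVec, Matrix.add_mulVec, Matrix.one_mulVec, Dsig_one_bq,
    Dsig_two_bq, Dsig_three_bq]
  module

theorem JXYZ_open (β : ℝ) (hβ : 0 < β) : JXYZ (Xo β) (Yo β) (Zr β) := by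
  refine ⟨fun n N =>
      (bp (3 / 5) (Real.sqrt (β / n)) n) ⬝ᵥ ((tauR 0 (Real.sqrt (β / n)) n) ^ N).mulVec
        (bp (3 / 5) (Real.sqrt (β / n)) n) -
      (bq (3 / 5) (Real.sqrt (β / n)) n) ⬝ᵥ ((tauR 0 (Real.sqrt (β / n)) n) ^ N).mulVec
        (bq (3 / 5) (Real.sqrt (β / n)) n),
    fun n N =>
      (bp (3 / 5) (Real.sqrt (β / n)) n) ⬝ᵥ ((tauR 0 (Real.sqrt (β / n)) n) ^ N).mulVec
        (bp (3 / 5) (Real.sqrt (β / n)) n) +
      (bq (3 / 5) (Real.sqrt (β / n)) n) ⬝ᵥ ((tauR 0 (Real.sqrt (β / n)) n) ^ N).mulVec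
        (bq (3 / 5) (Real.sqrt (β / n)) n),
    fun n N => ((tauR 0 (Real.sqrt (β / n)) n) ^ N).trace, fun n => ?_, fun N hN => ⟨?_, ?_, ?_⟩⟩
  · exact jxyzfin_trace (Dsig 1 n) _ _ _ (Dsig_transpose 1 n) (Dsig_mul_self 1 n)
      (tauR_transpose 0 _ n) (Dsig_comm_tauR 1 0 _ n) (Dsig_one_bp _ _ n) (Dsig_one_bq _ _ n)
  · have h := Zab_tendsto 0 0 β hβ N hN
    simpa only [Dsig_zero, one_mul, Zr] using h
  · exact Zop_tendsto_opp 0 (3 / 5) β hβ N (by omega)
  · exact Zop_tendsto_same 0 (3 / 5) β hβ N (by omega)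

theorem JPSL.congr {A A' K K' : ℕ → ℝ} (h : JPSL A K) (hA : ∀ l, 1 ≤ l → A l = A' l)
    (hK : ∀ l, 1 ≤ l → K l = K' l) : JPSL A' K' := by
  obtain ⟨a, k, hf, hlim⟩ := h
  exact ⟨a, k, hf, fun l hl => ⟨hK l hl ▸ (hlim l hl).1, hA l hl ▸ (hlim l hl).2⟩⟩

/-- The even sector. -/
theorem JPSL_even (b : Fin 4) (h β : ℝ) (hβ : 0 < β) :
    JPSL (fun l => (Zop b h (-h) β (2 * l) + Zop b h h β (2 * l)) / 2)
      (fun l => (Zab 0 b β (2 * l) + 1 * Zab 1 b β (2 * l) + 1 * Zab 2 b β (2 * l) +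
        1 * 1 * Zab 3 b β (2 * l)) / 4) := by
  refine ⟨fun n l =>
      (bp h (Real.sqrt (β / n)) n) ⬝ᵥ ((tauR b (Real.sqrt (β / n)) n) ^ (2 * l)).mulVec
        (bp h (Real.sqrt (β / n)) n),
    fun n l => (Psec 1 1 n * (tauR b (Real.sqrt (β / n)) n) ^ (2 * l)).trace,
    fun n => jps_trace _ _ _ (Psec_transpose 1 1 n) (Psec_mul_self (by norm_num) (by norm_num) n)
      (tauR_transpose b _ n) (Psec_comm 1 1 b _ n) (Psec_bp h _ n), fun l hl => ⟨?_, ?_⟩⟩
  · simp only [Psec_trace]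
    have h := fun a => Zab_tendsto a b β hβ (2 * l) (by omega)
    exact ((((h 0).add ((h 1).const_mul 1)).add ((h 2).const_mul 1)).add
      ((h 3).const_mul (1 * 1))).div_const 4
  · have h1 := Zop_tendsto_opp b h β hβ (2 * l) (by omega)
    have h2 := Zop_tendsto_same b h β hβ (2 * l) (by omega)
    refine ((h1.add h2).div_const 2).congr fun n => ?_
    ring

/-- The odd sector. -/
theorem JPSL_odd (b : Fin 4) (h β : ℝ) (hβ : 0 < β) :
    JPSL (fun l => (Zop b h (-h) β (2 * l) - Zop b h h β (2 * l)) / 2)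
      (fun l => (Zab 0 b β (2 * l) + (-1) * Zab 1 b β (2 * l) + (-1) * Zab 2 b β (2 * l) +
        (-1) * (-1) * Zab 3 b β (2 * l)) / 4) := by
  refine ⟨fun n l =>
      (bq h (Real.sqrt (β / n)) n) ⬝ᵥ ((tauR b (Real.sqrt (β / n)) n) ^ (2 * l)).mulVec
        (bq h (Real.sqrt (β / n)) n),
    fun n l => (Psec (-1) (-1) n * (tauR b (Real.sqrt (β / n)) n) ^ (2 * l)).trace,
    fun n => jps_trace _ _ _ (Psec_transpose (-1) (-1) n)
      (Psec_mul_self (by norm_num) (by norm_num) n)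
      (tauR_transpose b _ n) (Psec_comm (-1) (-1) b _ n) (Psec_bq h _ n), fun l hl => ⟨?_, ?_⟩⟩
  · simp only [Psec_trace]
    have h := fun a => Zab_tendsto a b β hβ (2 * l) (by omega)
    exact ((((h 0).add ((h 1).const_mul (-1))).add ((h 2).const_mul (-1))).add
      ((h 3).const_mul ((-1) * (-1)))).div_const 4
  · have h1 := Zop_tendsto_opp b h β hβ (2 * l) (by omega)
    have h2 := Zop_tendsto_same b h β hβ (2 * l) (by omega)
    refine ((h1.sub h2).div_const 2).congr fun n => ?_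
    ring

/-- `(A_e, K_t)` -/
theorem JPSL_Ae (β : ℝ) (hβ : 0 < β) :
    JPSL (fun l => (Yo β (2 * l) + Xo β (2 * l)) / 2)
      (fun l => (Zab 0 0 β (2 * l) + 3 * Zab 3 0 β (2 * l)) / 4) := by
  refine (JPSL_even 0 (3 / 5) β hβ).congr (fun l _ => rfl) fun l hl => ?_
  rw [Zab_one_zero β hβ _ (by omega), Zab_two_zero β hβ _ (by omega)]
  ring

/-- `(A_o, K_c)` -/
theorem JPSL_Ao (β : ℝ) (hβ : 0 < β) :
    JPSL (fun l => (Yo β (2 * l) - Xo β (2 * l)) / 2)
      (fun l => (Zab 0 0 β (2 * l) - Zab 3 0 β (2 * l)) / 4) := by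
  refine (JPSL_odd 0 (3 / 5) β hβ).congr (fun l _ => rfl) fun l hl => ?_
  rw [Zab_one_zero β hβ _ (by omega), Zab_two_zero β hβ _ (by omega)]
  ring

/-- `(B_e, J_t)` -/
theorem JPSL_Be (β : ℝ) (hβ : 0 < β) :
    JPSL (fun l => (Yp β (2 * l) + Xp β (2 * l)) / 2)
      (fun l => (Zab 0 3 β (2 * l) + Zab 3 3 β (2 * l)) / 4 + Zab 1 3 β (2 * l) / 2) := by
  refine (JPSL_even 3 (3 / 5) β hβ).congr (fun l _ => rfl) fun l hl => ?_
  rw [Zab_two_three β hβ _ (by omega)]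
  ring

/-- `(B_o, J_z)` -/
theorem JPSL_Bo (β : ℝ) (hβ : 0 < β) :
    JPSL (fun l => (Yp β (2 * l) - Xp β (2 * l)) / 2)
      (fun l => (Zab 0 3 β (2 * l) + Zab 3 3 β (2 * l)) / 4 - Zab 1 3 β (2 * l) / 2) := by
  refine (JPSL_odd 3 (3 / 5) β hβ).congr (fun l _ => rfl) fun l hl => ?_
  rw [Zab_two_three β hβ _ (by omega)]
  ring

end Crest.Agent.R347
end

-- ▼ part R347/Closure546
section

/-! Numerical closure for the open chain. -/

set_option autoImplicit false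

namespace Crest.Agent.R347

open Matrix Crest.MathPhysics.SpinChain

theorem JPSL.mul_pow {A K : ℕ → ℝ} (h : JPSL A K) {c : ℝ} (hc : 0 ≤ c) :
    JPSL (fun l => c ^ l * A l) (fun l => c ^ l * K l) := by
  obtain ⟨a, k, hf, hK⟩ := h
  refine ⟨fun n l => c ^ l * a n l, fun n l => c ^ l * k n l, fun n => ?_, fun l hl =>
    ⟨(hK l hl).1.const_mul _, (hK l hl).2.const_mul _⟩⟩
  obtain ⟨m, x, w, hx, hw, hl⟩ := hf n
  refine ⟨m, fun i => c * x i, w, fun i => mul_nonneg hc (hx i), hw, fun l hl1 => ?_⟩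
  obtain ⟨h1, h2⟩ := hl l hl1
  simp only [h1, h2, _root_.mul_pow, Finset.mul_sum]
  exact ⟨trivial, Finset.sum_congr rfl fun i _ => by ring⟩

/-- Normalised open sector sums. -/
noncomputable def ae (l : ℕ) : ℝ := (nO Yo (2 * l) + nO Xo (2 * l)) / 2
noncomputable def ao (l : ℕ) : ℝ := (nO Yo (2 * l) - nO Xo (2 * l)) / 2
noncomputable def be (l : ℕ) : ℝ := (nO Yp (2 * l) + nO Xp (2 * l)) / 2
noncomputable def bo (l : ℕ) : ℝ := (nO Yp (2 * l) - nO Xp (2 * l)) / 2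

theorem nO_eq (f : ℝ → ℕ → ℝ) (l : ℕ) :
    nO f (2 * l) = Real.exp (12 * e0) ^ l * f 6 (2 * l) := by
  unfold nO
  congr 1
  rw [← Real.exp_nat_mul]
  congr 1
  push_cast
  ring

theorem JPSL_ae : JPSL ae kt := by
  have h := (JPSL_Ae 6 (by norm_num)).mul_pow (Real.exp_pos (12 * e0)).le
  convert h using 1
  · funext l; simp only [ae, nO_eq]; ring
  · funext l; simp only [kt, nZ_eq]; ring

theorem JPSL_ao : JPSL ao kc := by
  have h := (JPSL_Ao 6 (by norm_num)).mul_pow (Real.exp_pos (12 * e0)).le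
  convert h using 1
  · funext l; simp only [ao, nO_eq]; ring
  · funext l; simp only [kc, nZ_eq]; ring

theorem JPSL_be : JPSL be jt := by
  have h := (JPSL_Be 6 (by norm_num)).mul_pow (Real.exp_pos (12 * e0)).le
  convert h using 1
  · funext l; simp only [be, nO_eq]; ring
  · funext l; simp only [jt, nZ_eq]; ring

theorem JPSL_bo : JPSL bo jz := by
  have h := (JPSL_Bo 6 (by norm_num)).mul_pow (Real.exp_pos (12 * e0)).le
  convert h using 1
  · funext l; simp only [bo, nO_eq]; ring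
  · funext l; simp only [jz, nZ_eq]; ring

/-- `A 20 ≤ x ^ 16 * A 4` when the ratio bound `x` holds. -/
theorem ratio16 {A : ℕ → ℝ} {x : ℝ} (hx : 0 ≤ x) (h : ∀ l, 1 ≤ l → A (l + 1) ≤ x * A l) :
    A 20 ≤ x ^ 16 * A 4 := by
  have h1 : ∀ k, A (4 + k) ≤ x ^ k * A 4 := by
    intro k
    induction k with
    | zero => simp
    | succ k ih =>
      calc A (4 + (k + 1)) ≤ x * A (4 + k) := h (4 + k) (by omega)
        _ ≤ x * (x ^ k * A 4) := mul_le_mul_of_nonneg_left ih hx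
        _ = x ^ (k + 1) * A 4 := by ring
  exact h1 16

/-- the top of `kt` (ratio bound) in joint form: `x ≤ 1.033`. -/
theorem ae_20 (hT : RingTraces) (hO : OpenTraces) : ae 20 ≤ 16242 / 100000 := by
  have k2pos : 0 < kt 2 := by
    have a1 := abs_le.1 hT.z00_4
    have a2 := abs_le.1 hT.z30_4
    simp only [kt, show 2 * 2 = 4 from rfl]; linarith
  obtain ⟨x, w, hx, hw, hr, hq, hA⟩ := JPSL_ae.exists_top k2pos
  have hr' := hr.psl
  have a1 := abs_le.1 hT.z00_4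
  have a2 := abs_le.1 hT.z30_4
  have b1 := abs_le.1 hT.z00_6
  have b2 := abs_le.1 hT.z30_6
  have c1 := abs_le.1 hT.z00_8
  have c2 := abs_le.1 hT.z30_8
  have k2 : kt 2 ≤ 29073 / 10000 := by
    simp only [kt, show 2 * 2 = 4 from rfl]; linarith
  have k3 : 13600 / 10000 ≤ kt 3 := by
    simp only [kt, show 2 * 3 = 6 from rfl]; linarith
  have k4 : kt 4 ≤ 11725 / 10000 := by
    simp only [kt, show 2 * 4 = 8 from rfl]; linarith
  have h2 : x ^ 2 ≤ kt 2 := by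
    have := hr'.nonneg (l := 2) (by norm_num); simpa using this
  have h3 : x ^ 3 ≤ kt 3 := by
    have := hr'.nonneg (l := 3) (by norm_num); simpa using this
  have h4 : x ^ 4 ≤ kt 4 := by
    have := hr'.nonneg (l := 4) (by norm_num); simpa using this
  have hx1 : x ≤ 1033 / 1000 :=
    top_kt hx.le k2 k3 k4 h2 h3 h4 (hr'.hankel (l := 2) (by norm_num))
  have h20 := ratio16 hx.le hA
  have o1 := abs_le.1 hO.y_8
  have o2 := abs_le.1 hO.x_8
  have hae : ae 4 ≤ 966057 / 10000000 := by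
    simp only [ae, show 2 * 4 = 8 from rfl]; linarith
  have hae0 : 0 ≤ ae 4 := JPSL_ae.nonneg (by norm_num)
  have hx16 : x ^ 16 ≤ (1033 / 1000) ^ 16 := pow_le_pow_left₀ hx.le hx1 16
  calc ae 20 ≤ x ^ 16 * ae 4 := h20
    _ ≤ (1033 / 1000) ^ 16 * (966057 / 10000000) := by
        apply mul_le_mul hx16 hae hae0 (by norm_num)
    _ ≤ _ := by norm_num

theorem bo_20 (hT : RingTraces) (hO : OpenTraces) : bo 20 ≤ 8579 / 100000 := by
  have k2pos : 0 < jz 2 := by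
    have a1 := abs_le.1 hT.z03_4
    have a2 := abs_le.1 hT.z33_4
    have a3 := abs_le.1 hT.z13_4
    simp only [jz, show 2 * 2 = 4 from rfl]; linarith
  obtain ⟨x, w, hx, hw, hr, hq, hA⟩ := JPSL_bo.exists_top k2pos
  have hr' := hr.psl
  have a1 := abs_le.1 hT.z03_4
  have a2 := abs_le.1 hT.z33_4
  have a3 := abs_le.1 hT.z13_4
  have b1 := abs_le.1 hT.z03_6
  have b2 := abs_le.1 hT.z33_6
  have b3 := abs_le.1 hT.z13_6
  have c1 := abs_le.1 hT.z03_8
  have c2 := abs_le.1 hT.z33_8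
  have c3 := abs_le.1 hT.z13_8
  have k2 : jz 2 ≤ 28373 / 10000 := by
    simp only [jz, show 2 * 2 = 4 from rfl]; linarith
  have k3 : 12503 / 10000 ≤ jz 3 := by
    simp only [jz, show 2 * 3 = 6 from rfl]; linarith
  have k4 : jz 4 ≤ 10314 / 10000 := by
    simp only [jz, show 2 * 4 = 8 from rfl]; linarith
  have h2 : x ^ 2 ≤ jz 2 := by
    have := hr'.nonneg (l := 2) (by norm_num); simpa using this
  have h3 : x ^ 3 ≤ jz 3 := by
    have := hr'.nonneg (l := 3) (by norm_num); simpa using this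
  have h4 : x ^ 4 ≤ jz 4 := by
    have := hr'.nonneg (l := 4) (by norm_num); simpa using this
  have hx1 : x ≤ 9997 / 10000 :=
    top_jz hx.le k2 k3 k4 h2 h3 h4 (hr'.hankel (l := 2) (by norm_num))
  have h20 := ratio16 hx.le hA
  have o1 := abs_le.1 hO.yp_8
  have o2 := abs_le.1 hO.xp_8
  have hbo : bo 4 ≤ 8579 / 100000 := by
    simp only [bo, show 2 * 4 = 8 from rfl]; linarith
  have hbo0 : 0 ≤ bo 4 := JPSL_bo.nonneg (by norm_num)
  have hx16 : x ^ 16 ≤ 1 := pow_le_one₀ hx.le (by linarith)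
  calc bo 20 ≤ x ^ 16 * bo 4 := h20
    _ ≤ 1 * (8579 / 100000) := by
        apply mul_le_mul hx16 hbo hbo0 (by norm_num)
    _ ≤ _ := by norm_num

theorem ao_20 (hT : RingTraces) (hO : OpenTraces) : ao 20 ≤ 100 / 100000 := by
  have h := JPSL_ao.le_mul (l := 4) (m := 16) (by norm_num) (by norm_num)
  have h16 := PSL_kc.pow_le (l := 4) (k := 4) (by norm_num) (by norm_num)
  have h0 := PSL_kc.nonneg (l := 4) (by norm_num)
  have c1 := abs_le.1 hT.z00_8
  have c2 := abs_le.1 hT.z30_8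
  have k4 : kc 4 ≤ 37560 / 100000 := by
    simp only [kc, show 2 * 4 = 8 from rfl]; linarith
  have hp := pow_le_pow_left₀ h0 k4 4
  have o1 := abs_le.1 hO.y_8
  have o2 := abs_le.1 hO.x_8
  have hao : ao 4 ≤ 498 / 10000 := by
    simp only [ao, show 2 * 4 = 8 from rfl]; linarith
  have hao0 : 0 ≤ ao 4 := JPSL_ao.nonneg (by norm_num)
  have hkc16 : 0 ≤ kc 16 := PSL_kc.nonneg (by norm_num)
  norm_num at h h16 hp
  calc ao 20 ≤ ao 4 * kc 16 := h
    _ ≤ (498 / 10000) * (kc 4 ^ 4) := mul_le_mul hao h16 hkc16 (by norm_num)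
    _ ≤ (498 / 10000) * (777796321 / 39062500000) := by linarith
    _ ≤ _ := by norm_num

theorem be_20 (hT : RingTraces) (hO : OpenTraces) : be 20 ≤ 120 / 100000 := by
  have h := JPSL_be.le_mul (l := 4) (m := 16) (by norm_num) (by norm_num)
  have h16 := PSL_jt.pow_le (l := 4) (k := 4) (by norm_num) (by norm_num)
  have h0 := PSL_jt.nonneg (l := 4) (by norm_num)
  have c1 := abs_le.1 hT.z03_8
  have c2 := abs_le.1 hT.z33_8
  have c3 := abs_le.1 hT.z13_8
  have k4 : jt 4 ≤ 38630 / 100000 := by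
    simp only [jt, show 2 * 4 = 8 from rfl]; linarith
  have hp := pow_le_pow_left₀ h0 k4 4
  have o1 := abs_le.1 hO.yp_8
  have o2 := abs_le.1 hO.xp_8
  have hbe : be 4 ≤ 524 / 10000 := by
    simp only [be, show 2 * 4 = 8 from rfl]; linarith
  have hbe0 : 0 ≤ be 4 := JPSL_be.nonneg (by norm_num)
  have hjt16 : 0 ≤ jt 16 := PSL_jt.nonneg (by norm_num)
  norm_num at h h16
  calc be 20 ≤ be 4 * jt 16 := h
    _ ≤ (524 / 10000) * (jt 4 ^ 4) := mul_le_mul hbe h16 hjt16 (by norm_num)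
    _ ≤ (524 / 10000) * ((38630 / 100000) ^ 4) := by linarith
    _ ≤ _ := by norm_num

theorem nYo_40 (hT : RingTraces) (hO : OpenTraces) : nO Yo 40 ≤ 16342 / 100000 := by
  have h1 := ae_20 hT hO
  have h2 := ao_20 hT hO
  simp only [ae, ao, show 2 * 20 = 40 from rfl] at h1 h2
  linarith

theorem nYp_40 (hT : RingTraces) (hO : OpenTraces) : nO Yp 40 ≤ 8699 / 100000 := by
  have h1 := bo_20 hT hO
  have h2 := be_20 hT hO
  simp only [be, bo, show 2 * 20 = 40 from rfl] at h1 h2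
  linarith

/-- numerical exponential bounds. -/
theorem exp_24135 : Real.exp (24135 / 10000) ≤ 11185 / 1000 := by
  have h3 : Real.exp (24135 / 10000) = Real.exp 1 ^ 2 * Real.exp (4135 / 10000) := by
    rw [← Real.exp_nat_mul, ← Real.exp_add]; norm_num
  have h4 := Real.exp_bound' (x := 4135 / 10000) (by norm_num) (by norm_num) (n := 6)
    (by norm_num)
  norm_num [Finset.sum_range_succ, Nat.factorial] at h4
  have h5 := Real.exp_one_lt_d9
  have h6 : Real.exp 1 ^ 2 ≤ 2.7182818286 ^ 2 := pow_le_pow_left₀ (Real.exp_pos _).le h5.le 2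
  rw [h3]
  calc Real.exp 1 ^ 2 * Real.exp (4135 / 10000)
      ≤ 2.7182818286 ^ 2 * Real.exp (4135 / 10000) :=
        mul_le_mul_of_nonneg_right h6 (Real.exp_pos _).le
    _ ≤ _ := by
        norm_num at h4 ⊢
        nlinarith [h4]

theorem exp_3294 : Real.exp (3294 / 1000) ≤ 2702 / 100 := by
  have h3 : Real.exp (3294 / 1000) = Real.exp 1 ^ 3 * Real.exp (294 / 1000) := by
    rw [← Real.exp_nat_mul, ← Real.exp_add]; norm_num
  have h4 := Real.exp_bound' (x := 294 / 1000) (by norm_num) (by norm_num) (n := 6)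
    (by norm_num)
  norm_num [Finset.sum_range_succ, Nat.factorial] at h4
  have h5 := Real.exp_one_lt_d9
  have h6 : Real.exp 1 ^ 3 ≤ 2.7182818286 ^ 3 := pow_le_pow_left₀ (Real.exp_pos _).le h5.le 3
  rw [h3]
  calc Real.exp 1 ^ 3 * Real.exp (294 / 1000)
      ≤ 2.7182818286 ^ 3 * Real.exp (294 / 1000) :=
        mul_le_mul_of_nonneg_right h6 (Real.exp_pos _).le
    _ ≤ _ := by
        norm_num at h4 ⊢
        nlinarith [h4]

theorem exp_24096 : Real.exp (24096 / 10000) ≤ 1113 / 100 := by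
  have h3 : Real.exp (24096 / 10000) = Real.exp 1 ^ 2 * Real.exp (4096 / 10000) := by
    rw [← Real.exp_nat_mul, ← Real.exp_add]; norm_num
  have h4 := Real.exp_bound' (x := 4096 / 10000) (by norm_num) (by norm_num) (n := 6)
    (by norm_num)
  norm_num [Finset.sum_range_succ, Nat.factorial] at h4
  have h5 := Real.exp_one_lt_d9
  have h6 : Real.exp 1 ^ 2 ≤ 2.7182818286 ^ 2 := pow_le_pow_left₀ (Real.exp_pos _).le h5.le 2
  rw [h3]
  calc Real.exp 1 ^ 2 * Real.exp (4096 / 10000)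
      ≤ 2.7182818286 ^ 2 * Real.exp (4096 / 10000) :=
        mul_le_mul_of_nonneg_right h6 (Real.exp_pos _).le
    _ ≤ _ := by
        norm_num at h4 ⊢
        nlinarith [h4]

/-- Upper bound for the open chain of 40 sites (opposite fields) at `β = 48`, normalised. -/
theorem Yo48_le (hT : RingTraces) (hO : OpenTraces) (hM : OpenMPS) :
    Real.exp (48 * e0 * 40) * Yo 48 40 ≤
      Real.exp (-(48 * (4016 / 10000))) * (10024 / 10000) := by
  obtain ⟨ψ, E, v, hψ, hE, hv, hE1, hE2, hv1⟩ := hM.ex40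
  set q := Real.exp (-(6 * e0 * 40)) with hq
  have hq0 : 0 < q := Real.exp_pos _
  have hY : Yo 6 (39 + 1) ≤ q * (16342 / 100000) := by
    have := nYo_40 hT hO
    unfold nO at this
    exact exp_mul_le (by exact_mod_cast this)
  have hW : Yp 6 (39 + 1) ≤ q * (8699 / 100000) := by
    have := nYp_40 hT hO
    unfold nO at this
    exact exp_mul_le (by exact_mod_cast this)
  have hvac : q * (89405 / 1000000) ≤ Real.exp (-6 * E) := by
    have h1 : -(6 * e0 * 40) + -(24135 / 10000) ≤ -6 * E := by linarith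
    have h2 : Real.exp (-(6 * e0 * 40) + -(24135 / 10000)) ≤ Real.exp (-6 * E) :=
      Real.exp_le_exp.2 h1
    rw [Real.exp_add] at h2
    have h3 : (89405 / 1000000 : ℝ) ≤ Real.exp (-(24135 / 10000)) := by
      rw [Real.exp_neg, le_inv_comm₀ (by norm_num) (Real.exp_pos _)]
      exact exp_24135.trans (by norm_num)
    calc q * (89405 / 1000000) ≤ q * Real.exp (-(24135 / 10000)) :=
          mul_le_mul_of_nonneg_left h3 hq0.le
      _ ≤ _ := h2
  have hb1 : q * (370095 / 10000000) ≤ Real.exp (-6 * (40 * e0 + 549 / 1000)) := by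
    have h1 : -6 * (40 * e0 + 549 / 1000) = -(6 * e0 * 40) + -(3294 / 1000) := by ring
    rw [h1, Real.exp_add]
    apply mul_le_mul_of_nonneg_left _ hq0.le
    rw [Real.exp_neg, le_inv_comm₀ (by norm_num) (Real.exp_pos _)]
    exact exp_3294.trans (by norm_num)
  have key := open_direct_bound 39 (β := 6) (Yb := q * (16342 / 100000))
    (Wb := q * (8699 / 100000)) (E := E) (v := v) (a := q * (359 / 10000))
    (b := q * (37008 / 1000000)) (μ := 40 * e0 + 549 / 1000) (by norm_num) hY hW ψ hψ hE hv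
    (by nlinarith) (by nlinarith) (by nlinarith) (by linarith) (by nlinarith) (by nlinarith)
    8 (by norm_num)
  have key' : Yo 48 40 ≤ Real.exp (-48 * (E - v / (40 * e0 + 549 / 1000 - E))) +
      (q * (359 / 10000)) ^ 8 + 2 * (q * (37008 / 1000000)) ^ 8 := by
    have e1 : ((8 : ℕ) : ℝ) * 6 = 48 := by norm_num
    rw [e1] at key
    have e2 : -48 * (E - v / (40 * e0 + 549 / 1000 - E)) =
      -(48 : ℝ) * (E - v / (40 * e0 + 549 / 1000 - E)) := by ring
    rw [e2]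
    exact key
  set W := Real.exp (-(48 * (4016 / 10000))) with hWdef
  have hW0 : 0 < W := Real.exp_pos _
  have hexp : Real.exp (48 * e0 * 40) *
      Real.exp (-48 * (E - v / (40 * e0 + 549 / 1000 - E))) ≤ W := by
    rw [← Real.exp_add]
    apply Real.exp_le_exp.2
    have hd : 14675 / 100000 ≤ 40 * e0 + 549 / 1000 - E := by linarith
    have hdv : v / (40 * e0 + 549 / 1000 - E) ≤ 546 / 1000000 := by
      rw [div_le_iff₀ (by linarith)]
      linarith
    linarith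
  have hq8 : Real.exp (48 * e0 * 40) * q ^ 8 = 1 := by
    rw [hq, ← Real.exp_nat_mul, ← Real.exp_add]
    rw [show (48 : ℝ) * e0 * 40 + ((8 : ℕ) : ℝ) * -(6 * e0 * 40) = 0 by push_cast; ring,
      Real.exp_zero]
  -- compare with `W`
  have hWr : 1 ≤ W * (1113 / 100) ^ 8 := by
    have h1 : Real.exp (24096 / 10000) ^ 8 ≤ (1113 / 100) ^ 8 :=
      pow_le_pow_left₀ (Real.exp_pos _).le exp_24096 8
    have h2 : W * Real.exp (24096 / 10000) ^ 8 = 1 := by
      rw [hWdef, ← Real.exp_nat_mul, ← Real.exp_add]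
      rw [show -(48 * (4016 / 10000) : ℝ) + ((8 : ℕ) : ℝ) * (24096 / 10000) = 0 by
        push_cast; ring, Real.exp_zero]
    calc (1 : ℝ) = W * Real.exp (24096 / 10000) ^ 8 := h2.symm
      _ ≤ _ := mul_le_mul_of_nonneg_left h1 hW0.le
  have hc1 : ((359 / 10000 : ℝ)) ^ 8 ≤ W * (66 / 100000) := by
    calc ((359 / 10000 : ℝ)) ^ 8 = 1 * (359 / 10000) ^ 8 := by ring
      _ ≤ (W * (1113 / 100) ^ 8) * (359 / 10000) ^ 8 :=
          mul_le_mul_of_nonneg_right hWr (by positivity)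
      _ = W * ((1113 / 100) ^ 8 * (359 / 10000) ^ 8) := by ring
      _ ≤ W * (66 / 100000) := mul_le_mul_of_nonneg_left (by norm_num) hW0.le
  have hc2 : ((37008 / 1000000 : ℝ)) ^ 8 ≤ W * (84 / 100000) := by
    calc ((37008 / 1000000 : ℝ)) ^ 8 = 1 * (37008 / 1000000) ^ 8 := by ring
      _ ≤ (W * (1113 / 100) ^ 8) * (37008 / 1000000) ^ 8 :=
          mul_le_mul_of_nonneg_right hWr (by positivity)
      _ = W * ((1113 / 100) ^ 8 * (37008 / 1000000) ^ 8) := by ring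
      _ ≤ W * (84 / 100000) := mul_le_mul_of_nonneg_left (by norm_num) hW0.le
  calc Real.exp (48 * e0 * 40) * Yo 48 40
      ≤ Real.exp (48 * e0 * 40) * (Real.exp (-48 * (E - v / (40 * e0 + 549 / 1000 - E))) +
      (q * (359 / 10000)) ^ 8 + 2 * (q * (37008 / 1000000)) ^ 8) :=
        mul_le_mul_of_nonneg_left key' (Real.exp_pos _).le
    _ = Real.exp (48 * e0 * 40) * Real.exp (-48 * (E - v / (40 * e0 + 549 / 1000 - E))) +
      (Real.exp (48 * e0 * 40) * q ^ 8) * (359 / 10000) ^ 8 +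
      2 * ((Real.exp (48 * e0 * 40) * q ^ 8) * (37008 / 1000000) ^ 8) := by
        rw [mul_pow, mul_pow]; ring
    _ ≤ W * (10024 / 10000) := by
        rw [hq8]
        linarith

/-- The base inequality for the open chains. -/
theorem base546 (hT : RingTraces) (hR : RingMPS) (hO : OpenTraces) (hM : OpenMPS) :
    (78 : ℝ) / 100 * (Yo 48 40 ^ 2 * Zr (2 * 48) 40) ≤ Yo (2 * 48) (2 * 40) := by
  have hY := Yo48_le hT hO hM
  have hZ := Zr40_le hT hR 16 (by norm_num)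
  norm_num at hZ
  obtain ⟨ψ, hψ, hE⟩ := hM.ex80
  have h80 := open_var_bound 79 (β := 96) (E := 80 * e0 + 4028 / 10000) (by norm_num) ψ hψ hE
  norm_num at h80
  set W := Real.exp (-(48 * (4016 / 10000))) with hWdef
  have hW0 : 0 < W := Real.exp_pos _
  have hY0 : 0 < Yo 48 40 := Yo_pos _ _ (by norm_num)
  have hZ0 : 0 < Zr 96 40 := Zr_pos _ _ (by norm_num)
  set X := Real.exp (48 * e0 * 40) * Yo 48 40 with hX
  have hX0 : 0 < X := mul_pos (Real.exp_pos _) hY0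
  set V := Real.exp (96 * e0 * 40) * Zr 96 40 with hV
  have hV0 : 0 < V := mul_pos (Real.exp_pos _) hZ0
  have hV1 : V ≤ 1061 / 1000 := by
    have h1 : Real.exp (3522 / 62500) ≤ 1 / (1 - 3522 / 62500) :=
      Real.exp_bound_div_one_sub_of_interval' (by norm_num) (by norm_num) |>.le
    norm_num at h1
    linarith
  have hX2 : X ^ 2 ≤ (W * (10024 / 10000)) ^ 2 := pow_le_pow_left₀ hX0.le hY 2
  have hprod : X ^ 2 * V ≤ (W * (10024 / 10000)) ^ 2 * (1061 / 1000) :=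
    mul_le_mul hX2 hV1 hV0.le (by positivity)
  have hlow : W ^ 2 * (8848 / 10000) ≤ Real.exp (96 * e0 * 80) * Yo 96 80 := by
    have h1 : Real.exp (96 * e0 * 80) * Real.exp (-(96 * (80 * e0 + 1007 / 2500))) ≤
        Real.exp (96 * e0 * 80) * Yo 96 80 :=
      mul_le_mul_of_nonneg_left h80 (Real.exp_pos _).le
    rw [← Real.exp_add] at h1
    have h2 : Real.exp (96 * e0 * 80 + -(96 * (80 * e0 + 1007 / 2500))) =
        W ^ 2 * Real.exp (-(1152 / 10000)) := by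
      rw [hWdef, ← Real.exp_nat_mul, ← Real.exp_add]
      congr 1
      push_cast; ring
    rw [h2] at h1
    have h3 := Real.add_one_le_exp (-(1152 / 10000) : ℝ)
    have h4 : W ^ 2 * (8848 / 10000) ≤ W ^ 2 * Real.exp (-(1152 / 10000)) :=
      mul_le_mul_of_nonneg_left (by linarith) (by positivity)
    linarith
  have hfin : 78 / 100 * (X ^ 2 * V) ≤ Real.exp (96 * e0 * 80) * Yo 96 80 := by
    have hW2 : 0 < W ^ 2 := by positivity
    nlinarith
  have hXV : X ^ 2 * V = Real.exp (96 * e0 * 80) * (Yo 48 40 ^ 2 * Zr 96 40) := by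
    rw [hX, hV, mul_pow, ← Real.exp_nat_mul]
    rw [show Real.exp (((2 : ℕ) : ℝ) * (48 * e0 * 40)) * Yo 48 40 ^ 2 *
      (Real.exp (96 * e0 * 40) * Zr 96 40) =
      (Real.exp (((2 : ℕ) : ℝ) * (48 * e0 * 40)) * Real.exp (96 * e0 * 40)) *
        (Yo 48 40 ^ 2 * Zr 96 40) by ring, ← Real.exp_add]
    congr 2
    push_cast; ring
  rw [hXV] at hfin
  have hep : (0 : ℝ) < Real.exp (96 * e0 * 80) := Real.exp_pos _
  have h9 : Real.exp (96 * e0 * 80) * (78 / 100 * (Yo 48 40 ^ 2 * Zr 96 40)) ≤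
      Real.exp (96 * e0 * 80) * Yo 96 80 := by linarith
  have := le_of_mul_le_mul_left h9 hep
  norm_num
  linarith

end Crest.Agent.R347
end

-- ▼ part R347/Assemble545
section

/-! S0545 from the base inequality. -/

set_option autoImplicit false

namespace Crest.Agent.R347

open Matrix Crest.MathPhysics.SpinChain

theorem twoWay_Zr : TwoWay Zr where
  pos := fun β _ L hL => Zr_pos β L hL
  space := fun β hβ => PSL_Zr β hβ
  time := fun β _ L hL => PSL_Zr_time β L hL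

theorem log_twenty_le : Real.log 20 ≤ 4 := by
  rw [Real.log_le_iff_le_exp (by norm_num)]
  have h1 := Real.exp_one_gt_d9
  have h2 : Real.exp 4 = Real.exp 1 ^ 4 := by
    rw [← Real.exp_nat_mul]; norm_num
  rw [h2]
  calc (20 : ℝ) ≤ 2.7182818283 ^ 4 := by norm_num
    _ ≤ Real.exp 1 ^ 4 := by
      apply pow_le_pow_left₀ (by norm_num) h1.le

theorem one_le_log_twenty : 1 ≤ Real.log 20 := by
  rw [Real.le_log_iff_exp_le (by norm_num)]
  have := Real.exp_one_lt_d9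
  linarith

/-- the two gap constants compared. -/
theorem gap_const_le : 4 / 105 * Real.log (80 / 79) ≤ Real.log 20 / 784 := by
  have h1 : Real.log (80 / 79) ≤ 80 / 79 - 1 := Real.log_le_sub_one_of_pos (by norm_num)
  have h2 := one_le_log_twenty
  linarith

/-- the numerical input `(2/3)^(2^n)/8 < exp (-2^n β₀ c)` for `β₀ ≤ 60`, `c ≤ log 20 / 784`. -/
theorem u_lt_exp (β₀ : ℝ) (hβ : 0 < β₀) (hβ60 : β₀ ≤ 60) (c : ℝ) (hc : c ≤ Real.log 20 / 784)
    (n : ℕ) : ((2 : ℝ) / 3) ^ (2 ^ n) / 8 < Real.exp (-(2 ^ n * β₀) * c) := by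
  have h3 : (2 : ℝ) / 3 ≤ Real.exp (-β₀ * c) := by
    have h1 : Real.log (2 / 3) ≤ -(1 / 3) := by
      have := Real.log_le_sub_one_of_pos (show (0 : ℝ) < 2 / 3 by norm_num)
      linarith
    have h2 : β₀ * c ≤ 1 / 3 := by
      have h4 := log_twenty_le
      rcases le_or_gt c 0 with h | h
      · nlinarith
      · nlinarith
    rw [← Real.log_le_iff_le_exp (by norm_num)]
    linarith
  have h4 : Real.exp (-(2 ^ n * β₀) * c) = Real.exp (-β₀ * c) ^ (2 ^ n) := by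
    rw [← Real.exp_nat_mul]
    congr 1
    push_cast
    ring
  rw [h4]
  have h5 : ((2 : ℝ) / 3) ^ (2 ^ n) ≤ Real.exp (-β₀ * c) ^ (2 ^ n) :=
    pow_le_pow_left₀ (by norm_num) h3 _
  have h6 : 0 < ((2 : ℝ) / 3) ^ (2 ^ n) := by positivity
  linarith

theorem ring_gap_of_base (β₀ : ℝ) (hβ : 0 < β₀) (hβ60 : β₀ ≤ 60) (L₀ : ℕ) (hL : 2 ≤ L₀)
    (hLe : Even L₀) (hbase : (145 : ℝ) / 169 * Zr β₀ L₀ ^ 4 ≤ Zr (2 * β₀) (2 * L₀))
    (L : ℕ) (hLev : Even L) (hLL : L₀ ≤ L) (c : ℝ) (hc : c ≤ Real.log 20 / 784) :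
    HasSimpleGroundStateWithGap (heisenbergRing L) c := by
  obtain ⟨n, u, hu, hP⟩ := twoWay_Zr.purity_all hβ hL hLe hbase L hLL hLev
  have hL2 : 2 ≤ L := le_trans hL hLL
  have hH : (heisenbergRing L).IsHermitian := by
    rw [← ringTw_zero]
    exact ringTw_isHermitian 0 L hL2
  have hZ : ∀ β : ℝ, Zr β L = (Matrix.trace (NormedSpace.exp (-(β : ℂ) • heisenbergRing L))).re := by
    intro β
    rw [Zr, Zab, ringTw_zero]
    have : piK (fun _ : Fin L => rotC 0) = 1 := by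
      have h0 : rotC 0 = 1 := rfl
      rw [h0, piK_one]
    rw [this, Matrix.one_mul]
  have hu0 : 0 ≤ u := by rw [hu]; positivity
  have hu1 : u < 1 := by
    rw [hu]
    have : ((2 : ℝ) / 3) ^ (2 ^ n) ≤ 1 := pow_le_one₀ (by norm_num) (by norm_num)
    linarith
  have hlt : u < Real.exp (-(2 ^ n * β₀) * c) := by
    rw [hu]; exact u_lt_exp β₀ hβ hβ60 c hc n
  haveI : Nonempty (Fin L → Fin 3) := ⟨fun _ => 0⟩
  refine gap_of_purity hH (β := 2 ^ n * β₀) (u := u) (c := c) (by positivity) hu0 hu1 ?_ hlt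
  rw [hZ, hZ] at hP
  exact hP

theorem S0545_of_base (β₀ : ℝ) (hβ : 0 < β₀) (hβ60 : β₀ ≤ 60) (L₀ : ℕ) (hL : 2 ≤ L₀)
    (hL60 : L₀ ≤ 60) (hLe : Even L₀)
    (hbase : (145 : ℝ) / 169 * Zr β₀ L₀ ^ 4 ≤ Zr (2 * β₀) (2 * L₀)) :
    (∀ L : ℕ, Even L → 60 ≤ L →
      HasSimpleGroundStateWithGap (heisenbergRing L) (4 / 105 * Real.log (80 / 79))) ∧
    (∀ L : ℕ, Even L → 2304 ≤ L →
      HasSimpleGroundStateWithGap (heisenbergRing L) (Real.log 20 / 784)) :=
  ⟨fun L hLev hLL => ring_gap_of_base β₀ hβ hβ60 L₀ hL hLe hbase L hLev (hL60.trans hLL) _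
    gap_const_le,
   fun L hLev hLL => ring_gap_of_base β₀ hβ hβ60 L₀ hL hLe hbase L hLev
    (hL60.trans (le_trans (by norm_num) hLL)) _ le_rfl⟩

end Crest.Agent.R347
end

-- ▼ part R347/Assemble546
section

/-! S0546 from the base inequalities. -/

set_option autoImplicit false

namespace Crest.Agent.R347

open Matrix Crest.MathPhysics.SpinChain

theorem openSys : OpenSys Xo Yo Zr where
  two := twoWay_Zr
  joint := fun β hβ => JXYZ_open β hβ
  Ypos := fun β _ N hN => Yo_pos β N hN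
  Xpos := fun β _ N hN => Xo_pos β N hN
  Ytime := fun β _ N hN => PSL_Yo_time β N (by omega)

/-- Invariant of the joint iteration. -/
structure OInv (Y Z : ℝ → ℕ → ℝ) (u ρ β : ℝ) (n : ℕ) : Prop where
  hβ : 0 < β
  hn : 2 ≤ n
  hne : Even n
  ring : (1 + u ^ 2) * Z β n ^ 4 ≤ (1 + u) ^ 2 * Z (2 * β) (2 * n)
  opn : (1 - ρ) * (Y β n ^ 2 * Z (2 * β) n) ≤ Y (2 * β) (2 * n)

theorem OInv.next {X Y Z : ℝ → ℕ → ℝ} (h : OpenSys X Y Z) {u ρ β : ℝ} {n : ℕ}
    (hI : OInv Y Z u ρ β n) (hu0 : 0 ≤ u) (hu : u ≤ 1 / 12) (hρ0 : 0 ≤ ρ) (hρ : ρ < 1 / 2)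
    (w S : ℝ) (hw0 : 0 ≤ w) (hw1 : w < 1)
    (hS : S = (1 + ρ * u / (1 - ρ)) * (1 + u ^ 2))
    (hw : (1 + w ^ 2) * S * (1 + u) ^ 3 ≤ (1 + w) ^ 2 * (1 - ρ))
    {u' ρ' : ℝ} (hu' : u' = 8 * u ^ 2) (hρ'1 : ρ' ≤ 1)
    (hρ' : (1 - ρ') * ((1 + w ^ 2) ^ 2 * S ^ 2) ≤ 1) :
    OInv Y Z u' ρ' (2 * β) (2 * n) := by
  have hβ := hI.hβ
  have hn := hI.hn
  have e1 : 2 * (2 * β) = 4 * β := by ring
  have e2 : 2 * (2 * n) = 4 * n := by ring
  refine ⟨by linarith, by omega, even_two_mul n, ?_, ?_⟩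
  · have := h.two.step hβ hn hI.hne hu0 hu hI.ring
    rw [hu', e1, e2]
    exact this
  · have := h.step hβ hn hI.hne hu0 (by linarith) hρ0 hρ hw0 hw1 hI.ring hI.opn hS hw
    have hY : 0 < Y (4 * β) (4 * n) := h.Ypos _ (by linarith) _ (by omega)
    rw [e1, e2]
    calc (1 - ρ') * (Y (2 * β) (2 * n) ^ 2 * Z (4 * β) (2 * n))
        ≤ (1 - ρ') * ((1 + w ^ 2) ^ 2 * S ^ 2 * Y (4 * β) (4 * n)) :=
          mul_le_mul_of_nonneg_left this (by linarith)
      _ = (1 - ρ') * ((1 + w ^ 2) ^ 2 * S ^ 2) * Y (4 * β) (4 * n) := by ring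
      _ ≤ 1 * Y (4 * β) (4 * n) := mul_le_mul_of_nonneg_right hρ' hY.le
      _ = Y (4 * β) (4 * n) := one_mul _

/-- the doubly exponential phase of the iteration. -/
theorem OInv.tail {X Y Z : ℝ → ℕ → ℝ} (h : OpenSys X Y Z) {r s β : ℝ} {n : ℕ}
    (hr0 : 0 ≤ r) (hr : r ≤ 1 / 100) (hs0 : 0 ≤ s) (hs : s ≤ r / 100)
    (hI : OInv Y Z (s / 8) (r / 2) β n) :
    OInv Y Z (s ^ 2 / 8) (r ^ 2 / 2) (2 * β) (2 * n) := by
  have hu : s / 8 ≤ 1 / 12 := by linarith
  have hs1 : s ≤ 1 / 10000 := by linarith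
  -- bound on `S`
  have hSb : (1 + (r / 2) * (s / 8) / (1 - r / 2)) * (1 + (s / 8) ^ 2) ≤ 1 + r ^ 2 / 1000 := by
    have h1 : (r / 2) * (s / 8) / (1 - r / 2) ≤ r ^ 2 / 1500 := by
      rw [div_le_iff₀ (by linarith)]
      nlinarith
    have h2 : (s / 8) ^ 2 ≤ r ^ 2 / 100000 := by nlinarith
    have h3 : 0 ≤ (r / 2) * (s / 8) / (1 - r / 2) := by
      apply div_nonneg (by positivity); linarith
    calc (1 + (r / 2) * (s / 8) / (1 - r / 2)) * (1 + (s / 8) ^ 2)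
        ≤ (1 + r ^ 2 / 1500) * (1 + r ^ 2 / 100000) := by gcongr
      _ ≤ 1 + r ^ 2 / 1000 := by
        have hq0 : 0 ≤ r ^ 2 := sq_nonneg r
        have hq1 : r ^ 2 ≤ 1 := by nlinarith
        generalize r ^ 2 = q at hq0 hq1
        nlinarith
  have hS0 : 0 ≤ (1 + (r / 2) * (s / 8) / (1 - r / 2)) * (1 + (s / 8) ^ 2) := by
    have h3 : 0 ≤ (r / 2) * (s / 8) / (1 - r / 2) := by
      apply div_nonneg (by positivity); linarith
    positivity
  refine OInv.next h hI (by linarith) hu (by linarith) (by linarith) (3 / 10 * r) _ (by linarith)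
    (by linarith) rfl ?_ (by ring) (by nlinarith) ?_
  · have h4 : (1 + s / 8) ^ 3 ≤ 1 + r / 200 := by
      have : s / 8 ≤ r / 800 := by linarith
      have h5 : (1 + s / 8) ^ 3 ≤ (1 + r / 800) ^ 3 := by gcongr
      nlinarith [sq_nonneg r, mul_nonneg hr0 (sq_nonneg r)]
    calc (1 + (3 / 10 * r) ^ 2) * ((1 + (r / 2) * (s / 8) / (1 - r / 2)) * (1 + (s / 8) ^ 2)) *
          (1 + s / 8) ^ 3 ≤ (1 + (3 / 10 * r) ^ 2) * (1 + r ^ 2 / 1000) * (1 + r / 200) := by
            gcongr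
      _ ≤ (1 + 3 / 10 * r) ^ 2 * (1 - r / 2) := by
            have e : (1 + 3 / 10 * r) ^ 2 * (1 - r / 2) -
              (1 + (3 / 10 * r) ^ 2) * (1 + r ^ 2 / 1000) * (1 + r / 200) =
              r * (19 / 200) - r ^ 2 * (301 / 1000) - r ^ 3 * (9/200 + 9/20000 + 1/200000)
              - r ^ 4 * (9/100000) - r ^ 5 * (9/20000000) := by ring
            have e2 : r ^ 2 ≤ r * (1 / 100) := by nlinarith
            have e3 : r ^ 3 ≤ r * (1 / 10000) := by
              calc r ^ 3 = r * r ^ 2 := by ring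
                _ ≤ r * (1 / 100) ^ 2 := by gcongr
                _ = _ := by ring
            have e4 : r ^ 4 ≤ r * (1 / 1000000) := by
              calc r ^ 4 = r * r ^ 3 := by ring
                _ ≤ r * (1 / 100) ^ 3 := by gcongr
                _ = _ := by ring
            have e5 : r ^ 5 ≤ r * (1 / 100000000) := by
              calc r ^ 5 = r * r ^ 4 := by ring
                _ ≤ r * (1 / 100) ^ 4 := by gcongr
                _ = _ := by ring
            nlinarith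
  · have h6 : ((1 + (r / 2) * (s / 8) / (1 - r / 2)) * (1 + (s / 8) ^ 2)) ^ 2 ≤
        (1 + r ^ 2 / 1000) ^ 2 := by gcongr
    have hr2 : r ^ 2 ≤ 1 / 10000 := by nlinarith
    have hr20 : 0 ≤ r ^ 2 := by positivity
    calc (1 - r ^ 2 / 2) * ((1 + (3 / 10 * r) ^ 2) ^ 2 *
          ((1 + (r / 2) * (s / 8) / (1 - r / 2)) * (1 + (s / 8) ^ 2)) ^ 2)
        ≤ (1 - r ^ 2 / 2) * ((1 + (3 / 10 * r) ^ 2) ^ 2 * (1 + r ^ 2 / 1000) ^ 2) := by
          have : 0 ≤ 1 - r ^ 2 / 2 := by linarith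
          gcongr
      _ ≤ 1 := by
          have e : (1 - r ^ 2 / 2) * ((1 + (3 / 10 * r) ^ 2) ^ 2 * (1 + r ^ 2 / 1000) ^ 2) =
            (1 - r ^ 2 / 2) * ((1 + 9 / 100 * r ^ 2) ^ 2 * (1 + r ^ 2 / 1000) ^ 2) := by ring
          rw [e]
          set q := r ^ 2 with hq
          have f1 : (1 + 9 / 100 * q) ^ 2 ≤ 1 + 19 / 100 * q := by nlinarith
          have f2 : (1 + q / 1000) ^ 2 ≤ 1 + 3 / 1000 * q := by nlinarith
          have f3 : (1 + 9 / 100 * q) ^ 2 * (1 + q / 1000) ^ 2 ≤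
              (1 + 19 / 100 * q) * (1 + 3 / 1000 * q) := by gcongr
          have f4 : (1 + 19 / 100 * q) * (1 + 3 / 1000 * q) ≤ 1 + q / 4 := by nlinarith
          calc (1 - q / 2) * ((1 + 9 / 100 * q) ^ 2 * (1 + q / 1000) ^ 2)
              ≤ (1 - q / 2) * (1 + q / 4) := by
                apply mul_le_mul_of_nonneg_left (f3.trans f4); linarith
            _ ≤ 1 := by nlinarith

/-- The first five (explicit) steps. -/
theorem OInv.five {X Y Z : ℝ → ℕ → ℝ} (h : OpenSys X Y Z) {β₀ : ℝ} (hβ : 0 < β₀) {L₀ : ℕ}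
    (hL : 2 ≤ L₀) (hLe : Even L₀)
    (hR : (197 : ℝ) / 225 * Z β₀ L₀ ^ 4 ≤ Z (2 * β₀) (2 * L₀))
    (hRo : (78 : ℝ) / 100 * (Y β₀ L₀ ^ 2 * Z (2 * β₀) L₀) ≤ Y (2 * β₀) (2 * L₀)) :
    OInv Y Z ((4 / 7) ^ 32 / 8) (3 / 6250000) (2 ^ 5 * β₀) (2 ^ 5 * L₀) := by
  have i0 : OInv Y Z (1 / 14) (22 / 100) β₀ L₀ :=
    ⟨hβ, hL, hLe, by nlinarith, by norm_num at hRo ⊢; exact hRo⟩
  have i1 : OInv Y Z (2 / 49) (2407 / 10000) (2 * β₀) (2 * L₀) :=
    OInv.next h i0 (by norm_num) (by norm_num) (by norm_num) (by norm_num) (863 / 2500) _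
      (by norm_num) (by norm_num) rfl (by norm_num) (by norm_num) (by norm_num) (by norm_num)
  have i2 : OInv Y Z (32 / 2401) (79 / 500) (2 * (2 * β₀)) (2 * (2 * L₀)) :=
    OInv.next h i1 (by norm_num) (by norm_num) (by norm_num) (by norm_num) (2721 / 10000) _
      (by norm_num) (by norm_num) rfl (by norm_num) (by norm_num) (by norm_num) (by norm_num)
  have i3 : OInv Y Z (8192 / 5764801) (17 / 500) (2 * (2 * (2 * β₀))) (2 * (2 * (2 * L₀))) :=
    OInv.next h i2 (by norm_num) (by norm_num) (by norm_num) (by norm_num) (1213 / 10000) _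
      (by norm_num) (by norm_num) rfl (by norm_num) (by norm_num) (by norm_num) (by norm_num)
  have i4 : OInv Y Z (536870912 / 33232930569601) (223 / 250000) (2 * (2 * (2 * (2 * β₀))))
      (2 * (2 * (2 * (2 * L₀)))) :=
    OInv.next h i3 (by norm_num) (by norm_num) (by norm_num) (by norm_num) (19843 / 1000000) _
      (by norm_num) (by norm_num) rfl (by norm_num) (by norm_num) (by norm_num) (by norm_num)
  have i5 : OInv Y Z ((4 / 7) ^ 32 / 8) (3 / 6250000) (2 * (2 * (2 * (2 * (2 * β₀)))))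
      (2 * (2 * (2 * (2 * (2 * L₀))))) :=
    OInv.next h i4 (by norm_num) (by norm_num) (by norm_num) (by norm_num) (23533 / 50000000) _
      (by norm_num) (by norm_num) rfl (by norm_num) (by norm_num) (by norm_num) (by norm_num)
  have e1 : 2 ^ 5 * β₀ = 2 * (2 * (2 * (2 * (2 * β₀)))) := by ring
  have e2 : 2 ^ 5 * L₀ = 2 * (2 * (2 * (2 * (2 * L₀)))) := by ring
  rw [e1, e2]
  exact i5

theorem four_seven_le (k : ℕ) (hk : 5 ≤ k) :
    ((4 : ℝ) / 7) ^ (2 ^ k) ≤ (69 / 100) ^ (2 ^ k) / 100 := by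
  obtain ⟨m, hm⟩ : ∃ m, 2 ^ k = 32 + m := ⟨2 ^ k - 32, by
    have : 2 ^ 5 ≤ 2 ^ k := Nat.pow_le_pow_right (by norm_num) hk
    omega⟩
  rw [hm, pow_add, pow_add]
  have h1 : ((4 : ℝ) / 7) ^ 32 ≤ (69 / 100) ^ 32 / 100 := by norm_num
  have h2 : ((4 : ℝ) / 7) ^ m ≤ (69 / 100) ^ m :=
    pow_le_pow_left₀ (by norm_num) (by norm_num) m
  calc ((4 : ℝ) / 7) ^ 32 * (4 / 7) ^ m ≤ (69 / 100) ^ 32 / 100 * (69 / 100) ^ m := by gcongr
    _ = _ := by ring

theorem r_le (k : ℕ) (hk : 5 ≤ k) : ((69 : ℝ) / 100) ^ (2 ^ k) ≤ 1 / 100 := by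
  have h5 : 2 ^ 5 ≤ 2 ^ k := Nat.pow_le_pow_right (by norm_num) hk
  calc ((69 : ℝ) / 100) ^ (2 ^ k) ≤ (69 / 100) ^ (2 ^ 5) :=
        pow_le_pow_of_le_one (by norm_num) (by norm_num) h5
    _ ≤ 1 / 100 := by norm_num

theorem OInv.all {X Y Z : ℝ → ℕ → ℝ} (h : OpenSys X Y Z) {β₀ : ℝ} (hβ : 0 < β₀) {L₀ : ℕ}
    (hL : 2 ≤ L₀) (hLe : Even L₀)
    (hR : (197 : ℝ) / 225 * Z β₀ L₀ ^ 4 ≤ Z (2 * β₀) (2 * L₀))
    (hRo : (78 : ℝ) / 100 * (Y β₀ L₀ ^ 2 * Z (2 * β₀) L₀) ≤ Y (2 * β₀) (2 * L₀))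
    (k : ℕ) (hk : 5 ≤ k) :
    OInv Y Z ((4 / 7) ^ (2 ^ k) / 8) ((69 / 100) ^ (2 ^ k) / 2) (2 ^ k * β₀) (2 ^ k * L₀) := by
  induction k, hk using Nat.le_induction with
  | base =>
    have i5 := OInv.five h hβ hL hLe hR hRo
    refine ⟨i5.hβ, i5.hn, i5.hne, i5.ring, ?_⟩
    have hY : 0 < Y (2 ^ 5 * β₀) (2 ^ 5 * L₀) := h.Ypos _ i5.hβ _ (by have := i5.hn; omega)
    have hZ : 0 < Z (2 * (2 ^ 5 * β₀)) (2 ^ 5 * L₀) :=
      h.two.pos _ (by have := i5.hβ; linarith) _ i5.hn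
    refine le_trans (mul_le_mul_of_nonneg_right ?_ (by positivity)) i5.opn
    norm_num
  | succ k hk ih =>
    have := OInv.tail h (by positivity) (r_le k hk) (by positivity) (four_seven_le k hk) ih
    have e1 : ((4 : ℝ) / 7) ^ (2 ^ (k + 1)) = ((4 / 7) ^ (2 ^ k)) ^ 2 := by
      rw [← pow_mul, pow_succ]
    have e2 : ((69 : ℝ) / 100) ^ (2 ^ (k + 1)) = ((69 / 100) ^ (2 ^ k)) ^ 2 := by
      rw [← pow_mul, pow_succ]
    have e3 : (2 : ℝ) ^ (k + 1) * β₀ = 2 * (2 ^ k * β₀) := by ring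
    have e4 : 2 ^ (k + 1) * L₀ = 2 * (2 ^ k * L₀) := by ring
    rw [e1, e2, e3, e4]
    exact this

/-- Numeric iteration (abstract): from ring `u₀ = 1/14` and open `ρ₀ = 22/100` at `(β₀, L₀)`. -/
theorem open_iterate {X Y Z : ℝ → ℕ → ℝ} (h : OpenSys X Y Z) {β₀ : ℝ} (hβ : 0 < β₀) {L₀ : ℕ}
    (hL : 2 ≤ L₀) (hLe : Even L₀)
    (hR : (197 : ℝ) / 225 * Z β₀ L₀ ^ 4 ≤ Z (2 * β₀) (2 * L₀))
    (hRo : (78 : ℝ) / 100 * (Y β₀ L₀ ^ 2 * Z (2 * β₀) L₀) ≤ Y (2 * β₀) (2 * L₀))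
    (k : ℕ) (hk : 5 ≤ k) :
    ∃ u ρ : ℝ, 0 ≤ u ∧ 0 ≤ ρ ∧ u ≤ (69 / 100) ^ (2 ^ k) / 8 ∧ ρ ≤ (69 / 100) ^ (2 ^ k) / 2 ∧
      (1 + u ^ 2) * Z (2 ^ k * β₀) (2 ^ k * L₀) ^ 4 ≤
        (1 + u) ^ 2 * Z (2 * (2 ^ k * β₀)) (2 * (2 ^ k * L₀)) ∧
      (1 - ρ) * (Y (2 ^ k * β₀) (2 ^ k * L₀) ^ 2 * Z (2 * (2 ^ k * β₀)) (2 ^ k * L₀)) ≤
        Y (2 * (2 ^ k * β₀)) (2 * (2 ^ k * L₀)) := by
  have hI := OInv.all h hβ hL hLe hR hRo k hk
  refine ⟨_, _, by positivity, by positivity, ?_, le_rfl, hI.ring, hI.opn⟩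
  have := four_seven_le k hk
  have h0 : (0 : ℝ) ≤ (69 / 100) ^ (2 ^ k) := by positivity
  linarith

theorem seven_tenths_lt (β₀ : ℝ) (hβ60 : β₀ ≤ 60) (k : ℕ) :
    ((7 : ℝ) / 10) ^ (2 ^ k) < Real.exp (-(2 ^ k * β₀) * (Real.log 10 / 392)) := by
  have h1 : 15 * Real.log 10 < 98 * Real.log (10 / 7) := by
    have : Real.log ((10 : ℝ) ^ 15) < Real.log ((10 / 7) ^ 98) :=
      Real.log_lt_log (by positivity) (by norm_num)
    rw [Real.log_pow, Real.log_pow] at this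
    exact_mod_cast this
  have h0 : 0 < Real.log 10 := Real.log_pos (by norm_num)
  have h2 : β₀ * (Real.log 10 / 392) < Real.log (10 / 7) := by
    have : β₀ * Real.log 10 ≤ 60 * Real.log 10 := by gcongr
    linarith
  have h3 : (7 : ℝ) / 10 < Real.exp (-β₀ * (Real.log 10 / 392)) := by
    rw [← Real.log_lt_iff_lt_exp (by norm_num)]
    have e : Real.log (7 / 10) = -Real.log (10 / 7) := by
      rw [← Real.log_inv]; norm_num
    rw [e]
    linarith
  have h4 : Real.exp (-(2 ^ k * β₀) * (Real.log 10 / 392)) =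
      Real.exp (-β₀ * (Real.log 10 / 392)) ^ (2 ^ k) := by
    rw [← Real.exp_nat_mul]
    congr 1
    push_cast
    ring
  rw [h4]
  exact pow_lt_pow_left₀ h3 (by norm_num) (by positivity)

theorem three_halves_r (k : ℕ) (hk : 5 ≤ k) :
    3 / 2 * ((69 : ℝ) / 100) ^ (2 ^ k) ≤ (7 / 10) ^ (2 ^ k) := by
  obtain ⟨m, hm⟩ : ∃ m, 2 ^ k = 32 + m := ⟨2 ^ k - 32, by
    have : 2 ^ 5 ≤ 2 ^ k := Nat.pow_le_pow_right (by norm_num) hk
    omega⟩
  rw [hm, pow_add, pow_add]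
  have h1 : 3 / 2 * ((69 : ℝ) / 100) ^ 32 ≤ (7 / 10) ^ 32 := by norm_num
  have h2 : ((69 : ℝ) / 100) ^ m ≤ (7 / 10) ^ m :=
    pow_le_pow_left₀ (by norm_num) (by norm_num) m
  calc 3 / 2 * (((69 : ℝ) / 100) ^ 32 * (69 / 100) ^ m)
      = 3 / 2 * ((69 : ℝ) / 100) ^ 32 * (69 / 100) ^ m := by ring
    _ ≤ (7 / 10) ^ 32 * (7 / 10) ^ m := by gcongr

theorem final_numeric {ρ u v a b : ℝ} (hρ0 : 0 ≤ ρ) (hu0 : 0 ≤ u) (hv : v ≤ 1 / 10)
    (hρ : 3 * ρ ≤ v) (hu : 12 * u ≤ v) (ha : 0 ≤ a)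
    (h : (1 - 2 * ρ) * (1 - ρ) ^ 2 * a ≤ (1 + u) * b) :
    (1 + v ^ 2) * a ≤ (1 + v) ^ 2 * b := by
  have hv0 : 0 ≤ v := by linarith
  have h1 : 1 - 4 * ρ ≤ (1 - 2 * ρ) * (1 - ρ) ^ 2 := by nlinarith [mul_nonneg hρ0 (sq_nonneg ρ)]
  have h2 : (1 - 4 / 3 * v) * a ≤ (1 + v / 12) * b := by
    have hb : 0 ≤ b := by
      have : 0 ≤ (1 - 2 * ρ) * (1 - ρ) ^ 2 * a := by
        apply mul_nonneg (mul_nonneg (by linarith) (sq_nonneg _)) ha
      nlinarith
    calc (1 - 4 / 3 * v) * a ≤ (1 - 2 * ρ) * (1 - ρ) ^ 2 * a :=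
          mul_le_mul_of_nonneg_right (by linarith) ha
      _ ≤ (1 + u) * b := h
      _ ≤ (1 + v / 12) * b := mul_le_mul_of_nonneg_right (by linarith) hb
  have h3 : (1 + v ^ 2) * (1 + v / 12) ≤ (1 + v) ^ 2 * (1 - 4 / 3 * v) := by
    have e : (1 + v) ^ 2 * (1 - 4 / 3 * v) - (1 + v ^ 2) * (1 + v / 12) =
      v * (7 / 12 - 8 / 3 * v - 17 / 12 * v ^ 2) := by ring
    have : 0 ≤ v * (7 / 12 - 8 / 3 * v - 17 / 12 * v ^ 2) := by
      apply mul_nonneg hv0; nlinarith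
    linarith
  have h4 : (1 + v / 12) * ((1 + v ^ 2) * a) ≤ (1 + v / 12) * ((1 + v) ^ 2 * b) := by
    calc (1 + v / 12) * ((1 + v ^ 2) * a) = (1 + v ^ 2) * (1 + v / 12) * a := by ring
      _ ≤ (1 + v) ^ 2 * (1 - 4 / 3 * v) * a := mul_le_mul_of_nonneg_right h3 ha
      _ = (1 + v) ^ 2 * ((1 - 4 / 3 * v) * a) := by ring
      _ ≤ (1 + v) ^ 2 * ((1 + v / 12) * b) := mul_le_mul_of_nonneg_left h2 (sq_nonneg _)
      _ = (1 + v / 12) * ((1 + v) ^ 2 * b) := by ring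
  exact le_of_mul_le_mul_left h4 (by linarith)

theorem exists_scale (L₀ N : ℕ) (hL : 2 ≤ L₀) (hL60 : L₀ ≤ 60) (hN : 1921 ≤ N) :
    ∃ k, 5 ≤ k ∧ 2 ^ k * L₀ < N ∧ N ≤ 2 * (2 ^ k * L₀) := by
  -- take `k` maximal with `2 ^ k * L₀ < N`
  have hfin : ∃ k, N ≤ 2 * (2 ^ k * L₀) := by
    refine ⟨N, ?_⟩
    have : N < 2 ^ N := Nat.lt_two_pow_self
    nlinarith
  classical
  refine ⟨Nat.find hfin, ?_, ?_, Nat.find_spec hfin⟩
  · by_contra hlt
    push Not at hlt
    have h1 := Nat.find_spec hfin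
    have h2 : 2 ^ (Nat.find hfin) ≤ 2 ^ 4 := Nat.pow_le_pow_right (by norm_num) (by omega)
    have : 2 ^ (Nat.find hfin) * L₀ ≤ 16 * 60 := Nat.mul_le_mul h2 hL60
    omega
  · rcases Nat.eq_zero_or_pos (Nat.find hfin) with h0 | hpos
    · rw [h0]; omega
    · have := Nat.find_min hfin (m := Nat.find hfin - 1) (by omega)
      push Not at this
      have e : 2 * (2 ^ (Nat.find hfin - 1) * L₀) = 2 ^ (Nat.find hfin) * L₀ := by
        rw [← mul_assoc, mul_comm 2, ← pow_succ]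
        congr 2
        omega
      omega

theorem S0546_of_base (β₀ : ℝ) (hβ : 0 < β₀) (hβ60 : β₀ ≤ 60) (L₀ : ℕ) (hL : 2 ≤ L₀)
    (hL60 : L₀ ≤ 60) (hLe : Even L₀)
    (hR : (197 : ℝ) / 225 * Zr β₀ L₀ ^ 4 ≤ Zr (2 * β₀) (2 * L₀))
    (hRo : (78 : ℝ) / 100 * (Yo β₀ L₀ ^ 2 * Zr (2 * β₀) L₀) ≤ Yo (2 * β₀) (2 * L₀))
    (L : ℕ) (hLL : 960 ≤ L) :
    HasSimpleGroundStateWithGap (openChainEndField (2 * L) (3 / 5)) (Real.log 10 / 392) := by
  obtain ⟨k, hk5, hk1, hk2⟩ := exists_scale L₀ (2 * L + 1) hL hL60 (by omega)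
  obtain ⟨u, ρ, hu0, hρ0, hu, hρ, h1, h2⟩ := open_iterate openSys hβ hL hLe hR hRo k hk5
  have hr := r_le k hk5
  have h2k : (0 : ℝ) < 2 ^ k := by positivity
  have hX := openSys.purity_odd (β := 2 ^ k * β₀) (by positivity) (n := 2 ^ k * L₀)
    (by
      have : 1 ≤ 2 ^ k := Nat.one_le_two_pow
      nlinarith)
    (Even.mul_left hLe _) hu0 (by linarith) hρ0 (by linarith) h1 h2
    (N := 2 * L + 1) ⟨L, rfl⟩ hk1 hk2
  have h3 := three_halves_r k hk5
  have hv : ((7 : ℝ) / 10) ^ (2 ^ k) ≤ 1 / 10 := by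
    have h5 : 2 ^ 5 ≤ 2 ^ k := Nat.pow_le_pow_right (by norm_num) hk5
    calc ((7 : ℝ) / 10) ^ (2 ^ k) ≤ (7 / 10) ^ (2 ^ 5) :=
          pow_le_pow_of_le_one (by norm_num) (by norm_num) h5
      _ ≤ 1 / 10 := by norm_num
  have hr0 : (0 : ℝ) ≤ (69 / 100) ^ (2 ^ k) := by positivity
  have hP := final_numeric (v := ((7 : ℝ) / 10) ^ (2 ^ k)) hρ0 hu0 hv (by linarith) (by linarith)
    (sq_nonneg _) hX
  have hH : (openChainEndField (2 * L) (3 / 5)).IsHermitian := by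
    rw [← openH_same]
    exact openH_isHermitian _ _ _
  have : Nonempty (Fin (2 * L + 1) → Fin 3) := ⟨fun _ => 0⟩
  refine gap_of_purity hH (β := 2 ^ k * β₀) (u := (7 / 10) ^ (2 ^ k)) (by positivity)
    (by positivity) (by linarith) ?_ (seven_tenths_lt β₀ hβ60 k)
  rw [Xo_eq, Xo_eq] at hP
  exact hP

end Crest.Agent.R347
end

-- ▼ part R347/Final
section

/-! S0545 and S0546 from the four certified data structures. -/

set_option autoImplicit false

namespace Crest.Agent.R347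

open Matrix Crest.MathPhysics.SpinChain

theorem S0545_final (hT : RingTraces) (hM : RingMPS) :
    (∀ L : ℕ, Even L → 60 ≤ L →
      HasSimpleGroundStateWithGap (heisenbergRing L) (4 / 105 * Real.log (80 / 79))) ∧
    (∀ L : ℕ, Even L → 2304 ≤ L →
      HasSimpleGroundStateWithGap (heisenbergRing L) (Real.log 20 / 784)) := by
  refine S0545_of_base 48 (by norm_num) (by norm_num) 40 (by norm_num) (by norm_num)
    (by exact ⟨20, rfl⟩) ?_
  have h := base545 hT hM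
  have h0 : 0 ≤ Zr 48 40 ^ 4 := pow_nonneg (Zr_pos 48 40 (by norm_num)).le 4
  refine le_trans ?_ h
  exact mul_le_mul_of_nonneg_right (by norm_num) h0

theorem S0546_final (hT : RingTraces) (hM : RingMPS) (hO : OpenTraces) (hP : OpenMPS)
    (L : ℕ) (hLL : 960 ≤ L) :
    HasSimpleGroundStateWithGap (openChainEndField (2 * L) (3 / 5)) (Real.log 10 / 392) :=
  S0546_of_base 48 (by norm_num) (by norm_num) 40 (by norm_num) (by norm_num)
    (by exact ⟨20, rfl⟩) (base545 hT hM) (base546 hT hM hO hP) L hLL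

end Crest.Agent.R347
end

-- ▼ part R347/RingTracesCert
section

/-! Certified ring traces on 4, 6 and 8 sites. -/

set_option autoImplicit false

namespace Crest.Agent.R347

/-- The certified twisted ring traces at `β = 6`. -/
theorem ringTraces : RingTraces where
  z00_4 := Num.z00_4
  z30_4 := Num.z30_4
  z03_4 := Num.z03_4
  z33_4 := Num.z33_4
  z13_4 := Num.z13_4
  z00_6 := Num.z00_6
  z30_6 := Num.z30_6
  z03_6 := Num.z03_6
  z33_6 := Num.z33_6
  z13_6 := Num.z13_6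
  z00_8 := Num.z00_8
  z30_8 := Num.z30_8
  z03_8 := Num.z03_8
  z33_8 := Num.z33_8
  z13_8 := Num.z13_8

end Crest.Agent.R347
end

-- ▼ part R347/RingMPSCert

/-! R347: the certified ring matrix product states. -/

set_option autoImplicit false

namespace Crest.Agent.R347

open RingErr

/-- the chains of the six sectors -/
noncomputable def ringChains : ∀ k : Fin 6, Chain (secN k)
  | ⟨0, _⟩ => Sec0.pk.chain (secN 0)
  | ⟨1, _⟩ => Sec1.pk.chain (secN 1)
  | ⟨2, _⟩ => Sec2.pk.chain (secN 2)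
  | ⟨3, _⟩ => Sec3.pk.chain (secN 3)
  | ⟨4, _⟩ => Sec4.pk.chain (secN 4)
  | ⟨5, _⟩ => Sec5.pk.chain (secN 5)

/-- The certified matrix product states on the rings of 40 and 80 sites. -/
theorem ringMPS : RingMPS := by
  refine ringMPS_of_facts ringChains ?_
  intro k
  match k with
  | ⟨0, _⟩ => exact Sec0.cert
  | ⟨1, _⟩ => exact Sec1.cert
  | ⟨2, _⟩ => exact Sec2.cert
  | ⟨3, _⟩ => exact Sec3.cert
  | ⟨4, _⟩ => exact Sec4.cert
  | ⟨5, _⟩ => exact Sec5.cert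

end Crest.Agent.R347
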